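import Vale.Agent.P153.Bd5.B1

/-!
P153, block INTF: the discrete interface, as a path of directed dual edges.

A state is a pair `s = (l, r)` of adjacent vertices, `l` on the left and `r` on the right of the
travelling direction. `ah s` is the third vertex of the face ahead, `fa s` is this face. The next
state is `(ah s, r)` if the height of `ah s` is positive and `(l, ah s)` otherwise.
-/

set_option linter.all false

namespace Vale.Agent.P153.R2.INTF

open Vale.Agent.P153 Vale.Agent.P153.Topo Vale.Agent.P153.F.Dom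

abbrev Pt := ℤ × ℤ
abbrev Tri := (ℤ × ℤ) × Bool
abbrev St := (ℤ × ℤ) × (ℤ × ℤ)

/-- Rotation by `-60` degrees. -/
def rm (v : ℤ × ℤ) : ℤ × ℤ := (v.1 + v.2, -v.1)

/-- The third vertex of the face ahead. -/
def ah (s : St) : ℤ × ℤ := s.2 + rm (s.1 - s.2)

/-- The face ahead. -/
def fa (s : St) : Tri :=
  if s.1 - s.2 = (1, 0) then (s.2 - (0, 1), true)
  else if s.1 - s.2 = (0, 1) then (s.2, false)
  else if s.1 - s.2 = (-1, 1) then (s.2 - (1, 0), true)
  else if s.1 - s.2 = (-1, 0) then (s.2 - (1, 0), false)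
  else if s.1 - s.2 = (0, -1) then (s.2 - (1, 1), true)
  else (s.2 - (0, 1), false)

/-- The third vertex of the face behind. -/
def bh (s : St) : ℤ × ℤ := ah (s.2, s.1)

/-- The face behind. -/
def fb (s : St) : Tri := fa (s.2, s.1)

/-- The next state. -/
def nx (h : ℤ × ℤ → ℤ) (s : St) : St := if 0 < h (ah s) then (ah s, s.2) else (s.1, ah s)

/-- The states of the interface: positive on the left and negative on the right. -/
def Good (h : ℤ × ℤ → ℤ) (s : St) : Prop := Adj s.1 s.2 ∧ 0 < h s.1 ∧ h s.2 < 0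

theorem st_cases {s : St} (h : Adj s.1 s.2) :
    ∃ a b : ℤ, s = ((a + 1, b), (a, b)) ∨ s = ((a, b + 1), (a, b)) ∨ s = ((a - 1, b + 1), (a, b)) ∨
      s = ((a - 1, b), (a, b)) ∨ s = ((a, b - 1), (a, b)) ∨ s = ((a + 1, b - 1), (a, b)) := by
  obtain ⟨⟨l1, l2⟩, ⟨r1, r2⟩⟩ := s
  refine ⟨r1, r2, ?_⟩
  have h' := adj_iff.1 h
  simp only at h'
  simp only [Prod.mk.injEq]
  rcases h' with h | h | h | h | h | h
  all_goals obtain ⟨h1, h2⟩ := h
  · right; right; right; left; exact ⟨⟨by omega, by omega⟩, trivial⟩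
  · left; exact ⟨⟨by omega, by omega⟩, trivial⟩
  · right; right; right; right; left; exact ⟨⟨by omega, by omega⟩, trivial⟩
  · right; left; exact ⟨⟨by omega, by omega⟩, trivial⟩
  · right; right; left; exact ⟨⟨by omega, by omega⟩, trivial⟩
  · right; right; right; right; right; exact ⟨⟨by omega, by omega⟩, trivial⟩

theorem ah_adj1 {s : St} (h : Adj s.1 s.2) : Adj s.1 (ah s) := by
  obtain ⟨a, b, h | h | h | h | h | h⟩ := st_cases h <;> subst h <;>
    simp [adj_iff, ah, rm] <;> omega

theorem ah_adj2 {s : St} (h : Adj s.1 s.2) : Adj (ah s) s.2 := by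
  obtain ⟨a, b, h | h | h | h | h | h⟩ := st_cases h <;> subst h <;>
    simp [adj_iff, ah, rm] <;> omega

theorem fb_left {s : St} (h : Adj s.1 s.2) : fb (ah s, s.2) = fa s := by
  obtain ⟨a, b, h | h | h | h | h | h⟩ := st_cases h <;> subst h <;>
    simp [fa, fb, ah, rm, Prod.ext_iff] <;> omega

theorem fb_right {s : St} (h : Adj s.1 s.2) : fb (s.1, ah s) = fa s := by
  obtain ⟨a, b, h | h | h | h | h | h⟩ := st_cases h <;> subst h <;>
    simp [fa, fb, ah, rm, Prod.ext_iff] <;> omega

theorem bh_left {s : St} (h : Adj s.1 s.2) : bh (ah s, s.2) = s.1 := by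
  obtain ⟨a, b, h | h | h | h | h | h⟩ := st_cases h <;> subst h <;>
    simp [bh, ah, rm, Prod.ext_iff] <;> omega

theorem bh_right {s : St} (h : Adj s.1 s.2) : bh (s.1, ah s) = s.2 := by
  obtain ⟨a, b, h | h | h | h | h | h⟩ := st_cases h <;> subst h <;>
    simp [bh, ah, rm, Prod.ext_iff] <;> omega

theorem corners_fa {s : St} (h : Adj s.1 s.2) (v : ℤ × ℤ) :
    v ∈ corners (fa s) ↔ v = s.1 ∨ v = s.2 ∨ v = ah s := by
  obtain ⟨a, b, h | h | h | h | h | h⟩ := st_cases h <;> subst h <;>
    simp [corners, fa, ah, rm, Prod.ext_iff] <;> omega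

theorem fa_eq {s s' : St} (h : Adj s.1 s.2) (h' : Adj s'.1 s'.2) (he : fa s = fa s') :
    s' = s ∨ s' = (s.2, ah s) ∨ s' = (ah s, s.1) := by
  obtain ⟨a, b, h | h | h | h | h | h⟩ := st_cases h <;> subst h <;>
  obtain ⟨a', b', h | h | h | h | h | h⟩ := st_cases h' <;> subst h <;>
    simp [fa, ah, rm, Prod.ext_iff] at he ⊢ <;> omega

/-- The previous state. -/
def pv (h : ℤ × ℤ → ℤ) (s : St) : St := if 0 < h (bh s) then (bh s, s.2) else (s.1, bh s)

theorem nx_adj {h : ℤ × ℤ → ℤ} {s : St} (hs : Adj s.1 s.2) : Adj (nx h s).1 (nx h s).2 := by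
  unfold nx
  split
  · exact ah_adj2 hs
  · exact ah_adj1 hs

theorem nx_good {h : ℤ × ℤ → ℤ} {s : St} (hs : Good h s) (h0 : h (ah s) ≠ 0) :
    Good h (nx h s) := by
  refine ⟨nx_adj hs.1, ?_⟩
  unfold nx
  split
  · exact ⟨by assumption, hs.2.2⟩
  · exact ⟨hs.2.1, by simp only; omega⟩

theorem fb_nx {h : ℤ × ℤ → ℤ} {s : St} (hs : Adj s.1 s.2) : fb (nx h s) = fa s := by
  unfold nx
  split
  · exact fb_left hs
  · exact fb_right hs

theorem pv_nx {h : ℤ × ℤ → ℤ} {s : St} (hs : Good h s) : pv h (nx h s) = s := by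
  obtain ⟨h1, h2, h3⟩ := hs
  unfold nx
  split
  · rw [pv, bh_left h1, if_pos h2]
  · rw [pv, bh_right h1, if_neg (by omega)]

theorem nx_inj {h : ℤ × ℤ → ℤ} {s s' : St} (hs : Good h s) (hs' : Good h s')
    (he : nx h s = nx h s') : s = s' := by
  rw [← pv_nx hs, ← pv_nx hs', he]

theorem fa_inj {h : ℤ × ℤ → ℤ} {s s' : St} (hs : Good h s) (hs' : Good h s')
    (he : fa s = fa s') : s = s' := by
  rcases fa_eq hs.1 hs'.1 he with h1 | h1 | h1
  · exact h1.symm
  · have := hs'.2.1
    rw [h1] at this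
    have := hs.2.2
    simp only at *
    omega
  · have := hs'.2.2
    rw [h1] at this
    have := hs.2.1
    simp only at *
    omega

/-- The interface from the state `s`, stopped when the face ahead is not in `S`. -/
def run (h : ℤ × ℤ → ℤ) (S : Finset Tri) (s : St) : ℕ → St
  | 0 => s
  | k + 1 => if fa (run h S s k) ∈ S then nx h (run h S s k) else run h S s k

/-- The height function has no zero at the vertices of `S`. -/
def NZ (h : ℤ × ℤ → ℤ) (S : Finset Tri) : Prop := ∀ v ∈ verts S, h v ≠ 0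

variable {h h' : ℤ × ℤ → ℤ} {S : Finset Tri} {s : St}

theorem ah_mem (hs : Adj s.1 s.2) (hf : fa s ∈ S) : ah s ∈ verts S :=
  Finset.mem_biUnion.2 ⟨_, hf, (corners_fa hs _).2 (Or.inr (Or.inr rfl))⟩

theorem run_good (hz : NZ h S) (hs : Good h s) (k : ℕ) : Good h (run h S s k) := by
  induction k with
  | zero => exact hs
  | succ k ih =>
    rw [run]
    split
    · exact nx_good ih (hz _ (ah_mem ih.1 (by assumption)))
    · exact ih

/-- The interface is still in the domain after `k` steps. -/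
def Alive (h : ℤ × ℤ → ℤ) (S : Finset Tri) (s : St) (k : ℕ) : Prop :=
  ∀ j < k, fa (run h S s j) ∈ S

theorem Alive.mono {k j : ℕ} (hk : Alive h S s k) (hj : j ≤ k) : Alive h S s j :=
  fun i hi => hk i (by omega)

theorem run_succ {k : ℕ} (hk : fa (run h S s k) ∈ S) :
    run h S s (k + 1) = nx h (run h S s k) := by
  rw [run, if_pos hk]

theorem run_stop {k : ℕ} (hk : fa (run h S s k) ∉ S) (j : ℕ) (hj : k ≤ j) :
    run h S s j = run h S s k := by
  induction j, hj using Nat.le_induction with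
  | base => rfl
  | succ j hj ih => rw [run, ih, if_neg hk]

theorem fb_run (hz : NZ h S) (hs : Good h s) {k : ℕ} (hk : Alive h S s (k + 1)) :
    fb (run h S s (k + 1)) = fa (run h S s k) := by
  rw [run_succ (hk k (Nat.lt_succ_self k))]
  exact fb_nx (run_good hz hs k).1

theorem run_ne (hz : NZ h S) (hs : Good h s) (hb : fb s ∉ S) {i j : ℕ} (hij : i < j)
    (hj : Alive h S s j) : run h S s i ≠ run h S s j := by
  induction i generalizing j with
  | zero =>
    intro he
    obtain ⟨j, rfl⟩ : ∃ m, j = m + 1 := ⟨j - 1, by omega⟩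
    have := fb_run hz hs hj
    rw [← he] at this
    exact hb (by rw [show run h S s 0 = s from rfl] at this; rw [this]; exact hj j (Nat.lt_succ_self j))
  | succ i ih =>
    intro he
    obtain ⟨j, rfl⟩ : ∃ m, j = m + 1 := ⟨j - 1, by omega⟩
    rw [run_succ (hj i (by omega)), run_succ (hj j (by omega))] at he
    exact ih (by omega) (hj.mono (by omega)) (nx_inj (run_good hz hs i) (run_good hz hs j) he)

theorem run_inj (hz : NZ h S) (hs : Good h s) (hb : fb s ∉ S) {i j k : ℕ} (hk : Alive h S s k)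
    (hi : i ≤ k) (hj : j ≤ k) (he : run h S s i = run h S s j) : i = j := by
  rcases lt_trichotomy i j with h1 | h1 | h1
  · exact absurd he (run_ne hz hs hb h1 (hk.mono hj))
  · exact h1
  · exact absurd he.symm (run_ne hz hs hb h1 (hk.mono hi))

theorem fa_run_inj (hz : NZ h S) (hs : Good h s) (hb : fb s ∉ S) {i j k : ℕ}
    (hk : Alive h S s k) (hi : i ≤ k) (hj : j ≤ k)
    (he : fa (run h S s i) = fa (run h S s j)) : i = j :=
  run_inj hz hs hb hk hi hj (fa_inj (run_good hz hs i) (run_good hz hs j) he)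

theorem alive_le (hz : NZ h S) (hs : Good h s) (hb : fb s ∉ S) {k : ℕ} (hk : Alive h S s k) :
    k ≤ S.card := by
  have h1 : ((Finset.range k).image fun j => fa (run h S s j)) ⊆ S := by
    intro t ht
    obtain ⟨j, hj, rfl⟩ := Finset.mem_image.1 ht
    exact hk j (Finset.mem_range.1 hj)
  have h2 : ((Finset.range k).image fun j => fa (run h S s j)).card = k := by
    rw [Finset.card_image_of_injOn, Finset.card_range]
    intro i hi j hj he
    exact fa_run_inj hz hs hb hk (Finset.mem_range.1 (by simpa using hi)).le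
      (Finset.mem_range.1 (by simpa using hj)).le he
  rw [← h2]
  exact Finset.card_le_card h1

theorem exists_exit (hz : NZ h S) (hs : Good h s) (hb : fb s ∉ S) :
    ∃ k, fa (run h S s k) ∉ S := by
  by_contra hc
  push Not at hc
  have := alive_le hz hs hb (k := S.card + 1) (fun j _ => hc j)
  omega

open Classical in
/-- The number of steps of the interface until it leaves the domain. -/
noncomputable def len (h : ℤ × ℤ → ℤ) (S : Finset Tri) (s : St) : ℕ :=
  if hk : ∃ k, fa (run h S s k) ∉ S then Nat.find hk else 0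

theorem len_spec (hz : NZ h S) (hs : Good h s) (hb : fb s ∉ S) :
    Alive h S s (len h S s) ∧ fa (run h S s (len h S s)) ∉ S := by
  classical
  have hk := exists_exit hz hs hb
  rw [len, dif_pos hk]
  refine ⟨fun j hj => ?_, Nat.find_spec hk⟩
  by_contra hc
  exact Nat.find_min hk hj hc

/-- The path is determined by the signs of the vertices next to it. -/
theorem run_eq {k : ℕ} (hk : Alive h S s k)
    (h1 : ∀ j ≤ k, 0 < h' (run h S s j).1 ∧ h' (run h S s j).2 < 0) {j : ℕ} (hj : j ≤ k) :
    run h' S s j = run h S s j := by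
  induction j with
  | zero => rfl
  | succ j ih =>
    have ih' := ih (by omega)
    have hf := hk j (by omega)
    have h2 := h1 (j + 1) hj
    rw [run_succ hf] at h2 ⊢
    rw [run_succ (by rw [ih']; exact hf), ih']
    unfold nx at h2 ⊢
    by_cases h3 : 0 < h (ah (run h S s j))
    · rw [if_pos h3] at h2 ⊢
      rw [if_pos h2.1]
    · rw [if_neg h3] at h2 ⊢
      rw [if_neg (by have := h2.2; simp only at this; omega)]

/-- After leaving the domain the paths also agree. -/
theorem run_eq_all {k : ℕ} (hk : Alive h S s k) (hx : fa (run h S s k) ∉ S)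
    (h1 : ∀ j ≤ k, 0 < h' (run h S s j).1 ∧ h' (run h S s j).2 < 0) (j : ℕ) :
    run h' S s j = run h S s j := by
  rcases le_total j k with hj | hj
  · exact run_eq hk h1 hj
  · have h2 := run_eq hk h1 le_rfl
    rw [run_stop hx j hj, run_stop (by rw [h2]; exact hx) j hj, h2]

end Vale.Agent.P153.R2.INTF
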