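import Vale.Agent.P153.R2.Base.Basic
import Vale.Agent.P153.R2.INTF.Step

/-!
P153, block INTF: domain Markov property of the discrete interface.

`eta M` is the boundary value `-1` on `M` and `1` elsewhere; `CA F M` is the set of the heights with
free vertices `F` and the exact data `eta M`. After `k` steps of the interface the heights form again
such a set: `CA (Fk ..) (Mk ..)`.
-/

set_option linter.all false

namespace Vale.Agent.P153.R2.INTF

open Set
open Vale.Agent.P153 Vale.Agent.P153.Topo Vale.Agent.P153.F.Dom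

open Classical in
/-- The boundary value `-1` on `M` and `1` elsewhere. -/
noncomputable def eta (M : Set (ℤ × ℤ)) : ℤ × ℤ → ℤ := fun x => if x ∈ M then -1 else 1

theorem eta_mem {M : Set (ℤ × ℤ)} {x : ℤ × ℤ} (h : x ∈ M) : eta M x = -1 := if_pos h
theorem eta_not {M : Set (ℤ × ℤ)} {x : ℤ × ℤ} (h : x ∉ M) : eta M x = 1 := if_neg h

theorem eta_or (M : Set (ℤ × ℤ)) (x : ℤ × ℤ) : eta M x = 1 ∨ eta M x = -1 := by
  unfold eta; split <;> simp

/-- The heights with the exact boundary values `-1` on `M` and `1` elsewhere off `F`. -/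
def CA (F M : Set (ℤ × ℤ)) : Set (ℤ × ℤ → ℤ) := Cfg F (exa F (eta M))

theorem mem_CA {F M : Set (ℤ × ℤ)} {h : ℤ × ℤ → ℤ} : h ∈ CA F M ↔
    (∀ x, Odd (h x)) ∧ (∀ x, x ∉ F → h x = eta M x) ∧ ∀ x ∈ F, ∀ y, Adj x y → |h x - h y| ≤ 2 := by
  constructor
  · rintro ⟨h1, h2, h3⟩
    refine ⟨h1, fun x hx => ?_, h3⟩
    have := h2 x
    rw [exa, if_neg hx] at this
    exact this
  · rintro ⟨h1, h2, h3⟩
    refine ⟨h1, fun x => ?_, h3⟩
    by_cases hx : x ∈ F
    · rw [exa, if_pos hx]; trivial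
    · rw [exa, if_neg hx]; exact h2 x hx

theorem CA_finite {F M : Set (ℤ × ℤ)} (hF : F.Finite) : (CA F M).Finite := by
  refine Cfg_finite ⟨hF, fun x hx => ?_, ?_⟩
  · rw [exa, if_neg hx]; exact finite_singleton _
  · refine hF.subset fun x hx => ?_
    by_contra hc
    exact hx (by rw [exa, if_neg hc]; exact subsingleton_singleton)

theorem odd_ne {a : ℤ} (h : Odd a) : a ≠ 0 := by
  rintro rfl
  simp at h

variable {F M : Set (ℤ × ℤ)} {h h0 h' : ℤ × ℤ → ℤ} {S : Finset Tri} {s : St}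

theorem CA.nz (hh : h ∈ CA F M) : NZ h S := fun v _ => odd_ne (hh.1 v)

theorem CA.good_val (hh : h ∈ CA F M) (hs : Good h s) : h s.1 = 1 ∧ h s.2 = -1 := by
  obtain ⟨h1, h2, h3⟩ := mem_CA.1 hh
  obtain ⟨ha, hl, hr⟩ := hs
  by_cases hb : s.1 ∈ F ∨ s.2 ∈ F
  · have h4 : |h s.1 - h s.2| ≤ 2 := by
      rcases hb with hb | hb
      · exact h3 _ hb _ ha
      · rw [abs_sub_comm]; exact h3 _ hb _ (adj_symm ha)
    have h5 := h1 s.1
    have h6 := h1 s.2
    rw [abs_le] at h4
    obtain ⟨a, ha'⟩ := h5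
    obtain ⟨b, hb'⟩ := h6
    omega
  · push Not at hb
    have e1 := h2 _ hb.1
    have e2 := h2 _ hb.2
    rcases eta_or M s.1 with e | e <;> rcases eta_or M s.2 with e' | e' <;> omega

/-- The vertices on the left of the first `k` steps. -/
def Lk (h : ℤ × ℤ → ℤ) (S : Finset Tri) (s : St) (k : ℕ) : Set (ℤ × ℤ) :=
  {v | ∃ j ≤ k, v = (run h S s j).1}

/-- The vertices on the right of the first `k` steps. -/
def Rk (h : ℤ × ℤ → ℤ) (S : Finset Tri) (s : St) (k : ℕ) : Set (ℤ × ℤ) :=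
  {v | ∃ j ≤ k, v = (run h S s j).2}

/-- The free vertices after `k` steps. -/
def Fk (F : Set (ℤ × ℤ)) (h : ℤ × ℤ → ℤ) (S : Finset Tri) (s : St) (k : ℕ) : Set (ℤ × ℤ) :=
  F \ (Lk h S s k ∪ Rk h S s k)

theorem Lk_finite (h : ℤ × ℤ → ℤ) (S : Finset Tri) (s : St) (k : ℕ) : (Lk h S s k).Finite := by
  refine ((Finset.range (k + 1)).image fun j => (run h S s j).1).finite_toSet.subset ?_
  rintro v ⟨j, hj, rfl⟩
  simp only [Finset.coe_image, Finset.coe_range]
  exact ⟨j, by simp; omega, rfl⟩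

theorem Rk_finite (h : ℤ × ℤ → ℤ) (S : Finset Tri) (s : St) (k : ℕ) : (Rk h S s k).Finite := by
  refine ((Finset.range (k + 1)).image fun j => (run h S s j).2).finite_toSet.subset ?_
  rintro v ⟨j, hj, rfl⟩
  simp only [Finset.coe_image, Finset.coe_range]
  exact ⟨j, by simp; omega, rfl⟩

theorem Lk_val (hh : h ∈ CA F M) (hs : Good h s) {k : ℕ} {v : ℤ × ℤ} (hv : v ∈ Lk h S s k) :
    h v = 1 := by
  obtain ⟨j, _, rfl⟩ := hv
  exact (CA.good_val hh (run_good (CA.nz hh) hs j)).1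

theorem Rk_val (hh : h ∈ CA F M) (hs : Good h s) {k : ℕ} {v : ℤ × ℤ} (hv : v ∈ Rk h S s k) :
    h v = -1 := by
  obtain ⟨j, _, rfl⟩ := hv
  exact (CA.good_val hh (run_good (CA.nz hh) hs j)).2

theorem Rk_off (hh : h ∈ CA F M) (hs : Good h s) {k : ℕ} {v : ℤ × ℤ} (hv : v ∈ Rk h S s k)
    (hF : v ∉ F) : v ∈ M := by
  by_contra hc
  have h1 := (mem_CA.1 hh).2.1 v hF
  rw [Rk_val hh hs hv, eta_not hc] at h1
  omega

theorem Lk_off (hh : h ∈ CA F M) (hs : Good h s) {k : ℕ} {v : ℤ × ℤ} (hv : v ∈ Lk h S s k)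
    (hF : v ∉ F) : v ∉ M := by
  intro hc
  have h1 := (mem_CA.1 hh).2.1 v hF
  rw [Lk_val hh hs hv, eta_mem hc] at h1
  omega

theorem start_good (hh : h ∈ CA F M) (ha : Adj s.1 s.2) (h1 : s.1 ∉ F) (h2 : s.1 ∉ M)
    (h3 : s.2 ∉ F) (h4 : s.2 ∈ M) : Good h s := by
  obtain ⟨_, h5, _⟩ := mem_CA.1 hh
  refine ⟨ha, ?_, ?_⟩
  · rw [h5 _ h1, eta_not h2]; norm_num
  · rw [h5 _ h3, eta_mem h4]; norm_num

/-- **Domain Markov property**: the heights of `CA F M` whose interface has the same first `k`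
steps as `h0` are the heights with the data `1` on the left and `-1` on the right of these steps. -/
theorem markov (hFM : Disjoint F M) (hh : h0 ∈ CA F M) (ha : Adj s.1 s.2) (h1 : s.1 ∉ F)
    (h2 : s.1 ∉ M) (h3 : s.2 ∉ F) (h4 : s.2 ∈ M) {k : ℕ} (hk : Alive h0 S s k) :
    {h | h ∈ CA F M ∧ ∀ j ≤ k, run h S s j = run h0 S s j} =
      CA (Fk F h0 S s k) (M ∪ Rk h0 S s k) := by
  have hs0 := start_good hh ha h1 h2 h3 h4
  have hLM : ∀ v ∈ Lk h0 S s k, v ∉ M ∪ Rk h0 S s k := by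
    intro v hv hc
    rcases hc with hc | hc
    · by_cases hF : v ∈ F
      · exact (Set.disjoint_left.1 hFM hF) hc
      · exact Lk_off hh hs0 hv hF hc
    · have e1 := Lk_val hh hs0 hv
      have e2 := Rk_val hh hs0 hc
      omega
  have hoff : ∀ v, v ∉ F → eta (M ∪ Rk h0 S s k) v = eta M v := by
    intro v hv
    by_cases hM : v ∈ M
    · rw [eta_mem hM, eta_mem (Or.inl hM)]
    · rw [eta_not hM, eta_not]
      rintro (hc | hc)
      · exact hM hc
      · exact hM (Rk_off hh hs0 hc hv)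
  ext h
  constructor
  · rintro ⟨hh', hr⟩
    have hs := start_good hh' ha h1 h2 h3 h4
    have hL : ∀ v ∈ Lk h0 S s k, h v = 1 := by
      rintro v ⟨j, hj, rfl⟩
      rw [← hr j hj]
      exact (CA.good_val hh' (run_good (CA.nz hh') hs j)).1
    have hR : ∀ v ∈ Rk h0 S s k, h v = -1 := by
      rintro v ⟨j, hj, rfl⟩
      rw [← hr j hj]
      exact (CA.good_val hh' (run_good (CA.nz hh') hs j)).2
    obtain ⟨a1, a2, a3⟩ := mem_CA.1 hh'
    refine mem_CA.2 ⟨a1, fun x hx => ?_, fun x hx => a3 x hx.1⟩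
    by_cases hF : x ∈ F
    · have : x ∈ Lk h0 S s k ∪ Rk h0 S s k := by
        by_contra hc
        exact hx ⟨hF, hc⟩
      rcases this with hc | hc
      · rw [hL x hc, eta_not (hLM x hc)]
      · rw [hR x hc, eta_mem (Or.inr hc)]
    · rw [a2 x hF, hoff x hF]
  · intro hh'
    obtain ⟨a1, a2, a3⟩ := mem_CA.1 hh'
    have hL : ∀ v ∈ Lk h0 S s k, h v = 1 := by
      intro v hv
      rw [a2 v (fun hc => hc.2 (Or.inl hv)), eta_not (hLM v hv)]
    have hR : ∀ v ∈ Rk h0 S s k, h v = -1 := by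
      intro v hv
      rw [a2 v (fun hc => hc.2 (Or.inr hv)), eta_mem (Or.inr hv)]
    refine ⟨mem_CA.2 ⟨a1, fun x hx => ?_, fun x hx y hy => ?_⟩, ?_⟩
    · rw [a2 x (fun hc => hx hc.1), hoff x hx]
    · by_cases hx' : x ∈ Fk F h0 S s k
      · exact a3 x hx' y hy
      · by_cases hy' : y ∈ Fk F h0 S s k
        · rw [abs_sub_comm]; exact a3 y hy' x (adj_symm hy)
        · rw [a2 x hx', a2 y hy']
          rcases eta_or (M ∪ Rk h0 S s k) x with e | e <;>
            rcases eta_or (M ∪ Rk h0 S s k) y with e' | e' <;> rw [e, e'] <;> norm_num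
    · intro j hj
      refine run_eq hk (fun i hi => ?_) hj
      rw [hL _ ⟨i, hi, rfl⟩, hR _ ⟨i, hi, rfl⟩]
      norm_num


/-! ### Stopping indices -/

/-- `κ` is a stopping index of the interface on the set `T` of heights. -/
def StopIx (T : Set (ℤ × ℤ → ℤ)) (S : Finset Tri) (s : St) (κ : (ℤ × ℤ → ℤ) → ℕ) : Prop :=
  ∀ h ∈ T, ∀ h' ∈ T, (∀ j ≤ κ h, run h' S s j = run h S s j) → κ h' = κ h

/-- `Y` depends only on the first `κ` steps of the interface. -/
def StopMeas {X : Type*} (T : Set (ℤ × ℤ → ℤ)) (S : Finset Tri) (s : St)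
    (κ : (ℤ × ℤ → ℤ) → ℕ) (Y : (ℤ × ℤ → ℤ) → X) : Prop :=
  ∀ h ∈ T, ∀ h' ∈ T, (∀ j ≤ κ h, run h' S s j = run h S s j) → Y h' = Y h

/-- The first `κ` steps of the interface, as a list. -/
def hist (S : Finset Tri) (s : St) (κ : (ℤ × ℤ → ℤ) → ℕ) (h : ℤ × ℤ → ℤ) : List St :=
  (List.range (κ h + 1)).map (run h S s)

theorem hist_iff {κ : (ℤ × ℤ → ℤ) → ℕ} {h h' : ℤ × ℤ → ℤ} :
    hist S s κ h' = hist S s κ h ↔ κ h' = κ h ∧ ∀ j ≤ κ h, run h' S s j = run h S s j := by
  constructor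
  · intro he
    have h1 : κ h' = κ h := by
      have := congrArg List.length he
      simpa [hist] using this
    refine ⟨h1, fun j hj => ?_⟩
    have h2 := congrArg (fun l => l[j]?) he
    simp only [hist, List.getElem?_map, List.getElem?_range (show j < κ h' + 1 by omega),
      List.getElem?_range (show j < κ h + 1 by omega), Option.map_some, Option.some.injEq] at h2
    exact h2
  · rintro ⟨h1, h2⟩
    unfold hist
    rw [h1]
    refine List.map_congr_left fun j hj => h2 j ?_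
    have := List.mem_range.1 hj
    omega

/-- **Conditional expectation** given the interface up to a stopping index: it is the mean of the
heights with the new data. -/
theorem tower (hFM : Disjoint F M) (hF : F.Finite) (ha : Adj s.1 s.2) (h1 : s.1 ∉ F)
    (h2 : s.1 ∉ M) (h3 : s.2 ∉ F) (h4 : s.2 ∈ M) {κ : (ℤ × ℤ → ℤ) → ℕ}
    (hκ : StopIx (CA F M) S s κ) (hal : ∀ h ∈ CA F M, Alive h S s (κ h))
    (Y G : (ℤ × ℤ → ℤ) → ℝ) (hY : StopMeas (CA F M) S s κ Y) :
    Ex (CA F M) (fun h => Y h * G h) = Ex (CA F M) fun h =>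
      Y h * Ex (CA (Fk F h S s (κ h)) (M ∪ Rk h S s (κ h))) G := by
  have hfib : ∀ h ∈ CA F M, CA F M ∩ {h' | hist S s κ h' = hist S s κ h} =
      CA (Fk F h S s (κ h)) (M ∪ Rk h S s (κ h)) := by
    intro h hh
    rw [← markov hFM hh ha h1 h2 h3 h4 (hal h hh)]
    ext h'
    simp only [mem_inter_iff, mem_setOf_eq, hist_iff]
    constructor
    · rintro ⟨a, b⟩
      exact ⟨a, b.2⟩
    · rintro ⟨a, b⟩
      exact ⟨a, hκ h hh h' a b, b⟩
  refine Ex_eq_of_fiber (CA_finite hF) (hist S s κ) _ _ ?_ ?_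
  · intro a ha' b hb hab
    have e := hist_iff.1 hab.symm
    rw [hY a ha' b hb e.2, ← hfib a ha', ← hfib b hb, hab]
  · intro a ha'
    rw [hfib a ha', ← Ex_const_mul]
    refine Ex_congr fun b hb => ?_
    rw [← hfib a ha'] at hb
    rw [hY a ha' b hb.1 (hist_iff.1 hb.2).2]

/-! ### The class of arc domains -/

/-- `F` is a finite set of free vertices with connected complement, surrounded by two disjoint
connected walls `P` (heights `1`) and `M` (heights `-1`). -/
structure Arcs (F P M : Set (ℤ × ℤ)) : Prop where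
  fin : F.Finite
  finP : P.Finite
  finM : M.Finite
  cc : CC F
  dFP : Disjoint F P
  dFM : Disjoint F M
  dPM : Disjoint P M
  bd : ∀ x ∈ F, ∀ y, Adj x y → y ∈ F ∨ y ∈ P ∨ y ∈ M
  cP : Cn P
  cM : Cn M

theorem Cn.insert {A : Set (ℤ × ℤ)} (hA : Cn A) {x y : ℤ × ℤ} (hx : x ∈ A) (hxy : Adj x y) :
    Cn (insert y A) := by
  have h1 : Conn (Insert.insert y A) x y :=
    Conn.of_adj (Set.mem_insert_of_mem _ hx) (Set.mem_insert _ _) hxy
  have h2 : ∀ z ∈ Insert.insert y A, Conn (Insert.insert y A) x z := by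
    intro z hz
    rcases hz with rfl | hz
    · exact h1
    · exact (hA x hx z hz).mono (Set.subset_insert _ _)
  intro a ha b hb
  exact (h2 a ha).symm.trans (h2 b hb)

theorem CC.erase {F : Set (ℤ × ℤ)} (hF : CC F) {x y : ℤ × ℤ} (hx : x ∉ F) (hxy : Adj x y) :
    CC (F \ {y}) := by
  have h0 : ∀ z, z ∉ F \ {y} → Conn (F \ {y})ᶜ x z := by
    intro z hz
    by_cases hzy : z = y
    · subst hzy
      exact Conn.of_adj (fun hc => hx hc.1) hz hxy
    · have : z ∉ F := fun hc => hz ⟨hc, hzy⟩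
      exact (hF x z hx this).mono (Set.compl_subset_compl.2 Set.diff_subset)
  intro a b ha hb
  exact (h0 a ha).symm.trans (h0 b hb)

theorem Arcs.stepP {F P M : Set (ℤ × ℤ)} (hA : Arcs F P M) {x y : ℤ × ℤ} (hx : x ∈ P)
    (hxy : Adj x y) (hy : y ∉ M) : Arcs (F \ {y}) (insert y P) M where
  fin := hA.fin.subset fun z hz => hz.1
  finP := hA.finP.insert _
  finM := hA.finM
  cc := CC.erase hA.cc (fun hc => Set.disjoint_left.1 hA.dFP hc hx) hxy
  dFP := by
    rw [Set.disjoint_left]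
    rintro z ⟨hz, hzy⟩ (rfl | hzP)
    · exact hzy rfl
    · exact Set.disjoint_left.1 hA.dFP hz hzP
  dFM := Set.disjoint_of_subset_left (fun z hz => hz.1) hA.dFM
  dPM := by
    rw [Set.disjoint_left]
    rintro z (rfl | hz) hzM
    · exact hy hzM
    · exact Set.disjoint_left.1 hA.dPM hz hzM
  bd := by
    intro z hz w hw
    by_cases hwy : w = y
    · right; left; exact Or.inl hwy
    · rcases hA.bd z hz.1 w hw with h | h | h
      · exact Or.inl ⟨h, hwy⟩
      · exact Or.inr (Or.inl (Or.inr h))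
      · exact Or.inr (Or.inr h)
  cP := Cn.insert hA.cP hx hxy
  cM := hA.cM

theorem Arcs.symm {F P M : Set (ℤ × ℤ)} (hA : Arcs F P M) : Arcs F M P where
  fin := hA.fin
  finP := hA.finM
  finM := hA.finP
  cc := hA.cc
  dFP := hA.dFM
  dFM := hA.dFP
  dPM := hA.dPM.symm
  bd := fun x hx y hy => by rcases hA.bd x hx y hy with h | h | h <;> simp [h]
  cP := hA.cM
  cM := hA.cP

theorem Arcs.stepM {F P M : Set (ℤ × ℤ)} (hA : Arcs F P M) {x y : ℤ × ℤ} (hx : x ∈ M)
    (hxy : Adj x y) (hy : y ∉ P) : Arcs (F \ {y}) P (insert y M) :=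
  (hA.symm.stepP hx hxy hy).symm

theorem Lk_succ (k : ℕ) : Lk h S s (k + 1) = insert (run h S s (k + 1)).1 (Lk h S s k) := by
  ext v
  simp only [Lk, mem_setOf_eq, mem_insert_iff]
  constructor
  · rintro ⟨j, hj, rfl⟩
    rcases Nat.lt_or_ge j (k + 1) with h1 | h1
    · exact Or.inr ⟨j, by omega, rfl⟩
    · exact Or.inl (by rw [show j = k + 1 by omega])
  · rintro (rfl | ⟨j, hj, rfl⟩)
    · exact ⟨k + 1, le_rfl, rfl⟩
    · exact ⟨j, by omega, rfl⟩

theorem Rk_succ (k : ℕ) : Rk h S s (k + 1) = insert (run h S s (k + 1)).2 (Rk h S s k) := by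
  ext v
  simp only [Rk, mem_setOf_eq, mem_insert_iff]
  constructor
  · rintro ⟨j, hj, rfl⟩
    rcases Nat.lt_or_ge j (k + 1) with h1 | h1
    · exact Or.inr ⟨j, by omega, rfl⟩
    · exact Or.inl (by rw [show j = k + 1 by omega])
  · rintro (rfl | ⟨j, hj, rfl⟩)
    · exact ⟨k + 1, le_rfl, rfl⟩
    · exact ⟨j, by omega, rfl⟩

/-- The vertices next to the first `k` steps of the interface are joined to the walls: arc domains
remain arc domains. -/
theorem Arcs.run {F P M : Set (ℤ × ℤ)} (hA : Arcs F P M) (hh : h ∈ CA F M) (ha : Adj s.1 s.2)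
    (h1 : s.1 ∈ P) (h4 : s.2 ∈ M) (k : ℕ) :
    Arcs (Fk F h S s k) (P ∪ Lk h S s k) (M ∪ Rk h S s k) := by
  have hs : Good h s := start_good hh ha (fun hc => Set.disjoint_left.1 hA.dFP hc h1)
    (fun hc => Set.disjoint_left.1 hA.dPM h1 hc)
    (fun hc => Set.disjoint_left.1 hA.dFM hc h4) h4
  have hval : ∀ v, v ∈ P → h v = 1 := fun v hv => by
    rw [(mem_CA.1 hh).2.1 v (fun hc => Set.disjoint_left.1 hA.dFP hc hv),
      eta_not (fun hc => Set.disjoint_left.1 hA.dPM hv hc)]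
  have hvalM : ∀ v, v ∈ M → h v = -1 := fun v hv => by
    rw [(mem_CA.1 hh).2.1 v (fun hc => Set.disjoint_left.1 hA.dFM hc hv), eta_mem hv]
  have hPL : ∀ k, ∀ v ∈ P ∪ Lk h S s k, h v = 1 := by
    rintro k v (hv | hv)
    · exact hval v hv
    · exact Lk_val hh hs hv
  have hMR : ∀ k, ∀ v ∈ M ∪ Rk h S s k, h v = -1 := by
    rintro k v (hv | hv)
    · exact hvalM v hv
    · exact Rk_val hh hs hv
  induction k with
  | zero =>
    have e1 : P ∪ Lk h S s 0 = P := by
      ext v; simp only [Lk, Nat.le_zero, mem_union, mem_setOf_eq]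
      constructor
      · rintro (h | ⟨j, rfl, rfl⟩)
        · exact h
        · exact h1
      · exact Or.inl
    have e2 : M ∪ Rk h S s 0 = M := by
      ext v; simp only [Rk, Nat.le_zero, mem_union, mem_setOf_eq]
      constructor
      · rintro (h | ⟨j, rfl, rfl⟩)
        · exact h
        · exact h4
      · exact Or.inl
    have e3 : Fk F h S s 0 = F := by
      ext v
      simp only [Fk, Lk, Rk, Nat.le_zero, mem_union, mem_setOf_eq, mem_diff]
      constructor
      · exact fun h => h.1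
      · refine fun h => ⟨h, ?_⟩
        rintro (⟨j, rfl, rfl⟩ | ⟨j, rfl, rfl⟩)
        · exact Set.disjoint_left.1 hA.dFP h h1
        · exact Set.disjoint_left.1 hA.dFM h h4
    rw [e1, e2, e3]
    exact hA
  | succ k ih =>
    by_cases hf : fa (INTF.run h S s k) ∈ S
    · have hg := run_good (CA.nz hh) hs (S := S) k
      have hr := run_succ (h := h) (s := s) hf
      have hl1 : (INTF.run h S s k).1 ∈ P ∪ Lk h S s k := Or.inr ⟨k, le_rfl, rfl⟩
      have hr1 : (INTF.run h S s k).2 ∈ M ∪ Rk h S s k := Or.inr ⟨k, le_rfl, rfl⟩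
      unfold nx at hr
      by_cases hp : 0 < h (ah (INTF.run h S s k))
      · rw [if_pos hp] at hr
        have e1 : Lk h S s (k + 1) = insert (ah (INTF.run h S s k)) (Lk h S s k) := by
          rw [Lk_succ, hr]
        have e2 : Rk h S s (k + 1) = Rk h S s k := by
          rw [Rk_succ, hr]
          exact Set.insert_eq_of_mem ⟨k, le_rfl, rfl⟩
        have e3 : Fk F h S s (k + 1) = Fk F h S s k \ {ah (INTF.run h S s k)} := by
          ext v
          simp only [Fk, e1, e2, mem_diff, mem_union, mem_insert_iff, mem_singleton_iff]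
          tauto
        rw [e3, e1, e2, Set.union_insert]
        refine ih.stepP hl1 (ah_adj1 hg.1) ?_
        intro hc
        have := hMR k _ hc
        omega
      · rw [if_neg hp] at hr
        have e1 : Rk h S s (k + 1) = insert (ah (INTF.run h S s k)) (Rk h S s k) := by
          rw [Rk_succ, hr]
        have e2 : Lk h S s (k + 1) = Lk h S s k := by
          rw [Lk_succ, hr]
          exact Set.insert_eq_of_mem ⟨k, le_rfl, rfl⟩
        have e3 : Fk F h S s (k + 1) = Fk F h S s k \ {ah (INTF.run h S s k)} := by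
          ext v
          simp only [Fk, e1, e2, mem_diff, mem_union, mem_insert_iff, mem_singleton_iff]
          tauto
        rw [e3, e1, e2, Set.union_insert]
        refine ih.stepM hr1 (adj_symm (ah_adj2 hg.1)) ?_
        intro hc
        have := hPL k _ hc
        omega
    · have hr : INTF.run h S s (k + 1) = INTF.run h S s k := by rw [INTF.run, if_neg hf]
      have e1 : Lk h S s (k + 1) = Lk h S s k := by
        rw [Lk_succ, hr]
        exact Set.insert_eq_of_mem ⟨k, le_rfl, rfl⟩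
      have e2 : Rk h S s (k + 1) = Rk h S s k := by
        rw [Rk_succ, hr]
        exact Set.insert_eq_of_mem ⟨k, le_rfl, rfl⟩
      have e3 : Fk F h S s (k + 1) = Fk F h S s k := by
        simp only [Fk, e1, e2]
      rw [e3, e1, e2]
      exact ih

end Vale.Agent.P153.R2.INTF
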