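import Vale.Agent.P153.R2.INTF.Tube

/-!
P153, block INTF, sides: the tube is a connected subset of the slit domain, close to the slit.
-/

set_option linter.all false

namespace Vale.Agent.P153.R2.INTF

open Set Filter Topology Metric
open Vale.Agent.P153 Vale.Agent.P153.Topo
open Vale.Agent.P153.R2.Final (pt toC region hat interp)

/-- Polygonal line without its first point. -/
def UU (x : ℕ → ℂ) (n : ℕ) : Set ℂ :=
  {z | ∃ i ≤ n, ∃ a b : ℝ, 0 ≤ a ∧ 0 ≤ b ∧ a + b = 1 ∧ (i = 0 → 0 < b) ∧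
    (a : ℂ) * x i + (b : ℂ) * x (i + 1) = z}

theorem UU_mem (x : ℕ → ℂ) (n : ℕ) : x (n + 1) ∈ UU x n :=
  ⟨n, le_rfl, 0, 1, le_rfl, zero_le_one, by norm_num, fun _ => one_pos, by push_cast; ring⟩

theorem UU_preconnected (x : ℕ → ℂ) (n : ℕ) : IsPreconnected (UU x n) := by
  induction n with
  | zero =>
    have : Convex ℝ (UU x 0) := by
      rintro z ⟨i, hi, a, b, ha, hb, hab, hb0, rfl⟩ w ⟨i', hi', a', b', ha', hb', hab', hb0', rfl⟩
        c d hc hd hcd
      obtain rfl : i = 0 := by omega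
      obtain rfl : i' = 0 := by omega
      refine ⟨0, le_rfl, c * a + d * a', c * b + d * b', by positivity, by positivity, ?_, ?_, ?_⟩
      · have : c * a + d * a' + (c * b + d * b') = c * (a + b) + d * (a' + b') := by ring
        rw [this, hab, hab']; linarith
      · intro _
        have h1 := hb0 rfl
        have h2 := hb0' rfl
        rcases hc.lt_or_eq with h3 | h3
        · positivity
        · have : 0 < d := by linarith
          positivity
      · rw [Complex.real_smul, Complex.real_smul]; push_cast; ring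
    exact this.isPreconnected
  | succ n ih =>
    have e : UU x (n + 1) = UU x n ∪ segment ℝ (x (n + 1)) (x (n + 2)) := by
      ext z
      constructor
      · rintro ⟨i, hi, a, b, ha, hb, hab, hb0, rfl⟩
        rcases Nat.lt_or_ge i (n + 1) with h | h
        · exact Or.inl ⟨i, by omega, a, b, ha, hb, hab, hb0, rfl⟩
        · obtain rfl : i = n + 1 := by omega
          exact Or.inr (mem_seg.2 ⟨a, b, ha, hb, hab, rfl⟩)
      · rintro (⟨i, hi, a, b, ha, hb, hab, hb0, rfl⟩ | hz)
        · exact ⟨i, by omega, a, b, ha, hb, hab, hb0, rfl⟩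
        · obtain ⟨a, b, ha, hb, hab, rfl⟩ := mem_seg.1 hz
          exact ⟨n + 1, le_rfl, a, b, ha, hb, hab, fun h => by omega, rfl⟩
    rw [e]
    exact ih.union (x (n + 1)) (UU_mem x n) (left_mem_segment _ _ _)
      (convex_segment _ _).isPreconnected

theorem isClosed_seg (z w : ℂ) : IsClosed (segment ℝ z w) := by
  rw [segment_eq_image]
  refine (isCompact_Icc.image ?_).isClosed
  fun_prop

variable {δ : ℝ} {h g : ℤ × ℤ → ℤ} {S : Finset Tri} {s : St} {κ : ℕ}

/-- The vertices of the tube at the position `ε η`, ending on the path to the corner `m`. -/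
noncomputable def tb (δ : ℝ) (h : ℤ × ℤ → ℤ) (S : Finset Tri) (s : St) (j : ℕ) (m : ℤ × ℤ)
    (ε η : ℝ) (i : ℕ) : ℂ :=
  if i ≤ j then EE δ (run h S s i) (ε * η) else AA δ h S s j m η

/-- The part of the slit which is close to the tube. -/
noncomputable def KK (δ : ℝ) (h : ℤ × ℤ → ℤ) (S : Finset Tri) (s : St) (j : ℕ) : Set ℂ :=
  {z | ∃ i < j, z ∈ segment ℝ (EE δ (run h S s i) 0) (EE δ (run h S s (i + 1)) 0)} ∪
    segment ℝ (EE δ (run h S s j) 0) (qq δ h S s j)

theorem isClosed_KK (j : ℕ) : IsClosed (KK δ h S s j) := by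
  unfold KK
  have e : {z | ∃ i < j, z ∈ segment ℝ (EE δ (run h S s i) 0) (EE δ (run h S s (i + 1)) 0)} =
      ⋃ i ∈ Finset.range j, segment ℝ (EE δ (run h S s i) 0) (EE δ (run h S s (i + 1)) 0) := by
    ext z; simp
  rw [e]
  exact (isClosed_biUnion_finset fun i _ => isClosed_seg _ _).union (isClosed_seg _ _)

theorem seg_qq_sub (j : ℕ) : segment ℝ (EE δ (run h S s j) 0) (qq δ h S s j) ⊆
    segment ℝ (EE δ (run h S s j) 0) (EE δ (run h S s (j + 1)) 0) :=
  (convex_segment _ _).segment_subset (left_mem_segment _ _ _)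
    (mem_seg.2 ⟨1 / 2, 1 / 2, by norm_num, by norm_num, by norm_num, rfl⟩)

theorem KK_sub_gam {j : ℕ} (hj : j < κ) : KK δ h S s j ⊆ Gam δ h S s κ := by
  rintro z (⟨i, hi, hz⟩ | hz)
  · exact ⟨i, by omega, hz⟩
  · exact ⟨j, hj, seg_qq_sub j hz⟩

theorem qq_mem_KK (j : ℕ) : qq δ h S s j ∈ KK δ h S s j := Or.inr (right_mem_segment _ _ _)

/-- The tube is in the slit domain. -/
theorem Ok.tube_sub (hδ : 0 < δ) (ho : Ok h S s κ) {j : ℕ} (hj : j < κ) {m : ℤ × ℤ}
    (hm : m ∈ F.Dom.corners (fa (run h S s j))) {ε η : ℝ} (hε : ε = 1 ∨ ε = -1)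
    (hmε : (h m : ℝ) = -ε) (h0 : 0 < η) (h1 : η < 1) :
    UU (tb δ h S s j m ε η) j ⊆ OO δ h S s κ := by
  have habs : |ε * η| < 1 := by
    rcases hε with rfl | rfl
    · rw [one_mul, abs_of_pos h0]; exact h1
    · rw [neg_one_mul, abs_neg, abs_of_pos h0]; exact h1
  have habs' := abs_lt.1 habs
  have hne : -(ε * η) ≠ 0 := by
    rcases hε with rfl | rfl
    · simpa using h0.ne'
    · simpa using h0.ne'
  rintro z ⟨i, hi, a, b, ha, hb, hab, hb0, rfl⟩
  rcases Nat.lt_or_ge i j with hij | hij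
  · have e1 : tb δ h S s j m ε η i = EE δ (run h S s i) (ε * η) := if_pos hi
    have e2 : tb δ h S s j m ε η (i + 1) = EE δ (run h S s (i + 1)) (ε * η) := if_pos hij
    rw [e1, e2]
    have hz := ho.seg hδ ho.pm (show i < κ by omega) habs.le (mem_seg.2 ⟨a, b, ha, hb, hab, rfl⟩)
    refine ⟨?_, fun hc => ?_⟩
    · rcases hb.lt_or_eq with hb' | hb'
      · rcases ha.lt_or_eq with ha' | ha'
        · rcases ho.EE_next (δ := δ) (u := ε * η) (show i < κ by omega) with e | e
          · rw [e, EE_bar, bar_add]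
            refine ho.int_face hδ (show i < κ by omega) ?_ ?_ ?_ ?_
            · have : 0 < (1 - ε * η) / 2 := by linarith
              nlinarith [mul_pos ha' this]
            · have : 0 < (1 + ε * η) / 2 := by linarith
              nlinarith [mul_pos ha' this, mul_nonneg hb this.le]
            · have : 0 < (1 - ε * η) / 2 := by linarith
              nlinarith [mul_pos hb' this]
            · nlinarith
          · rw [e, EE_bar, bar_add]
            refine ho.int_face hδ (show i < κ by omega) ?_ ?_ ?_ ?_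
            · have : 0 < (1 - ε * η) / 2 := by linarith
              nlinarith [mul_pos ha' this, mul_nonneg hb this.le]
            · have : 0 < (1 + ε * η) / 2 := by linarith
              nlinarith [mul_pos ha' this]
            · have : 0 < (1 + ε * η) / 2 := by linarith
              nlinarith [mul_pos hb' this]
            · nlinarith
        · have hb1 : b = 1 := by linarith
          rw [← ha', hb1]
          have := ho.int_edge hδ (j := i + 1) (by omega) (by omega) habs
          simpa using this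
      · have ha1 : a = 1 := by linarith
        have hi0 : 0 < i := by
          rcases Nat.eq_zero_or_pos i with h | h
          · exact absurd (hb0 h) (by rw [← hb']; exact lt_irrefl _)
          · exact h
        rw [← hb', ha1]
        have := ho.int_edge hδ (j := i) hi0 (by omega) habs
        simpa using this
    · have := ho.gam_zero hδ ho.pm hc
      rw [hz.2] at this
      exact hne this
  · obtain rfl : i = j := by omega
    have e1 : tb δ h S s i m ε η i = EE δ (run h S s i) (ε * η) := if_pos hi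
    have e2 : tb δ h S s i m ε η (i + 1) = AA δ h S s i m η := if_neg (by omega)
    rw [e1, e2]
    obtain ⟨f1, v1⟩ := EE_face (g := h) hδ (corner1 (ho.adj i)) (corner2 (ho.adj i)) habs.le
    obtain ⟨f2, v2⟩ := ho.AA_val hδ ho.pm hj hm h0.le h1.le
    obtain ⟨f3, v3⟩ := HH_comb h f1 f2 ha hb hab
    refine ⟨?_, fun hc => ?_⟩
    · rcases hb.lt_or_eq with hb' | hb'
      · obtain ⟨x, y, w, hx, hy, hw, hs1, e⟩ := ho.AA_bar (δ := δ) hj hm h0.le h1
        rw [e, EE_bar, bar_add]
        refine ho.int_face hδ hj ?_ ?_ ?_ ?_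
        · have : 0 < (1 - ε * η) / 2 := by linarith
          nlinarith [mul_pos hb' hx, mul_nonneg ha this.le]
        · have : 0 < (1 + ε * η) / 2 := by linarith
          nlinarith [mul_pos hb' hy, mul_nonneg ha this.le]
        · have := mul_pos hb' hw
          linarith
        · have : a * ((1 - ε * η) / 2) + b * x + (a * ((1 + ε * η) / 2) + b * y) + (a * 0 + b * w) =
            a + b * (x + y + w) := by ring
          rw [this, hs1]; linarith
      · have ha1 : a = 1 := by linarith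
        have hi0 : 0 < i := by
          rcases Nat.eq_zero_or_pos i with h | h
          · exact absurd (hb0 h) (by rw [← hb']; exact lt_irrefl _)
          · exact h
        rw [← hb', ha1]
        have := ho.int_edge hδ (j := i) hi0 (by omega) habs
        simpa using this
    · have h3 := ho.gam_zero hδ ho.pm hc
      obtain ⟨p1, p2⟩ := ho.pm i (by omega)
      rw [v3, v1, v2, p1, p2, hmε] at h3
      have hb1 : b = 1 - a := by linarith
      subst hb1
      apply hne
      push_cast at h3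
      linarith

/-- The tube is close to the slit. -/
theorem tube_near (δ : ℝ) (h : ℤ × ℤ → ℤ) (S : Finset Tri) (s : St) (j : ℕ) (m : ℤ × ℤ) (ε : ℝ) :
    ∃ C : ℝ, 0 < C ∧ ∀ η : ℝ, 0 < η → ∀ z ∈ UU (tb δ h S s j m ε η) j,
      ∃ p ∈ KK δ h S s j, dist z p ≤ C * η := by
  set D : ℕ → ℂ := fun i => if i ≤ j then
    ((ε / 2 : ℝ) : ℂ) * (PP δ (run h S s i).2 - PP δ (run h S s i).1) else PP δ m - qq δ h S s j
    with hD
  have hdiff : ∀ η i, tb δ h S s j m ε η i - tb δ h S s j m ε 0 i = (η : ℂ) * D i := by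
    intro η i
    by_cases hi : i ≤ j
    · simp only [tb, hD, if_pos hi, EE]
      push_cast
      ring
    · simp only [tb, hD, if_neg hi, AA]
      push_cast
      ring
  refine ⟨1 + ∑ i ∈ Finset.range (j + 2), ‖D i‖, ?_, ?_⟩
  · have : 0 ≤ ∑ i ∈ Finset.range (j + 2), ‖D i‖ := Finset.sum_nonneg fun i _ => norm_nonneg _
    linarith
  · rintro η hη z ⟨i, hi, a, b, ha, hb, hab, hb0, rfl⟩
    refine ⟨(a : ℂ) * tb δ h S s j m ε 0 i + (b : ℂ) * tb δ h S s j m ε 0 (i + 1), ?_, ?_⟩
    · rcases Nat.lt_or_ge i j with hij | hij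
      · left
        refine ⟨i, hij, mem_seg.2 ⟨a, b, ha, hb, hab, ?_⟩⟩
        simp only [tb, if_pos hi, if_pos (show i + 1 ≤ j from hij), mul_zero]
      · right
        obtain rfl : i = j := by omega
        refine mem_seg.2 ⟨a, b, ha, hb, hab, ?_⟩
        simp only [tb, if_pos le_rfl, if_neg (show ¬ i + 1 ≤ i by omega), mul_zero, AA]
        push_cast
        ring
    · have e : (a : ℂ) * tb δ h S s j m ε η i + (b : ℂ) * tb δ h S s j m ε η (i + 1) -
          ((a : ℂ) * tb δ h S s j m ε 0 i + (b : ℂ) * tb δ h S s j m ε 0 (i + 1)) =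
          (a : ℂ) * ((η : ℂ) * D i) + (b : ℂ) * ((η : ℂ) * D (i + 1)) := by
        rw [← hdiff, ← hdiff]; ring
      have hle : ∀ i' < j + 2, ‖D i'‖ ≤ 1 + ∑ i ∈ Finset.range (j + 2), ‖D i‖ := by
        intro i' hi'
        have := Finset.single_le_sum (f := fun i => ‖D i‖) (fun i _ => norm_nonneg _)
          (Finset.mem_range.2 hi')
        linarith
      rw [dist_eq_norm, e]
      refine (norm_add_le _ _).trans ?_
      rw [norm_mul, norm_mul, norm_mul, norm_mul, Complex.norm_real, Complex.norm_real,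
        Complex.norm_real, Real.norm_of_nonneg ha, Real.norm_of_nonneg hb, Real.norm_of_nonneg hη.le]
      have h1 := hle i (by omega)
      have h2 := hle (i + 1) (by omega)
      have h3 : a * (η * ‖D i‖) ≤ a * (η * (1 + ∑ i ∈ Finset.range (j + 2), ‖D i‖)) := by gcongr
      have h4 : b * (η * ‖D (i + 1)‖) ≤ b * (η * (1 + ∑ i ∈ Finset.range (j + 2), ‖D i‖)) := by
        gcongr
      have h5 : a * (η * (1 + ∑ i ∈ Finset.range (j + 2), ‖D i‖)) +
          b * (η * (1 + ∑ i ∈ Finset.range (j + 2), ‖D i‖)) =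
          (a + b) * ((1 + ∑ i ∈ Finset.range (j + 2), ‖D i‖) * η) := by ring
      rw [hab, one_mul] at h5
      linarith

theorem ah_ne1 {s : St} (hs : Adj s.1 s.2) : ah s ≠ s.1 := by
  intro h
  have := ah_adj1 hs
  rw [h, adj_iff] at this
  omega

theorem ah_ne2 {s : St} (hs : Adj s.1 s.2) : ah s ≠ s.2 := by
  intro h
  have := ah_adj2 hs
  rw [h, adj_iff] at this
  omega

/-- A later point of the interface is not on the part of the slit close to the tube. -/
theorem Ok.not_KK (hδ : 0 < δ) (ho : Ok h S s κ) {n : ℕ} (hn : Alive h S s n) {j : ℕ} (hj : j < κ)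
    (hjn : j < n) : EE δ (run h S s n) 0 ∉ KK δ h S s j := by
  have hg := fun i => run_good ho.nz ho.good (S := S) i
  obtain ⟨n, rfl⟩ : ∃ n', n = n' + 1 := ⟨n - 1, by omega⟩
  have hface : ∀ t, EE δ (run h S s (n + 1)) 0 ∈ Face δ t →
      t = fa (run h S s (n + 1)) ∨ t = fa (run h S s n) := by
    intro t ht
    rw [EE_bar] at ht
    have := open_edge hδ (hg (n + 1)).1 (by norm_num) (by norm_num) (by norm_num) ht
    rw [fb_run ho.nz ho.good hn] at this
    exact this
  have hno : ∀ i < n + 1, EE δ (run h S s (n + 1)) 0 ∈ Face δ (fa (run h S s i)) → i = n := by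
    intro i hi hz
    rcases hface _ hz with h1 | h1
    · exfalso
      have hmem : fa (run h S s (n + 1)) ∈ S := by rw [← h1]; exact hn i hi
      have hal : Alive h S s (n + 2) := by
        intro l hl
        rcases Nat.lt_or_ge l (n + 1) with h2 | h2
        · exact hn l h2
        · obtain rfl : l = n + 1 := by omega
          exact hmem
      have := fa_run_inj ho.nz ho.good ho.fb hal (by omega) (by omega) h1
      omega
    · exact fa_run_inj ho.nz ho.good ho.fb hn (by omega) (by omega) h1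
  rintro (⟨i, hi, hz⟩ | hz)
  · have h1 := (ho.seg hδ ho.pm (show i < κ by omega) (by simp) hz).1
    have := hno i (by omega) h1
    omega
  · have h1 := (ho.seg hδ ho.pm hj (by simp) (seg_qq_sub j hz)).1
    have hjn' := hno j hjn h1
    subst hjn'
    obtain ⟨a, b, ha, hb, hab, he⟩ := mem_seg.1 hz
    set g : ℤ × ℤ → ℤ := fun v => if v = ah (run h S s j) then 1 else 0 with hgdef
    have hs := (hg j).1
    have g1 : g (run h S s j).1 = 0 := if_neg (ah_ne1 hs).symm
    have g2 : g (run h S s j).2 = 0 := if_neg (ah_ne2 hs).symm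
    have g3 : g (ah (run h S s j)) = 1 := if_pos rfl
    obtain ⟨f1, v1⟩ := EE_face (g := g) hδ (corner1 hs) (corner2 hs) (u := 0) (by simp)
    have c1 := corner1b (hg (j + 1)).1
    have c2 := corner2b (hg (j + 1)).1
    rw [fb_run ho.nz ho.good hn] at c1 c2
    obtain ⟨f2, v2⟩ := EE_face (g := g) hδ c1 c2 (u := 0) (by simp)
    have v2' : HH g δ (EE δ (run h S s (j + 1)) 0) = 1 / 2 := by
      rw [v2]
      rcases ho.next hj with e | e
      · rw [e]; simp only; rw [g3, g2]; norm_num
      · rw [e]; simp only; rw [g3, g1]; norm_num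
    rw [g1, g2] at v1
    obtain ⟨f3, v3⟩ := HH_comb g f1 f2 (a := 1 / 2) (b := 1 / 2) (by norm_num) (by norm_num)
      (by norm_num)
    obtain ⟨f4, v4⟩ := HH_comb g f1 (show qq δ h S s j ∈ _ from f3) ha hb hab
    rw [he, v2'] at v4
    have v3' : HH g δ (qq δ h S s j) = 1 / 4 := by
      unfold qq
      rw [v3, v1, v2']
      push_cast
      norm_num
    rw [v3', v1] at v4
    push_cast at v4
    nlinarith


/-- **One side**: the points close to the slit on the side of `ε` are mapped to the side of the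
starting point of the tube. -/
theorem Ok.one_side (hδ : 0 < δ) (ho : Ok h S s κ) {Fi G : ℂ → ℂ} {w0 : ℝ} {n : ℕ}
    (hn : Alive h S s n) (hκn : κ ≤ n)
    (hS : Slit (OO δ h S s κ) Fi G w0 (EE δ (run h S s κ) 0) (EE δ (run h S s n) 0))
    {j : ℕ} (hj : j < κ) {m : ℤ × ℤ} (hm : m ∈ F.Dom.corners (fa (run h S s j))) {ε : ℝ}
    (hε : ε = 1 ∨ ε = -1) (hmε : (h m : ℝ) = -ε) {σ : ℝ} (hσ : σ = 1 ∨ σ = -1)
    (hst : ∀ η ∈ Ioo (0 : ℝ) 1, ∃ x : ℝ, 0 < σ * (x - w0) ∧
      Tendsto (fun z => (G z).re) (𝓝[OO δ h S s κ] (EE δ s (ε * η))) (𝓝 x)) :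
    ∀ᶠ η in 𝓝[>] (0 : ℝ), 0 < σ * ((G (AA δ h S s j m η)).re - w0) := by
  have hKO : Disjoint (KK δ h S s j) (OO δ h S s κ) := by
    rw [Set.disjoint_left]
    intro z hz hz'
    exact hz'.2 (KK_sub_gam hj hz)
  have hal : Alive h S s κ := ho.alive
  obtain ⟨e0, he0, hfar⟩ := hS.vert_far (isClosed_KK j) hKO (ho.not_KK hδ hal hj hj)
    (ho.not_KK hδ hn hj (lt_of_lt_of_le hj hκn))
  obtain ⟨C, hC, hnear⟩ := tube_near δ h S s j m ε
  have h1 : Ioo 0 (min 1 (e0 / (2 * C))) ∈ 𝓝[>] (0 : ℝ) := Ioo_mem_nhdsGT (by positivity)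
  filter_upwards [h1] with η hη
  obtain ⟨h0, h2⟩ := hη
  have hη1 : η < 1 := h2.trans_le (min_le_left _ _)
  have hηC : C * η < e0 := by
    have := h2.trans_le (min_le_right _ _)
    rw [lt_div_iff₀ (by positivity)] at this
    nlinarith
  have hsub := ho.tube_sub hδ hj hm hε hmε h0 hη1
  have hside := hS.one_side hfar (UU_preconnected (tb δ h S s j m ε η) j) hsub
    (fun z hz => by
      obtain ⟨p, hp, hd⟩ := hnear η h0 z hz
      exact ⟨p, hp, hd.trans_lt hηC⟩)
  have hend : AA δ h S s j m η ∈ UU (tb δ h S s j m ε η) j := by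
    have := UU_mem (tb δ h S s j m ε η) j
    rwa [show tb δ h S s j m ε η (j + 1) = AA δ h S s j m η from if_neg (by omega)] at this
  -- the start
  obtain ⟨x, hx, hxt⟩ := hst η ⟨h0, hη1⟩
  set y : ℝ → ℂ := fun b => ((1 - b : ℝ) : ℂ) * tb δ h S s j m ε η 0 +
    (b : ℂ) * tb δ h S s j m ε η 1 with hy
  have hyU : ∀ b ∈ Ioo (0 : ℝ) 1, y b ∈ UU (tb δ h S s j m ε η) j := fun b hb =>
    ⟨0, Nat.zero_le _, 1 - b, b, by linarith [hb.2], hb.1.le, by ring, fun _ => hb.1, rfl⟩
  have hy0 : Tendsto y (𝓝[>] 0) (𝓝[OO δ h S s κ] (EE δ s (ε * η))) := by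
    refine tendsto_nhdsWithin_iff.2 ⟨?_, ?_⟩
    · have hc : Continuous y := by
        rw [hy]
        fun_prop
      have h3 := hc.tendsto 0
      have h4 : y 0 = EE δ s (ε * η) := by
        rw [hy]
        simp only [sub_zero, Complex.ofReal_one, one_mul, Complex.ofReal_zero, zero_mul, add_zero]
        exact if_pos (Nat.zero_le j)
      rw [h4] at h3
      exact h3.mono_left nhdsWithin_le_nhds
    · filter_upwards [Ioo_mem_nhdsGT one_pos] with b hb
      exact hsub (hyU b hb)
  have h5 := (hxt.comp hy0)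
  have h6 : ∀ᶠ b in 𝓝[>] (0 : ℝ), 0 < σ * ((G (y b)).re - w0) := by
    have h7 : Tendsto (fun b => σ * ((G (y b)).re - w0)) (𝓝[>] 0) (𝓝 (σ * (x - w0))) :=
      (h5.sub_const w0).const_mul σ
    exact h7.eventually (lt_mem_nhds hx)
  obtain ⟨b, hb, hb'⟩ := (h6.and (Ioo_mem_nhdsGT (show (0 : ℝ) < 1 from one_pos))).exists
  have hbU := hyU b hb'
  rcases hside with hs | hs
  · have p1 := hs _ hbU
    have p2 := hs _ hend
    rcases hσ with rfl | rfl
    · linarith
    · exfalso; linarith
  · have p1 := hs _ hbU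
    have p2 := hs _ hend
    rcases hσ with rfl | rfl
    · exfalso; linarith
    · linarith

/-- The argument on the path to the slit. -/
theorem Ok.arg_lim (hδ : 0 < δ) (ho : Ok h S s κ) {Fi G : ℂ → ℂ} {w0 : ℝ} {n : ℕ}
    (hn : Alive h S s n) (hκn : κ ≤ n)
    (hS : Slit (OO δ h S s κ) Fi G w0 (EE δ (run h S s κ) 0) (EE δ (run h S s n) 0))
    {j : ℕ} (hj : j < κ) {m : ℤ × ℤ} (hm : m ∈ F.Dom.corners (fa (run h S s j))) {ε : ℝ}
    (hε : ε = 1 ∨ ε = -1) (hmε : (h m : ℝ) = -ε) {σ : ℝ} (hσ : σ = 1 ∨ σ = -1)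
    (hst : ∀ η ∈ Ioo (0 : ℝ) 1, ∃ x : ℝ, 0 < σ * (x - w0) ∧
      Tendsto (fun z => (G z).re) (𝓝[OO δ h S s κ] (EE δ s (ε * η))) (𝓝 x)) :
    Tendsto (fun η => (G (AA δ h S s j m η) - w0).arg) (𝓝[>] 0)
      (𝓝 (if σ = 1 then 0 else Real.pi)) := by
  have hend : ∀ η ∈ Ioo (0 : ℝ) 1, AA δ h S s j m η ∈ OO δ h S s κ := by
    intro η hη
    have := UU_mem (tb δ h S s j m ε η) j
    rw [show tb δ h S s j m ε η (j + 1) = AA δ h S s j m η from if_neg (by omega)] at this
    exact ho.tube_sub hδ hj hm hε hmε hη.1 hη.2 this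
  have hside := ho.one_side hδ hn hκn hS hj hm hε hmε hσ hst
  have hc : Continuous (AA δ h S s j m) := by
    unfold AA
    fun_prop
  set A : ℝ → ℂ := fun u => AA δ h S s j m (u / 2) with hA
  have hdiv : Tendsto (fun u : ℝ => u / 2) (𝓝[>] 0) (𝓝[>] 0) := by
    refine tendsto_nhdsWithin_iff.2 ⟨?_, ?_⟩
    · have : Tendsto (fun u : ℝ => u / 2) (𝓝 0) (𝓝 (0 / 2)) := (continuous_id.div_const 2).tendsto 0
      rw [zero_div] at this
      exact this.mono_left nhdsWithin_le_nhds
    · filter_upwards [self_mem_nhdsWithin] with u hu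
      have : (0 : ℝ) < u := hu
      exact half_pos this
  have hmul : Tendsto (fun u : ℝ => 2 * u) (𝓝[>] 0) (𝓝[>] 0) := by
    refine tendsto_nhdsWithin_iff.2 ⟨?_, ?_⟩
    · have : Tendsto (fun u : ℝ => 2 * u) (𝓝 0) (𝓝 (2 * 0)) :=
        (continuous_const.mul continuous_id).tendsto 0
      rw [mul_zero] at this
      exact this.mono_left nhdsWithin_le_nhds
    · filter_upwards [self_mem_nhdsWithin] with u hu
      have : (0 : ℝ) < u := hu
      simpa using this
  have hAc : ContinuousOn A (Ioc 0 1) := (hc.comp (continuous_id.div_const 2)).continuousOn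
  have hAO : ∀ u ∈ Ioc (0 : ℝ) 1, A u ∈ OO δ h S s κ := fun u hu =>
    hend _ ⟨by linarith [hu.1], by linarith [hu.2]⟩
  have hAq : Tendsto A (𝓝[>] 0) (𝓝 (qq δ h S s j)) := by
    have h1 := (hc.tendsto 0).mono_left (nhdsWithin_le_nhds (s := Ioi (0 : ℝ)))
    have h2 : AA δ h S s j m 0 = qq δ h S s j := by
      unfold AA; push_cast; ring
    rw [h2] at h1
    exact h1.comp hdiv
  have hqO : qq δ h S s j ∉ OO δ h S s κ := fun hc => hc.2 (qq_gam hj)
  have hqt : qq δ h S s j ≠ EE δ (run h S s κ) 0 := fun he =>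
    ho.not_KK hδ ho.alive hj hj (he ▸ qq_mem_KK j)
  have hqb : qq δ h S s j ≠ EE δ (run h S s n) 0 := fun he =>
    ho.not_KK hδ hn hj (lt_of_lt_of_le hj hκn) (he ▸ qq_mem_KK j)
  have key : Tendsto (fun u => (G (A u) - w0).arg) (𝓝[>] 0) (𝓝 (if σ = 1 then 0 else Real.pi)) := by
    rcases hσ with rfl | rfl
    · rw [if_pos rfl]
      refine hS.arg_zero hAc hAO hAq hqO hqt hqb ?_
      filter_upwards [hdiv.eventually hside] with u hu
      simp only [one_mul] at hu
      linarith
    · rw [if_neg (by norm_num)]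
      refine hS.arg_pi hAc hAO hAq hqO hqt hqb ?_
      filter_upwards [hdiv.eventually hside] with u hu
      linarith
  refine (key.comp hmul).congr fun η => ?_
  simp only [Function.comp_apply, hA]
  rw [mul_div_cancel_left₀ η (two_ne_zero)]

end Vale.Agent.P153.R2.INTF
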