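import Vale.Agent.P153.R2.DRV.Curve
import Vale.Agent.P153.R2.INTF.Tube2
import Vale.Agent.P153.R2.POLY.Dom
import Vale.Agent.P153.R2.L2.RealBd

/-!
# P153, block INTF/DRV: the slit domains of the interface (instance of `INTF.Slit`)

`slitI`: the domain slit along the first `κ` steps of the interface, with the conformal map
`ψ ∘ g_κ⁻¹` and the inverse `g_κ ∘ ψ⁻¹`.
-/

set_option autoImplicit false
set_option linter.unusedVariables false

open MeasureTheory ProbabilityTheory Filter Topology Set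
open scoped NNReal ENNReal

namespace Vale.Agent.P153.R2.DRV

open Vale.Agent.P153.R2.Final Vale.Agent.P153.R2.UNIQ
open Vale.Agent.P153.R2.INTF (St run fa fb HH PP EE Gam OO Reg Slit mem_seg HP)
open Vale.Agent.P153.R2.L2 (Crv gg cc ww drv tau)
open Vale.Agent.P153.R2.L1 (IsHydro)

variable {n k : ℕ} {p : ZMod n → ℤ × ℤ} {S : Finset Final.Tri} {δ : ℝ} {ψ : ℂ → ℂ} {g : Hg}

/-- The inverse of the uniformizer, up to the boundary. -/
noncomputable def ph (ψ : ℂ → ℂ) : ℂ → ℂ := Function.invFunOn ψ HB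

/-- The hull in the half-plane. -/
noncomputable def hu (ψ : ℂ → ℂ) (δ : ℝ) (p : ZMod n → ℤ × ℤ) (S : Finset Final.Tri) (h : Hg)
    (t : ℝ) : Set ℂ := et ψ δ p S h '' Icc 0 t

/-- The conformal map onto the slit domain. -/
noncomputable def Fs (ψ : ℂ → ℂ) (δ : ℝ) (p : ZMod n → ℤ × ℤ) (S : Finset Final.Tri) (h : Hg)
    (κ : ℕ) (z : ℂ) : ℂ := ψ (L1.inv (hu ψ δ p S h κ) (gg (et ψ δ p S h) κ) z)

/-- Its inverse. -/
noncomputable def Gs (ψ : ℂ → ℂ) (δ : ℝ) (p : ZMod n → ℤ × ℤ) (S : Finset Final.Tri) (h : Hg)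
    (κ : ℕ) (z : ℂ) : ℂ := gg (et ψ δ p S h) κ (ph ψ z)

theorem EE_mid (s : St) : EE δ s 0 = mid δ s.1 s.2 := by
  rw [POLY.mid_eq, EE]
  norm_num

theorem ph_mem {z : ℂ} (hz : z ∈ ψ '' HB) : ph ψ z ∈ HB ∧ ψ (ph ψ z) = z :=
  ⟨Function.invFunOn_mem hz, Function.invFunOn_eq hz⟩

theorem ph_psi (hU : IsUnifD p k S δ ψ) {z : ℂ} (hz : z ∈ HB) : ph ψ (ψ z) = z := by
  obtain ⟨h1, h2⟩ := ph_mem (mem_image_of_mem ψ hz)
  exact hU.injOn h1 hz h2

theorem ph_cont (hU : IsUnifD p k S δ ψ) : ContinuousOn (ph ψ) (ψ '' HB) :=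
  inv_cont isClosed_HB hU.cont hU.injOn hU.inf hU.ne

theorem hh_sub : L1.HH ⊆ HB := fun z hz => (show (0 : ℝ) < z.im from hz).le

theorem dom_eq (hU : IsUnifD p k S δ ψ) : interior (Reg δ S) = ψ '' L1.HH := by
  have h1 : ψ '' L1.HH = toC '' interior (region δ S) := hU.image
  rw [h1]
  exact (POLY.DC_eq_interior δ S).symm

/-- The polygonal curve up to time `κ`. -/
theorem pl_image (h : Hg) (κ : ℕ) :
    Gam δ h S (st p S) κ ⊆ pl δ (ru p S h) '' Icc 0 (κ : ℝ) ∧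
      pl δ (ru p S h) '' Icc 0 (κ : ℝ) ⊆
        insert (pl δ (ru p S h) 0) (Gam δ h S (st p S) κ) := by
  constructor
  · rintro z ⟨j, hj, hz⟩
    obtain ⟨a, b, ha, hb, hab, rfl⟩ := mem_seg.1 hz
    have hj' : (j : ℝ) + 1 ≤ κ := by exact_mod_cast hj
    refine ⟨j + b, ⟨by positivity, by linarith⟩, ?_⟩
    rw [pl_eq j (by linarith) (by linarith), EE_mid, EE_mid]
    have e1 : (1 - ((j : ℝ) + b - j)) = a := by linarith
    have e2 : ((j : ℝ) + b - j) = b := by ring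
    rw [e1, e2]
    rfl
  · rintro _ ⟨t, ht, rfl⟩
    rcases Nat.eq_zero_or_pos κ with h0 | h0
    · left
      subst h0
      have : t = 0 := le_antisymm (by simpa using ht.2) ht.1
      rw [this]
    · right
      -- the segment of `t`
      obtain ⟨j, hj, h1, h2⟩ : ∃ j : ℕ, j < κ ∧ (j : ℝ) ≤ t ∧ t ≤ j + 1 := by
        rcases ht.2.lt_or_eq with h1 | h1
        · exact ⟨⌊t⌋₊, (Nat.floor_lt ht.1).2 h1, Nat.floor_le ht.1, (Nat.lt_floor_add_one t).le⟩
        · refine ⟨κ - 1, by omega, ?_, ?_⟩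
          · rw [h1]
            exact_mod_cast Nat.sub_le κ 1
          · rw [h1]
            exact_mod_cast (by omega : κ ≤ κ - 1 + 1)
      refine ⟨j, hj, mem_seg.2 ⟨1 - (t - j), t - j, by linarith, by linarith, by ring, ?_⟩⟩
      rw [pl_eq j h1 h2, EE_mid, EE_mid]
      rfl

section

variable (hδ : 0 < δ) (hU : IsUnifD p k S δ ψ) (hg : Can p k S δ g)
include hU hg

theorem start_notMem : pl δ (ru p S g) 0 ∉ interior (Reg δ S) := by
  rw [dom_eq hU, hg.start, ← hU.zero]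
  rintro ⟨z, hz, he⟩
  have hz' : (0 : ℝ) < z.im := hz
  have := hU.injOn hz'.le (by simp) he
  rw [this] at hz'
  simp at hz'

theorem psi_hu {κ : ℕ} (hκ : κ < nu p S g) :
    ψ '' hu ψ δ p S g κ = pl δ (ru p S g) '' Icc 0 (κ : ℝ) := by
  have hκ' : (κ : ℝ) < nu p S g := by exact_mod_cast hκ
  rw [hu, image_image]
  refine image_congr fun t ht => ?_
  exact psi_et hU hg ht.1 (ht.2.trans_lt hκ')

theorem hu_sub {κ : ℕ} (hκ : κ < nu p S g) : hu ψ δ p S g κ ⊆ HB := by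
  have hκ' : (κ : ℝ) < nu p S g := by exact_mod_cast hκ
  rintro _ ⟨t, ht, rfl⟩
  exact et_mem hU hg ht.1 (ht.2.trans_lt hκ')

/-- The slit domain is the image of the complement of the hull. -/
theorem OO_eq {κ : ℕ} (hκ : κ < nu p S g) :
    OO δ g S (st p S) κ = ψ '' (L1.HH \ hu ψ δ p S g κ) := by
  have h1 := hU.injOn.mono (show L1.HH ∪ hu ψ δ p S g κ ⊆ HB from
    union_subset hh_sub (hu_sub hU hg hκ))
  have h2 : ψ '' (L1.HH \ hu ψ δ p S g κ) = ψ '' L1.HH \ ψ '' hu ψ δ p S g κ := by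
    ext z
    constructor
    · rintro ⟨w, ⟨hw1, hw2⟩, rfl⟩
      refine ⟨⟨w, hw1, rfl⟩, ?_⟩
      rintro ⟨w', hw', he⟩
      have := h1 (Or.inr hw') (Or.inl hw1) he
      rw [this] at hw'
      exact hw2 hw'
    · rintro ⟨⟨w, hw1, rfl⟩, hw2⟩
      exact ⟨w, ⟨hw1, fun hc => hw2 ⟨w, hc, rfl⟩⟩, rfl⟩
  rw [h2, ← dom_eq hU, psi_hu hU hg hκ]
  obtain ⟨h3, h4⟩ := pl_image (δ := δ) (p := p) (S := S) g κ
  ext z
  constructor
  · rintro ⟨hz1, hz2⟩
    refine ⟨hz1, fun hc => ?_⟩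
    rcases h4 hc with h5 | h5
    · rw [h5] at hz1
      exact start_notMem hU hg hz1
    · exact hz2 h5
  · rintro ⟨hz1, hz2⟩
    exact ⟨hz1, fun hc => hz2 (h3 hc)⟩

theorem hydI {κ : ℕ} (hκ : κ < nu p S g) : IsHydro (hu ψ δ p S g κ) (gg (et ψ δ p S g) κ) :=
  (crv hU hg).hydro ⟨Nat.cast_nonneg κ, by exact_mod_cast hκ⟩

theorem Gs_mem {κ : ℕ} (hκ : κ < nu p S g) {z : ℂ} (hz : z ∈ OO δ g S (st p S) κ) :
    ph ψ z ∈ L1.HH \ hu ψ δ p S g κ ∧ ψ (ph ψ z) = z := by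
  rw [OO_eq hU hg hκ] at hz
  obtain ⟨w, hw, rfl⟩ := hz
  rw [ph_psi hU (hh_sub hw.1)]
  exact ⟨hw, rfl⟩

include hδ in
/-- **The slit domains of the interface.** -/
theorem slitI {κ : ℕ} (hκ : κ < nu p S g) :
    Slit (OO δ g S (st p S) κ) (Fs ψ δ p S g κ) (Gs ψ δ p S g κ) (ww (et ψ δ p S g) κ)
      (EE δ (ru p S g κ) 0) (EE δ (ru p S g (nu p S g)) 0) := by
  have hyd := hydI hU hg hκ
  have hκ' : (κ : ℝ) < nu p S g := by exact_mod_cast hκ
  have hκ0 : (0 : ℝ) ≤ κ := Nat.cast_nonneg κ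
  have hopn : IsOpen (OO δ g S (st p S) κ) := by
    refine isOpen_interior.sdiff ?_
    have : Gam δ g S (st p S) κ = ⋃ j ∈ Finset.range κ,
        segment ℝ (EE δ (run g S (st p S) j) 0) (EE δ (run g S (st p S) (j + 1)) 0) := by
      ext z; simp [Gam]
    rw [this]
    exact isClosed_biUnion_finset fun j _ => INTF.isClosed_seg _ _
  refine ⟨hopn, ?_, ?_, ?_, ?_, ?_, ?_, ?_, ?_⟩
  · -- volume
    have h1 : Bornology.IsBounded (OO δ g S (st p S) κ) := by
      refine (POLY.isBounded_DC hδ S).subset ?_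
      rw [POLY.DC_eq_interior]
      exact fun z hz => hz.1
    exact h1.measure_lt_top.ne
  · -- differentiable
    refine hU.diff.comp (hyd.inv_diff) ?_
    exact fun z hz => (hyd.inv_mem hz).1
  · -- injective
    intro z hz w hw he
    have h1 := hyd.inv_mem hz
    have h2 := hyd.inv_mem hw
    have h3 := hU.injOn (hh_sub h1.1) (hh_sub h2.1) he
    rw [← hyd.g_inv hz, ← hyd.g_inv hw, h3]
  · -- image
    have h1 : Fs ψ δ p S g κ = ψ ∘ L1.inv (hu ψ δ p S g κ) (gg (et ψ δ p S g) κ) := rfl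
    rw [h1, image_comp]
    change ψ '' (L1.inv (hu ψ δ p S g κ) (gg (et ψ δ p S g) κ) '' L1.HH) = _
    rw [hyd.inv_image, OO_eq hU hg hκ]
  · -- inverse
    intro w hw
    have h1 := hyd.inv_mem hw
    unfold Gs Fs
    rw [ph_psi hU (hh_sub h1.1), hyd.g_inv hw]
  · -- continuity
    refine hyd.diff.continuousOn.comp ((ph_cont hU).mono ?_) fun z hz => (Gs_mem hU hg hκ hz).1
    rw [OO_eq hU hg hκ]
    exact image_mono (sdiff_subset.trans hh_sub)
  · -- the tip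
    set c : ℝ := (nu p S g - κ) / 2 with hc
    have hc0 : 0 < c := by rw [hc]; linarith
    have hmem : ∀ u ∈ Ioc (0 : ℝ) 1, κ + c * u ∈ Ioo (κ : ℝ) (nu p S g) := by
      intro u hu
      have h1 : c * u ≤ c * 1 := by gcongr; exact hu.2
      exact ⟨by linarith [mul_pos hc0 hu.1], by rw [hc] at h1 ⊢; linarith⟩
    have hmemO : ∀ t ∈ Ioo (κ : ℝ) (nu p S g), pl δ (ru p S g) t ∈ OO δ g S (st p S) κ := by
      intro t ht
      rw [OO_eq hU hg hκ]
      exact ⟨et ψ δ p S g t, (crv hU hg).mem_compl hκ0 ht.1 ht.2,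
        psi_et hU hg (hκ0.trans ht.1.le) ht.2⟩
    have hlin : Tendsto (fun u : ℝ => κ + c * u) (𝓝[>] 0) (𝓝[>] (κ : ℝ)) := by
      refine tendsto_nhdsWithin_iff.2 ⟨?_, ?_⟩
      · have h1 : Continuous fun u : ℝ => κ + c * u := by fun_prop
        have h2 := h1.tendsto 0
        simp only [mul_zero, add_zero] at h2
        exact h2.mono_left nhdsWithin_le_nhds
      · filter_upwards [self_mem_nhdsWithin] with u hu
        have : (0 : ℝ) < u := hu
        exact lt_add_of_pos_right _ (mul_pos hc0 this)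
    refine ⟨fun u => pl δ (ru p S g) (κ + c * u), ?_, ?_, ?_, ?_⟩
    · refine (pl_cont δ (ru p S g)).comp (by fun_prop) fun u hu => ?_
      exact hκ0.trans (hmem u hu).1.le
    · exact fun u hu => hmemO _ (hmem u hu)
    · have h1 : Tendsto (pl δ (ru p S g)) (𝓝[>] (κ : ℝ)) (𝓝 (pl δ (ru p S g) κ)) :=
        (pl_cont δ (ru p S g) κ hκ0).mono_left (nhdsWithin_mono _ fun u hu =>
          hκ0.trans (le_of_lt hu))
      rw [pl_nat, ← EE_mid] at h1
      exact h1.comp hlin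
    · have h1 := ((crv hU hg).tip ⟨hκ0, hκ'⟩).comp hlin
      refine h1.congr' ?_
      filter_upwards [Ioc_mem_nhdsGT one_pos] with u hu
      simp only [Function.comp_apply, Gs]
      have h2 := hmem u hu
      rw [← psi_et hU hg (hκ0.trans h2.1.le) h2.2,
        ph_psi hU (et_mem hU hg (hκ0.trans h2.1.le) h2.2)]
  · -- infinity
    have h1 : EE δ (ru p S g (nu p S g)) 0 = bptD p k δ := by
      rw [EE_mid, ← pl_nat, hg.fin]
    rw [h1]
    have h2 := hyd.tendsto_inv_cobounded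
    have h3 : Tendsto (L1.inv (hu ψ δ p S g κ) (gg (et ψ δ p S g) κ))
        (Bornology.cobounded ℂ ⊓ 𝓟 HP) (Bornology.cobounded ℂ ⊓ 𝓟 {z : ℂ | 0 ≤ z.im}) := by
      refine h2.mono_right (inf_le_inf_left _ (principal_mono.2 ?_))
      exact sdiff_subset.trans hh_sub
    exact hU.inf.comp h3

end

end Vale.Agent.P153.R2.DRV
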