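import Vale.Agent.P153.R2.Final.Defs

/-!
P153, block INTF: closed faces of the scaled lattice in the complex plane; the interpolation of the
heights is affine on each of them; a sufficient condition for interior points of the domain.
-/

set_option linter.all false

namespace Vale.Agent.P153.R2.INTF

open Set Filter Topology Metric
open Vale.Agent.P153.R2.Final (pt toC region hat interp corners)

/-- First lattice coordinate. -/
noncomputable def lx (δ : ℝ) (z : ℂ) : ℝ := z.re / δ - z.im / δ / √3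
/-- Second lattice coordinate. -/
noncomputable def ly (δ : ℝ) (z : ℂ) : ℝ := 2 * (z.im / δ) / √3

/-- The point of the complex plane. -/
noncomputable def PP (δ : ℝ) (v : ℤ × ℤ) : ℂ := toC (δ • pt v)

/-- The interpolation of `h`. -/
noncomputable def HH (h : ℤ × ℤ → ℤ) (δ : ℝ) (z : ℂ) : ℝ := interp h (z.re / δ, z.im / δ)

theorem HH_eq (h : ℤ × ℤ → ℤ) (δ : ℝ) (z : ℂ) :
    HH h δ z = ∑ᶠ v : ℤ × ℤ, (h v : ℝ) * hat (lx δ z - v.1) (ly δ z - v.2) := rfl

theorem sqrt3_pos : (0 : ℝ) < √3 := by positivity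

theorem lx_comb (δ a b : ℝ) (z w : ℂ) : lx δ (a * z + b * w) = a * lx δ z + b * lx δ w := by
  simp only [lx, Complex.add_re, Complex.add_im, Complex.re_ofReal_mul, Complex.im_ofReal_mul]
  ring

theorem ly_comb (δ a b : ℝ) (z w : ℂ) : ly δ (a * z + b * w) = a * ly δ z + b * ly δ w := by
  simp only [ly, Complex.add_re, Complex.add_im, Complex.re_ofReal_mul, Complex.im_ofReal_mul]
  ring

theorem lx_PP {δ : ℝ} (hδ : 0 < δ) (v : ℤ × ℤ) : lx δ (PP δ v) = v.1 := by
  have h3 := sqrt3_pos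
  simp only [lx, PP, toC, pt, Prod.smul_mk, smul_eq_mul]
  field_simp
  ring

theorem ly_PP {δ : ℝ} (hδ : 0 < δ) (v : ℤ × ℤ) : ly δ (PP δ v) = v.2 := by
  have h3 := sqrt3_pos
  simp only [ly, PP, toC, pt, Prod.smul_mk, smul_eq_mul]
  field_simp

theorem continuous_lx (δ : ℝ) : Continuous (lx δ) := by
  unfold lx
  exact ((Complex.continuous_re.div_const _).sub ((Complex.continuous_im.div_const _).div_const _))

theorem continuous_ly (δ : ℝ) : Continuous (ly δ) := by
  unfold ly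
  exact ((continuous_const.mul (Complex.continuous_im.div_const _)).div_const _)

/-- A point is determined by its lattice coordinates. -/
theorem eq_of_coord {δ : ℝ} (hδ : 0 < δ) {z w : ℂ} (h1 : lx δ z = lx δ w) (h2 : ly δ z = ly δ w) :
    z = w := by
  have h3 := sqrt3_pos
  have e2 : z.im = w.im := by
    unfold ly at h2
    field_simp at h2
    linarith
  have e1 : z.re = w.re := by
    unfold lx at h1
    rw [e2] at h1
    field_simp at h1
    have h4 : √3 * (z.re - w.re) = 0 := by linarith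
    rcases mul_eq_zero.1 h4 with h5 | h5
    · exact absurd h5 h3.ne'
    · linarith
  exact Complex.ext e1 e2

/-- The point with given lattice coordinates. -/
noncomputable def QQ (δ x y : ℝ) : ℂ := ⟨δ * (x + y / 2), δ * (√3 / 2 * y)⟩

theorem lx_QQ {δ : ℝ} (hδ : 0 < δ) (x y : ℝ) : lx δ (QQ δ x y) = x := by
  have h3 := sqrt3_pos
  simp only [lx, QQ]
  field_simp
  ring

theorem ly_QQ {δ : ℝ} (hδ : 0 < δ) (x y : ℝ) : ly δ (QQ δ x y) = y := by
  have h3 := sqrt3_pos
  simp only [ly, QQ]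
  field_simp

/-- The closed face, by inequalities in lattice coordinates. -/
def InF (t : (ℤ × ℤ) × Bool) (x y : ℝ) : Prop :=
  if t.2 then x ≤ t.1.1 + 1 ∧ y ≤ t.1.2 + 1 ∧ (t.1.1 : ℝ) + t.1.2 + 1 ≤ x + y
  else (t.1.1 : ℝ) ≤ x ∧ (t.1.2 : ℝ) ≤ y ∧ x + y ≤ t.1.1 + t.1.2 + 1

/-- The closed face of the mesh `δ`. -/
def Face (δ : ℝ) (t : (ℤ × ℤ) × Bool) : Set ℂ := {z | InF t (lx δ z) (ly δ z)}

theorem hat_zero {s t : ℝ} (h : 1 ≤ |s| ∨ 1 ≤ |t| ∨ 1 ≤ |s + t|) : hat s t = 0 := by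
  unfold hat
  apply max_eq_left
  rcases h with h | h | h
  · linarith [le_max_left |s| (max |t| |s + t|)]
  · linarith [le_max_right |s| (max |t| |s + t|), le_max_left |t| |s + t|]
  · linarith [le_max_right |s| (max |t| |s + t|), le_max_right |t| |s + t|]

theorem hat_of {s t m : ℝ} (h1 : max |s| (max |t| |s + t|) = m) (h2 : m ≤ 1) : hat s t = 1 - m := by
  unfold hat
  rw [h1]
  apply max_eq_right
  linarith

theorem max3 {a b c m : ℝ} (h1 : a ≤ m) (h2 : b ≤ m) (h3 : c ≤ m) (h : a = m ∨ b = m ∨ c = m) :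
    max a (max b c) = m := by
  apply le_antisymm (max_le h1 (max_le h2 h3))
  rcases h with rfl | rfl | rfl
  · exact le_max_left _ _
  · exact (le_max_left _ _).trans (le_max_right _ _)
  · exact (le_max_right _ _).trans (le_max_right _ _)

theorem one_le_abs_int {x : ℝ} {n : ℤ} (h : x ≤ n - 1 ∨ (n : ℝ) + 1 ≤ x) : 1 ≤ |x - n| := by
  rcases h with h | h
  · rw [abs_sub_comm]; exact le_trans (by linarith) (le_abs_self _)
  · exact le_trans (by linarith) (le_abs_self _)

/-- The value of the interpolation in a face `(v, false)`. -/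
theorem interp_false (h : ℤ × ℤ → ℤ) (v : ℤ × ℤ) {x y : ℝ} (h1 : (v.1 : ℝ) ≤ x) (h2 : (v.2 : ℝ) ≤ y)
    (h3 : x + y ≤ v.1 + v.2 + 1) :
    ∑ᶠ u : ℤ × ℤ, (h u : ℝ) * hat (x - u.1) (y - u.2) =
      (1 - (x - v.1) - (y - v.2)) * h v + (x - v.1) * h (v + (1, 0)) + (y - v.2) * h (v + (0, 1)) := by
  obtain ⟨v1, v2⟩ := v
  simp only at h1 h2 h3
  have hsup : (Function.support fun u : ℤ × ℤ => (h u : ℝ) * hat (x - u.1) (y - u.2)) ⊆
      (({(v1, v2), (v1 + 1, v2), (v1, v2 + 1)} : Finset (ℤ × ℤ)) : Set (ℤ × ℤ)) := by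
    intro u hu
    obtain ⟨u1, u2⟩ := u
    simp only [Function.mem_support, ne_eq, mul_eq_zero, not_or] at hu
    obtain ⟨_, hu⟩ := hu
    simp only [Finset.coe_insert, Finset.coe_singleton, mem_insert_iff, mem_singleton_iff,
      Prod.mk.injEq]
    by_contra hc
    apply hu
    apply hat_zero
    by_contra hcon
    push Not at hcon
    obtain ⟨c1, c2, c3⟩ := hcon
    rw [abs_lt] at c1 c2 c3
    have d1 : (u1 : ℝ) < v1 + 2 := by linarith [c1.1]
    have d2 : (v1 : ℝ) - 1 < u1 := by linarith [c1.2]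
    have d3 : (u2 : ℝ) < v2 + 2 := by linarith [c2.1]
    have d4 : (v2 : ℝ) - 1 < u2 := by linarith [c2.2]
    have d5 : (u1 : ℝ) + u2 < v1 + v2 + 2 := by linarith [c3.1]
    have d6 : (v1 : ℝ) + v2 - 1 < u1 + u2 := by linarith [c3.2]
    have e1 : u1 < v1 + 2 := by exact_mod_cast d1
    have e2 : v1 - 1 < u1 := by exact_mod_cast d2
    have e3 : u2 < v2 + 2 := by exact_mod_cast d3
    have e4 : v2 - 1 < u2 := by exact_mod_cast d4
    have e5 : u1 + u2 < v1 + v2 + 2 := by exact_mod_cast d5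
    omega
  rw [finsum_eq_sum_of_support_subset _ hsup, Finset.sum_insert, Finset.sum_insert,
    Finset.sum_singleton]
  · have a1 : hat (x - v1) (y - v2) = 1 - ((x - v1) + (y - v2)) :=
      hat_of (max3 (by rw [abs_of_nonneg (by linarith)]; linarith)
        (by rw [abs_of_nonneg (by linarith)]; linarith)
        (by rw [abs_of_nonneg (by linarith)])
        (Or.inr (Or.inr (by rw [abs_of_nonneg (by linarith)])))) (by linarith)
    have a2 : hat (x - ((v1 + 1 : ℤ) : ℝ)) (y - v2) = 1 - (1 - (x - v1)) := by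
      push_cast
      refine hat_of (max3 ?_ ?_ ?_ (Or.inl ?_)) (by linarith)
      · rw [abs_of_nonpos (by linarith)]; linarith
      · rw [abs_of_nonneg (by linarith)]; linarith
      · rw [abs_of_nonpos (by linarith)]; linarith
      · rw [abs_of_nonpos (by linarith)]; linarith
    have a3 : hat (x - v1) (y - ((v2 + 1 : ℤ) : ℝ)) = 1 - (1 - (y - v2)) := by
      push_cast
      refine hat_of (max3 ?_ ?_ ?_ (Or.inr (Or.inl ?_))) (by linarith)
      · rw [abs_of_nonneg (by linarith)]; linarith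
      · rw [abs_of_nonpos (by linarith)]; linarith
      · rw [abs_of_nonpos (by linarith)]; linarith
      · rw [abs_of_nonpos (by linarith)]; linarith
    simp only [Prod.mk_add_mk, add_zero]
    rw [a1, a2, a3]
    ring
  · simp
  · simp

/-- The value of the interpolation in a face `(v, true)`. -/
theorem interp_true (h : ℤ × ℤ → ℤ) (v : ℤ × ℤ) {x y : ℝ} (h1 : x ≤ v.1 + 1) (h2 : y ≤ v.2 + 1)
    (h3 : (v.1 : ℝ) + v.2 + 1 ≤ x + y) :
    ∑ᶠ u : ℤ × ℤ, (h u : ℝ) * hat (x - u.1) (y - u.2) =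
      (x + y - v.1 - v.2 - 1) * h (v + (1, 1)) + (v.2 + 1 - y) * h (v + (1, 0)) +
        (v.1 + 1 - x) * h (v + (0, 1)) := by
  obtain ⟨v1, v2⟩ := v
  simp only at h1 h2 h3
  have hsup : (Function.support fun u : ℤ × ℤ => (h u : ℝ) * hat (x - u.1) (y - u.2)) ⊆
      (({(v1 + 1, v2 + 1), (v1 + 1, v2), (v1, v2 + 1)} : Finset (ℤ × ℤ)) : Set (ℤ × ℤ)) := by
    intro u hu
    obtain ⟨u1, u2⟩ := u
    simp only [Function.mem_support, ne_eq, mul_eq_zero, not_or] at hu
    obtain ⟨_, hu⟩ := hu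
    simp only [Finset.coe_insert, Finset.coe_singleton, mem_insert_iff, mem_singleton_iff,
      Prod.mk.injEq]
    by_contra hc
    apply hu
    apply hat_zero
    by_contra hcon
    push Not at hcon
    obtain ⟨c1, c2, c3⟩ := hcon
    rw [abs_lt] at c1 c2 c3
    have d1 : (u1 : ℝ) < v1 + 2 := by linarith [c1.1]
    have d2 : (v1 : ℝ) - 1 < u1 := by linarith [c1.2]
    have d3 : (u2 : ℝ) < v2 + 2 := by linarith [c2.1]
    have d4 : (v2 : ℝ) - 1 < u2 := by linarith [c2.2]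
    have d6 : (v1 : ℝ) + v2 < u1 + u2 := by linarith [c3.2]
    have e1 : u1 < v1 + 2 := by exact_mod_cast d1
    have e2 : v1 - 1 < u1 := by exact_mod_cast d2
    have e3 : u2 < v2 + 2 := by exact_mod_cast d3
    have e4 : v2 - 1 < u2 := by exact_mod_cast d4
    have e6 : v1 + v2 < u1 + u2 := by exact_mod_cast d6
    omega
  rw [finsum_eq_sum_of_support_subset _ hsup, Finset.sum_insert, Finset.sum_insert,
    Finset.sum_singleton]
  · have a1 : hat (x - ((v1 + 1 : ℤ) : ℝ)) (y - ((v2 + 1 : ℤ) : ℝ)) = 1 - (v1 + v2 + 2 - x - y) := by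
      push_cast
      refine hat_of (max3 ?_ ?_ ?_ (Or.inr (Or.inr ?_))) (by linarith)
      · rw [abs_of_nonpos (by linarith)]; linarith
      · rw [abs_of_nonpos (by linarith)]; linarith
      · rw [abs_of_nonpos (by linarith)]; linarith
      · rw [abs_of_nonpos (by linarith)]; ring
    have a2 : hat (x - ((v1 + 1 : ℤ) : ℝ)) (y - v2) = 1 - (y - v2) := by
      push_cast
      refine hat_of (max3 ?_ ?_ ?_ (Or.inr (Or.inl ?_))) (by linarith)
      · rw [abs_of_nonpos (by linarith)]; linarith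
      · rw [abs_of_nonneg (by linarith)]
      · rw [abs_of_nonneg (by linarith)]; linarith
      · rw [abs_of_nonneg (by linarith)]
    have a3 : hat (x - v1) (y - ((v2 + 1 : ℤ) : ℝ)) = 1 - (x - v1) := by
      push_cast
      refine hat_of (max3 ?_ ?_ ?_ (Or.inl ?_)) (by linarith)
      · rw [abs_of_nonneg (by linarith)]
      · rw [abs_of_nonpos (by linarith)]; linarith
      · rw [abs_of_nonneg (by linarith)]; linarith
      · rw [abs_of_nonneg (by linarith)]
    simp only [Prod.mk_add_mk, add_zero]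
    rw [a1, a2, a3]
    ring
  · simp
  · simp

/-- The interpolation is affine on every closed face. -/
theorem HH_comb (h : ℤ × ℤ → ℤ) {δ : ℝ} {t : (ℤ × ℤ) × Bool} {z w : ℂ} (hz : z ∈ Face δ t)
    (hw : w ∈ Face δ t) {a b : ℝ} (ha : 0 ≤ a) (hb : 0 ≤ b) (hab : a + b = 1) :
    a * z + b * w ∈ Face δ t ∧ HH h δ (a * z + b * w) = a * HH h δ z + b * HH h δ w := by
  obtain ⟨v, c⟩ := t
  rw [HH_eq, HH_eq, HH_eq]
  cases c
  · have hz' : (v.1 : ℝ) ≤ lx δ z ∧ (v.2 : ℝ) ≤ ly δ z ∧ lx δ z + ly δ z ≤ v.1 + v.2 + 1 := by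
      simpa [Face, InF] using hz
    have hw' : (v.1 : ℝ) ≤ lx δ w ∧ (v.2 : ℝ) ≤ ly δ w ∧ lx δ w + ly δ w ≤ v.1 + v.2 + 1 := by
      simpa [Face, InF] using hw
    obtain ⟨z1, z2, z3⟩ := hz'
    obtain ⟨w1, w2, w3⟩ := hw'
    have hb' : b = 1 - a := by linarith
    have y1 : (v.1 : ℝ) ≤ lx δ (a * z + b * w) := by
      rw [lx_comb, hb']; nlinarith
    have y2 : (v.2 : ℝ) ≤ ly δ (a * z + b * w) := by
      rw [ly_comb, hb']; nlinarith
    have y3 : lx δ (a * z + b * w) + ly δ (a * z + b * w) ≤ v.1 + v.2 + 1 := by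
      rw [lx_comb, ly_comb, hb']
      nlinarith
    refine ⟨by simpa [Face, InF] using ⟨y1, y2, y3⟩, ?_⟩
    rw [interp_false h v y1 y2 y3, interp_false h v z1 z2 z3, interp_false h v w1 w2 w3, lx_comb,
      ly_comb, hb']
    ring
  · have hz' : lx δ z ≤ v.1 + 1 ∧ ly δ z ≤ v.2 + 1 ∧ (v.1 : ℝ) + v.2 + 1 ≤ lx δ z + ly δ z := by
      simpa [Face, InF] using hz
    have hw' : lx δ w ≤ v.1 + 1 ∧ ly δ w ≤ v.2 + 1 ∧ (v.1 : ℝ) + v.2 + 1 ≤ lx δ w + ly δ w := by
      simpa [Face, InF] using hw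
    obtain ⟨z1, z2, z3⟩ := hz'
    obtain ⟨w1, w2, w3⟩ := hw'
    have hb' : b = 1 - a := by linarith
    have y1 : lx δ (a * z + b * w) ≤ v.1 + 1 := by
      rw [lx_comb, hb']; nlinarith
    have y2 : ly δ (a * z + b * w) ≤ v.2 + 1 := by
      rw [ly_comb, hb']; nlinarith
    have y3 : (v.1 : ℝ) + v.2 + 1 ≤ lx δ (a * z + b * w) + ly δ (a * z + b * w) := by
      rw [lx_comb, ly_comb, hb']
      nlinarith
    refine ⟨by simpa [Face, InF] using ⟨y1, y2, y3⟩, ?_⟩
    rw [interp_true h v y1 y2 y3, interp_true h v z1 z2 z3, interp_true h v w1 w2 w3, lx_comb,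
      ly_comb, hb']
    ring

/-- The interpolation at a lattice point. -/
theorem HH_PP (h : ℤ × ℤ → ℤ) {δ : ℝ} (hδ : 0 < δ) (v : ℤ × ℤ) : HH h δ (PP δ v) = h v := by
  rw [HH_eq, interp_false h v (by rw [lx_PP hδ]) (by rw [ly_PP hδ])
    (by rw [lx_PP hδ, ly_PP hδ]; linarith), lx_PP hδ, ly_PP hδ]
  ring

theorem PP_mem {δ : ℝ} (hδ : 0 < δ) {t : (ℤ × ℤ) × Bool} {v : ℤ × ℤ} (hv : v ∈ corners t) :
    PP δ v ∈ Face δ t := by
  obtain ⟨u, c⟩ := t
  cases c
  · simp only [corners, Bool.false_eq_true, if_false, Finset.mem_insert, Finset.mem_singleton] at hv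
    rcases hv with rfl | rfl | rfl <;>
      simp [Face, InF, lx_PP hδ, ly_PP hδ] <;> linarith
  · simp only [corners, if_true, Finset.mem_insert, Finset.mem_singleton] at hv
    rcases hv with rfl | rfl | rfl <;>
      simp [Face, InF, lx_PP hδ, ly_PP hδ] <;> linarith

end Vale.Agent.P153.R2.INTF
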