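import Vale.Agent.P153.R2.INTF.Orient
import Vale.Agent.P153.R2.INTF.SlitI
import Vale.Agent.P153.R2.POLY.CanCs
import Vale.Agent.P153.R2.OBSV.Obs

/-!
P153, block INTF: proof of `OBSV.S_side`.
-/

set_option linter.all false

namespace Vale.Agent.P153.R2.INTF

open Set Filter Topology Metric Function
open Vale.Agent.P153 Vale.Agent.P153.Topo
open Vale.Agent.P153.R2.DRV (st Mn Pn Cs ru nu et pl)
open Vale.Agent.P153.R2.FLDI (inn)

theorem norm_bx {δ : ℝ} (hδ : 0 < δ) {u v : ℤ × ℤ} {R : ℤ} (hR : 0 ≤ R) (hu : u ∈ bx v R) :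
    ‖PP δ u - PP δ v‖ ≤ 2 * δ * R := by
  have h3 : √3 * √3 = (3 : ℝ) := Real.mul_self_sqrt (by norm_num)
  obtain ⟨h1, h2⟩ := hu
  rw [abs_le] at h1 h2
  have hR' : (0 : ℝ) ≤ R := by exact_mod_cast hR
  have a1 : -(R : ℝ) ≤ ((u.1 - v.1 : ℤ) : ℝ) := by exact_mod_cast h1.1
  have a2 : ((u.1 - v.1 : ℤ) : ℝ) ≤ R := by exact_mod_cast h1.2
  have b1 : -(R : ℝ) ≤ ((u.2 - v.2 : ℤ) : ℝ) := by exact_mod_cast h2.1
  have b2 : ((u.2 - v.2 : ℤ) : ℝ) ≤ R := by exact_mod_cast h2.2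
  refine le_of_sq_le_sq ?_ (by positivity)
  rw [PP_sub, ← Complex.normSq_eq_norm_sq, Complex.normSq_mk]
  set a := ((u.1 - v.1 : ℤ) : ℝ)
  set b := ((u.2 - v.2 : ℤ) : ℝ)
  have ha : a ^ 2 ≤ R ^ 2 := by nlinarith
  have hb : b ^ 2 ≤ R ^ 2 := by nlinarith
  have hab : a * b ≤ R ^ 2 := by nlinarith [sq_nonneg (a - b)]
  have e : δ * (a + b / 2) * (δ * (a + b / 2)) + δ * (√3 / 2 * b) * (δ * (√3 / 2 * b)) =
      δ ^ 2 * (a ^ 2 + a * b + b ^ 2) := by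
    linear_combination (δ ^ 2 * b ^ 2 / 4) * h3
  rw [e]
  have hδ2 : 0 < δ ^ 2 := by positivity
  nlinarith

theorem s_side : OBSV.S_side := by
  intro n k p S δ ψ hδ hk hkn hp hS hU h hh j hj v hv R v' m hc hm
  have hC : STEP.CanH p k S δ h := POLY.canCs n k p S δ hδ hk hkn hp hS h hh
  have hg : DRV.Can p k S δ h := ⟨hC.pos, hC.zero, hC.last, hC.inj, hC.mem⟩
  have hSl := DRV.slitI hδ hU hg hj
  have hW := sided_poly hδ hp hS hk hkn hU hC hj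
  have he := expl_poly hp hS hk hkn hh hj.le
  have hal := (alive_nu hp hS hk hkn hh).1
  have hR : 0 ≤ R := by
    have h1 := hc.left_mem.2.1
    exact (abs_nonneg _).trans h1
  have hR' : (0 : ℝ) ≤ R := by exact_mod_cast hR
  have hc' : Conn (Fk (inn p S) h S (st p S) j ∩ {u | ‖PP δ u - PP δ v‖ < 2 * δ * R + δ / 2})
      v v' := by
    refine hc.mono ?_
    rintro u ⟨hu1, hu2⟩
    refine ⟨hu1, ?_⟩
    have := norm_bx hδ hR hu2
    simp only [mem_setOf_eq]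
    linarith
  have key : ∀ c : ℤ, (c = 1 ∨ c = -1) →
      m ∈ wl (Pn p k S ∪ Lk h S (st p S) j) (Mn p k S ∪ Rk h S (st p S) j) c →
      OBSV.Wall (OBSV.Fm ψ δ p S h j) (ang 1 c) (PP δ v) (2 * δ * (R + 2)) := by
    intro c hc1 hmc
    have h1 := wall_of_joined hSl (θ := ang 1 c) (z := PP δ v) (R := 2 * δ * (R + 2)) (by
      intro ε hε
      obtain ⟨y, hy1, hy2⟩ := sides hδ he hal hj.le hSl hW hc1 hc' hm hmc hε
      refine ⟨y, hy1.mono ?_, hy2⟩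
      exact inter_subset_inter_right _ (ball_subset_ball (by linarith)))
    exact h1
  constructor
  · intro hm1
    have := key 1 (Or.inl rfl) (Or.inl ⟨rfl, hm1⟩)
    rwa [ang, if_neg (by norm_num)] at this
  · intro hm1
    have := key (-1) (Or.inr rfl) (Or.inr ⟨rfl, hm1⟩)
    rwa [ang, if_pos (by norm_num)] at this

end Vale.Agent.P153.R2.INTF
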