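import Vale.Agent.P153.R2.INTF.Sides
import Vale.Agent.P153.R2.DRV.Stmt
import Vale.Agent.P153.R2.FLDI.Br
import Vale.Agent.P153.R2.PLAN.Poly

/-!
P153, block INTF: the exploration of the domain of a lattice polygon (conventions of DRV): it starts
at the edge `p (-1) p 0`, and leaves the domain through the edge `p (k - 1) p k`.
-/

set_option linter.all false

namespace Vale.Agent.P153.R2.INTF

open Set
open Vale.Agent.P153 Vale.Agent.P153.Topo
open Vale.Agent.P153.R2.Final (IsPolygon Encloses IsEdge Side Heights mid)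
open Vale.Agent.P153.R2.DRV (Pos st sg Mn Pn Cs ru nu sh)
open Vale.Agent.P153.R2.FLDI (inn adjF polyF enclF)
open Vale.Agent.P153.R2.UNIQ (bptD)

variable {n : ℕ} {p : ZMod n → ℤ × ℤ} {S : Finset Tri} {k : ℕ}

theorem isEdge_comm {a b : ℤ × ℤ} : IsEdge p a b ↔ IsEdge p b a :=
  ⟨fun ⟨i, h⟩ => ⟨i, h.symm⟩, fun ⟨i, h⟩ => ⟨i, h.symm⟩⟩

/-- The edge of the state is in the polygon iff exactly one of the two faces is enclosed. -/
theorem edge_side (hS : Encloses p S) {s : St} (hs : Adj s.1 s.2) :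
    IsEdge p s.1 s.2 ↔ ¬ (fa s ∈ S ↔ fb s ∈ S) := by
  obtain ⟨a, b, h | h | h | h | h | h⟩ := st_cases hs <;> subst h
  · obtain ⟨h1, -, -⟩ := hS (a, b)
    have e1 : fa ((a + 1, b), (a, b)) = ((a, b) - (0, 1), true) := by
      simp [fa, Prod.ext_iff]
    have e2 : fb ((a + 1, b), (a, b)) = ((a, b), false) := by
      simp [fa, fb, Prod.ext_iff]
    have e3 : (a, b) + (1, 0) = (a + 1, b) := by simp
    rw [e1, e2, isEdge_comm]
    rw [e3] at h1
    unfold Side at h1
    simp only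
    tauto
  · obtain ⟨-, h1, -⟩ := hS (a, b)
    have e1 : fa ((a, b + 1), (a, b)) = ((a, b), false) := by
      simp [fa, Prod.ext_iff]
    have e2 : fb ((a, b + 1), (a, b)) = ((a, b) - (1, 0), true) := by
      simp [fa, fb, Prod.ext_iff]
    have e3 : (a, b) + (0, 1) = (a, b + 1) := by simp
    rw [e1, e2, isEdge_comm]
    rw [e3] at h1
    unfold Side at h1
    simp only
    tauto
  · obtain ⟨-, -, h1⟩ := hS (a - 1, b)
    have e1 : fa ((a - 1, b + 1), (a, b)) = ((a - 1, b), true) := by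
      simp [fa, Prod.ext_iff]
    have e2 : fb ((a - 1, b + 1), (a, b)) = ((a - 1, b), false) := by
      simp [fa, fb, Prod.ext_iff]
    have e3 : (a - 1, b) + (1, 0) = (a, b) := by simp
    have e4 : (a - 1, b) + (0, 1) = (a - 1, b + 1) := by simp
    rw [e1, e2, isEdge_comm]
    rw [e3, e4] at h1
    unfold Side at h1
    simp only
    tauto
  · obtain ⟨h1, -, -⟩ := hS (a - 1, b)
    have e1 : fa ((a - 1, b), (a, b)) = ((a - 1, b), false) := by
      simp [fa, Prod.ext_iff]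
    have e2 : fb ((a - 1, b), (a, b)) = ((a - 1, b) - (0, 1), true) := by
      simp [fa, fb, Prod.ext_iff]
    have e3 : (a - 1, b) + (1, 0) = (a, b) := by simp
    rw [e1, e2]
    rw [e3] at h1
    unfold Side at h1
    simp only
    tauto
  · obtain ⟨-, h1, -⟩ := hS (a, b - 1)
    have e1 : fa ((a, b - 1), (a, b)) = ((a, b - 1) - (1, 0), true) := by
      simp [fa, Prod.ext_iff]
    have e2 : fb ((a, b - 1), (a, b)) = ((a, b - 1), false) := by
      simp [fa, fb, Prod.ext_iff]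
    have e3 : (a, b - 1) + (0, 1) = (a, b) := by simp
    rw [e1, e2]
    rw [e3] at h1
    unfold Side at h1
    simp only
    tauto
  · obtain ⟨-, -, h1⟩ := hS (a, b - 1)
    have e1 : fa ((a + 1, b - 1), (a, b)) = ((a, b - 1), false) := by
      simp [fa, Prod.ext_iff]
    have e2 : fb ((a + 1, b - 1), (a, b)) = ((a, b - 1), true) := by
      simp [fa, fb, Prod.ext_iff]
    have e3 : (a, b - 1) + (1, 0) = (a + 1, b - 1) := by simp
    have e4 : (a, b - 1) + (0, 1) = (a, b) := by simp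
    rw [e1, e2]
    rw [e3, e4] at h1
    unfold Side at h1
    simp only
    tauto

theorem adj_poly (hp : IsPolygon p) (i : ZMod n) : Adj (p i) (p (i + 1)) := adjF.1 (hp.2.2 i)

theorem st_pos (h : Pos p S) : st p S = (p 0, p (-1)) := if_pos h
theorem st_neg (h : ¬ Pos p S) : st p S = (p (-1), p 0) := if_neg h

theorem adj_start (hp : IsPolygon p) : Adj (p (-1)) (p 0) := by
  have := adj_poly hp (-1)
  rwa [neg_add_cancel] at this

theorem st_adj (hp : IsPolygon p) : Adj (st p S).1 (st p S).2 := by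
  by_cases h : Pos p S
  · rw [st_pos h]; exact adj_symm (adj_start hp)
  · rw [st_neg h]; exact adj_start hp

theorem st_side (hp : IsPolygon p) (hS : Encloses p S) :
    fa (st p S) ∈ S ∧ fb (st p S) ∉ S := by
  have h0 := edge_side hS (s := (p 0, p (-1))) (adj_symm (adj_start hp))
  have h1 : IsEdge p (p 0) (p (-1)) := ⟨-1, Or.inr ⟨rfl, by rw [neg_add_cancel]⟩⟩
  have h2 := h0.1 h1
  by_cases h : Pos p S
  · rw [st_pos h]
    have h' : fa (p 0, p (-1)) ∈ S := h
    tauto
  · rw [st_neg h]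
    have h' : fa (p 0, p (-1)) ∉ S := h
    have e : fb ((p 0, p (-1)) : St) = fa (p (-1), p 0) := rfl
    have e' : fb ((p (-1), p 0) : St) = fa (p 0, p (-1)) := rfl
    rw [e] at h2
    rw [e']
    tauto

theorem val_neg_one (hp : IsPolygon p) : (-1 : ZMod n).val = n - 1 := by
  have hn := hp.1
  obtain ⟨m, rfl⟩ : ∃ m, n = m + 1 := ⟨n - 1, by omega⟩
  rw [ZMod.val_neg_one]
  omega

theorem mem_Mn (hp : IsPolygon p) {i : ZMod n} :
    p i ∈ Mn p k S ↔ (Pos p S ∧ k ≤ i.val ∨ ¬ Pos p S ∧ i.val < k) := by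
  unfold Mn
  by_cases h : Pos p S
  · rw [if_pos h]
    constructor
    · rintro ⟨j, hj, hk⟩
      rw [hp.2.1 hj] at hk
      exact Or.inl ⟨h, hk⟩
    · rintro (⟨-, hk⟩ | ⟨hc, -⟩)
      · exact ⟨i, rfl, hk⟩
      · exact absurd h hc
  · rw [if_neg h]
    constructor
    · rintro ⟨j, hj, hk⟩
      rw [hp.2.1 hj] at hk
      exact Or.inr ⟨h, hk⟩
    · rintro (⟨hc, -⟩ | ⟨-, hk⟩)
      · exact absurd hc h
      · exact ⟨i, rfl, hk⟩

theorem mem_Pn (hp : IsPolygon p) {i : ZMod n} :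
    p i ∈ Pn p k S ↔ (Pos p S ∧ i.val < k ∨ ¬ Pos p S ∧ k ≤ i.val) := by
  unfold Pn
  rw [mem_diff, mem_Mn hp]
  have : p i ∈ range p := mem_range_self i
  by_cases h : Pos p S <;> simp [h, this]

theorem Mn_sub : Mn p k S ⊆ range p := by
  unfold Mn
  split
  · rintro v ⟨i, hi, -⟩; exact ⟨i, hi⟩
  · rintro v ⟨i, hi, -⟩; exact ⟨i, hi⟩

theorem Pn_sub : Pn p k S ⊆ range p := diff_subset

theorem Pn_Mn : Pn p k S ∪ Mn p k S = range p := diff_union_of_subset Mn_sub

theorem dPn_Mn : Disjoint (Pn p k S) (Mn p k S) := disjoint_sdiff_left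

theorem st_mem (hp : IsPolygon p) (hk : 0 < k) (hkn : k < n) :
    (st p S).1 ∈ Pn p k S ∧ (st p S).2 ∈ Mn p k S := by
  have h0 : (0 : ZMod n).val = 0 := ZMod.val_zero
  have h1 := val_neg_one hp
  by_cases h : Pos p S
  · rw [st_pos h]
    constructor
    · rw [mem_Pn hp]; exact Or.inl ⟨h, by omega⟩
    · rw [mem_Mn hp]; exact Or.inl ⟨h, by omega⟩
  · rw [st_neg h]
    constructor
    · rw [mem_Pn hp]; exact Or.inr ⟨h, by omega⟩
    · rw [mem_Mn hp]; exact Or.inr ⟨h, by omega⟩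

theorem inn_disj : Disjoint (inn p S) (range p) := by
  rw [Set.disjoint_left]
  rintro x hx ⟨i, hi⟩
  exact (F.Dom.dl_inner.1 (Finset.mem_coe.1 hx)).2 i hi

/-- All the faces around an inner vertex are enclosed. -/
theorem inn_Inn (hS : Encloses p S) {v : ℤ × ℤ} (hv : v ∈ inn p S) : Inn S v := by
  have hv' : v ∈ F.Dom.inner p S := hv
  obtain ⟨h1, h2⟩ := F.Dom.dl_inner.1 hv'
  obtain ⟨k1, k2, k3, k4, k5⟩ := F.Dom.dl_six (enclF hS) v h2
  have h0 : (v, false) ∈ S := (F.Dom.dl_all (enclF hS) hv').1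
  rintro ⟨w, b⟩ ht
  cases b
  · rcases F.Dom.dl_cF.1 ht with h | h | h
    · rw [← h]; exact h0
    · have : w = v - (1, 0) := by rw [h]; simp
      rw [this]; exact k2.2 h0
    · have : w = v - (0, 1) := by rw [h]; simp
      rw [this]; exact k4.2 h0
  · rcases F.Dom.dl_cT.1 ht with h | h | h
    · have : w = v - (1, 0) := by rw [h]; simp
      rw [this]; exact k1.2 h0
    · have : w = v - (0, 1) := by rw [h]; simp
      rw [this]; exact k5.2 h0
    · have : w = v - (1, 1) := by rw [h]; simp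
      rw [this]; exact k3.2 h0

theorem vert_poly {v : ℤ × ℤ} (hv : v ∈ F.Dom.verts S) : v ∈ inn p S ∨ v ∈ range p := by
  by_cases h : v ∈ range p
  · exact Or.inr h
  · exact Or.inl (Finset.mem_coe.2 (F.Dom.dl_inner.2 ⟨hv, fun i hi => h ⟨i, hi⟩⟩))

/-- The arc domain of the polygon. -/
theorem arcs_poly (hp : IsPolygon p) (hS : Encloses p S) (hk : 0 < k) (hkn : k < n) :
    Arcs (inn p S) (Pn p k S) (Mn p k S) := by
  have h := PLAN.arcs_poly (polyF hp) (enclF hS) hk hkn
  have hn0 : 0 < n := by omega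
  have e1 : ∀ i : ZMod n, p i ∈ PLAN.parc p 0 k ↔ i.val < k := fun i => by
    rw [PLAN.mem_parc_iff hn0 hp.2.1 hkn.le]; simp
  have e2 : ∀ i : ZMod n, p i ∈ PLAN.parc p k n ↔ k ≤ i.val := fun i => by
    have : NeZero n := ⟨hn0.ne'⟩
    rw [PLAN.mem_parc_iff hn0 hp.2.1 le_rfl]
    exact ⟨fun h => h.1, fun h => ⟨h, ZMod.val_lt i⟩⟩
  have hr1 : PLAN.parc p 0 k ⊆ range p := by
    rintro x ⟨i, -, -, rfl⟩; exact ⟨_, rfl⟩
  have hr2 : PLAN.parc p k n ⊆ range p := by
    rintro x ⟨i, -, -, rfl⟩; exact ⟨_, rfl⟩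
  have key : (Pos p S → PLAN.parc p 0 k = Pn p k S ∧ PLAN.parc p k n = Mn p k S) ∧
      (¬ Pos p S → PLAN.parc p 0 k = Mn p k S ∧ PLAN.parc p k n = Pn p k S) := by
    constructor <;> intro hP <;> constructor <;> apply Set.ext <;> intro x
    · constructor
      · intro hx
        obtain ⟨i, rfl⟩ := hr1 hx
        rw [mem_Pn hp]; exact Or.inl ⟨hP, (e1 i).1 hx⟩
      · intro hx
        obtain ⟨i, rfl⟩ := Pn_sub hx
        rw [mem_Pn hp] at hx
        exact (e1 i).2 (by tauto)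
    · constructor
      · intro hx
        obtain ⟨i, rfl⟩ := hr2 hx
        rw [mem_Mn hp]; exact Or.inl ⟨hP, (e2 i).1 hx⟩
      · intro hx
        obtain ⟨i, rfl⟩ := Mn_sub hx
        rw [mem_Mn hp] at hx
        exact (e2 i).2 (by tauto)
    · constructor
      · intro hx
        obtain ⟨i, rfl⟩ := hr1 hx
        rw [mem_Mn hp]; exact Or.inr ⟨hP, (e1 i).1 hx⟩
      · intro hx
        obtain ⟨i, rfl⟩ := Mn_sub hx
        rw [mem_Mn hp] at hx
        exact (e1 i).2 (by tauto)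
    · constructor
      · intro hx
        obtain ⟨i, rfl⟩ := hr2 hx
        rw [mem_Pn hp]; exact Or.inr ⟨hP, (e2 i).1 hx⟩
      · intro hx
        obtain ⟨i, rfl⟩ := Pn_sub hx
        rw [mem_Pn hp] at hx
        exact (e2 i).2 (by tauto)
  have h' : Arcs (inn p S) (PLAN.parc p 0 k) (PLAN.parc p k n) :=
    { fin := h.finF, finP := h.finP, finM := h.finM, cc := h.cc, dFP := h.dFP, dFM := h.dFM
      dPM := h.dPM, bd := h.nb, cP := h.cP, cM := h.cM }
  by_cases hP : Pos p S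
  · obtain ⟨a1, a2⟩ := key.1 hP
    rwa [a1, a2] at h'
  · obtain ⟨a1, a2⟩ := key.2 hP
    rw [a1, a2] at h'
    exact h'.symm

section Expl

variable {h : ℤ × ℤ → ℤ}

theorem good_st (hp : IsPolygon p) (hS : Encloses p S) (hk : 0 < k) (hkn : k < n)
    (hh : h ∈ Cs p k S) : Good h (st p S) := by
  have hA := arcs_poly hp hS hk hkn
  obtain ⟨m1, m2⟩ := st_mem (S := S) hp hk hkn
  exact start_good hh (st_adj hp) (fun hc => Set.disjoint_left.1 hA.dFP hc m1)
    (fun hc => Set.disjoint_left.1 hA.dPM m1 hc) (fun hc => Set.disjoint_left.1 hA.dFM hc m2) m2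

theorem alive_nu (hp : IsPolygon p) (hS : Encloses p S) (hk : 0 < k) (hkn : k < n)
    (hh : h ∈ Cs p k S) : Alive h S (st p S) (nu p S h) ∧ fa (ru p S h (nu p S h)) ∉ S :=
  len_spec (CA.nz hh) (good_st hp hS hk hkn hh) (st_side hp hS).2

theorem nu_pos (hp : IsPolygon p) (hS : Encloses p S) (hk : 0 < k) (hkn : k < n)
    (hh : h ∈ Cs p k S) : 0 < nu p S h := by
  rcases Nat.eq_zero_or_pos (nu p S h) with h0 | h0
  · have h1 := (alive_nu hp hS hk hkn hh).2
    rw [h0] at h1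
    exact absurd (st_side hp hS).1 h1
  · exact h0

theorem alive_lt (hp : IsPolygon p) (hS : Encloses p S) (hk : 0 < k) (hkn : k < n)
    (hh : h ∈ Cs p k S) {j : ℕ} : fa (ru p S h j) ∈ S ↔ j < nu p S h := by
  obtain ⟨h1, h2⟩ := alive_nu hp hS hk hkn hh
  constructor
  · intro h3
    by_contra hc
    have h4 := run_stop h2 j (by omega)
    have h5 : ru p S h j = ru p S h (nu p S h) := h4
    rw [h5] at h3
    exact h2 h3
  · exact fun h3 => h1 j h3

/-- The exploration of the polygon. -/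
theorem expl_poly (hp : IsPolygon p) (hS : Encloses p S) (hk : 0 < k) (hkn : k < n)
    (hh : h ∈ Cs p k S) {j : ℕ} (hj : j ≤ nu p S h) :
    Expl (inn p S) (Pn p k S) (Mn p k S) h S (st p S) j := by
  have hA := arcs_poly hp hS hk hkn
  obtain ⟨m1, m2⟩ := st_mem (S := S) hp hk hkn
  exact
    { ca := hh
      dFM := hA.dFM
      dFP := hA.dFP
      dPM := hA.dPM
      adj := st_adj hp
      l := m1
      r := m2
      fb := (st_side hp hS).2
      alive := (alive_nu hp hS hk hkn hh).1.mono hj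
      inn := fun v hv => inn_Inn hS hv
      vert := fun v hv => by
        rcases vert_poly (p := p) hv with h1 | h1
        · exact Or.inl h1
        · rw [← Pn_Mn (k := k) (S := S)] at h1
          exact Or.inr h1 }

theorem val_poly (hp : IsPolygon p) (hS : Encloses p S) (hk : 0 < k) (hkn : k < n)
    (hh : h ∈ Cs p k S) {v : ℤ × ℤ} :
    (v ∈ Pn p k S → h v = 1) ∧ (v ∈ Mn p k S → h v = -1) := by
  have hA := arcs_poly hp hS hk hkn
  constructor
  · intro hv
    rw [(mem_CA.1 hh).2.1 v (fun hc => Set.disjoint_left.1 hA.dFP hc hv),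
      eta_not (fun hc => Set.disjoint_left.1 hA.dPM hv hc)]
  · intro hv
    rw [(mem_CA.1 hh).2.1 v (fun hc => Set.disjoint_left.1 hA.dFM hc hv), eta_mem hv]

theorem val_succ (hn : 1 < n) (i : ZMod n) :
    (i + 1).val = if i.val + 1 = n then 0 else i.val + 1 := by
  have : NeZero n := ⟨by omega⟩
  have h1 : (1 : ZMod n).val = 1 := by
    have : Fact (1 < n) := ⟨hn⟩
    exact ZMod.val_one n
  have hi := ZMod.val_lt i
  rw [ZMod.val_add, h1]
  split
  · rename_i h; rw [h, Nat.mod_self]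
  · exact Nat.mod_eq_of_lt (by omega)

/-- The only edges of the polygon with opposite signs are `p (-1) p 0` and `p (k - 1) p k`. -/
theorem sign_edge (hp : IsPolygon p) (hk : 0 < k) (hkn : k < n) {a b : ℤ × ℤ}
    (he : IsEdge p a b) (ha : a ∈ Pn p k S) (hb : b ∈ Mn p k S) :
    (a = (st p S).1 ∧ b = (st p S).2) ∨
    (Pos p S ∧ a = p ((k : ZMod n) - 1) ∧ b = p k) ∨
    (¬ Pos p S ∧ b = p ((k : ZMod n) - 1) ∧ a = p k) := by
  have hn : 1 < n := by have := hp.1; omega
  have : NeZero n := ⟨by omega⟩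
  have hval : ∀ i : ZMod n, i.val = n - 1 → i = -1 := fun i hi => by
    apply ZMod.val_injective n
    rw [hi, val_neg_one hp]
  have hvalk : ∀ i : ZMod n, i.val + 1 = k → i = (k : ZMod n) - 1 ∧ i + 1 = k := fun i hi => by
    have h1 : i = ((i.val : ℕ) : ZMod n) := (ZMod.natCast_zmod_val i).symm
    have h2 : i + 1 = k := by
      rw [h1, ← hi]; push_cast; rw [← h1]
    exact ⟨by rw [← h2]; ring, h2⟩
  obtain ⟨i, ⟨h1, h2⟩ | ⟨h1, h2⟩⟩ := he
  · subst h1; subst h2
    rw [mem_Pn hp] at ha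
    rw [mem_Mn hp, val_succ hn] at hb
    have hi := ZMod.val_lt i
    by_cases hP : Pos p S
    · have ha' : i.val < k := by tauto
      right; left
      have hb' : k ≤ (if i.val + 1 = n then 0 else i.val + 1) := by tauto
      split at hb'
      · omega
      · obtain ⟨e1, e2⟩ := hvalk i (by omega)
        exact ⟨hP, by rw [e1], by rw [e2]⟩
    · have ha' : k ≤ i.val := by tauto
      have hb' : (if i.val + 1 = n then 0 else i.val + 1) < k := by tauto
      left
      split at hb'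
      · have := hval i (by omega)
        rw [st_neg hP, this, neg_add_cancel]
        exact ⟨rfl, rfl⟩
      · omega
  · subst h1; subst h2
    rw [mem_Pn hp, val_succ hn] at ha
    rw [mem_Mn hp] at hb
    have hi := ZMod.val_lt i
    by_cases hP : Pos p S
    · have hb' : k ≤ i.val := by tauto
      have ha' : (if i.val + 1 = n then 0 else i.val + 1) < k := by tauto
      left
      split at ha'
      · have := hval i (by omega)
        rw [st_pos hP, this, neg_add_cancel]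
        exact ⟨rfl, rfl⟩
      · omega
    · have hb' : i.val < k := by tauto
      have ha' : k ≤ (if i.val + 1 = n then 0 else i.val + 1) := by tauto
      right; right
      split at ha'
      · omega
      · obtain ⟨e1, e2⟩ := hvalk i (by omega)
        exact ⟨hP, by rw [e1], by rw [e2]⟩

/-- The exit edge. -/
theorem exit_edge (hp : IsPolygon p) (hS : Encloses p S) (hk : 0 < k) (hkn : k < n)
    (hh : h ∈ Cs p k S) :
    (Pos p S ∧ ru p S h (nu p S h) = (p ((k : ZMod n) - 1), p k)) ∨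
    (¬ Pos p S ∧ ru p S h (nu p S h) = (p k, p ((k : ZMod n) - 1))) := by
  have hz : NZ h S := CA.nz hh
  have hg := good_st hp hS hk hkn hh
  obtain ⟨h1, h2⟩ := alive_nu hp hS hk hkn hh
  have h0 := nu_pos hp hS hk hkn hh
  obtain ⟨m, hm⟩ : ∃ m, nu p S h = m + 1 := ⟨nu p S h - 1, by omega⟩
  have hgm : Good h (ru p S h (m + 1)) := run_good hz hg (m + 1)
  have h3 : fb (ru p S h (m + 1)) = fa (ru p S h m) := fb_run hz hg (by rw [← hm]; exact h1)
  have h4 : fa (ru p S h m) ∈ S := (alive_lt hp hS hk hkn hh).2 (by omega)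
  rw [hm] at h2
  have h5 : IsEdge p (ru p S h (m + 1)).1 (ru p S h (m + 1)).2 := by
    rw [edge_side hS hgm.1, h3]
    tauto
  have hv := fun v => val_poly hp hS hk hkn hh (v := v)
  have hr : ∀ {a b : ℤ × ℤ}, IsEdge p a b → a ∈ range p ∧ b ∈ range p := by
    rintro a b ⟨i, ⟨h1, h2⟩ | ⟨h1, h2⟩⟩
    · exact ⟨⟨_, h1⟩, ⟨_, h2⟩⟩
    · exact ⟨⟨_, h2⟩, ⟨_, h1⟩⟩
  obtain ⟨r1, r2⟩ := hr h5
  rw [← Pn_Mn (k := k) (S := S)] at r1 r2
  have hl : (ru p S h (m + 1)).1 ∈ Pn p k S := by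
    rcases r1 with h | h
    · exact h
    · have := (hv _).2 h
      have := hgm.2.1
      omega
  have hrr : (ru p S h (m + 1)).2 ∈ Mn p k S := by
    rcases r2 with h | h
    · have := (hv _).1 h
      have := hgm.2.2
      omega
    · exact h
  rw [hm]
  rcases sign_edge hp hk hkn h5 hl hrr with ⟨e1, e2⟩ | ⟨hP, e1, e2⟩ | ⟨hP, e1, e2⟩
  · exfalso
    have : ru p S h (m + 1) = st p S := Prod.ext e1 e2
    rw [this] at h2
    exact h2 (st_side hp hS).1
  · exact Or.inl ⟨hP, Prod.ext e1 e2⟩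
  · exact Or.inr ⟨hP, Prod.ext e2 e1⟩

theorem mid_comm (δ : ℝ) (v w : ℤ × ℤ) : mid δ v w = mid δ w v := by
  unfold mid; rw [add_comm]

theorem EE_mid (δ : ℝ) (s : St) : EE δ s 0 = mid δ s.1 s.2 := by
  unfold EE mid PP
  apply Complex.ext <;> simp [Final.toC, Final.pt] <;> ring

theorem exit_mid (hp : IsPolygon p) (hS : Encloses p S) (hk : 0 < k) (hkn : k < n)
    (hh : h ∈ Cs p k S) (δ : ℝ) :
    mid δ (ru p S h (nu p S h)).1 (ru p S h (nu p S h)).2 = bptD p k δ := by
  rcases exit_edge hp hS hk hkn hh with ⟨-, e⟩ | ⟨-, e⟩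
  · rw [e]; rfl
  · rw [e, mid_comm]; rfl

theorem start_mid (δ : ℝ) : mid δ (st p S).1 (st p S).2 = mid δ (p (-1)) (p 0) := by
  by_cases h : Pos p S
  · rw [st_pos h, mid_comm]
  · rw [st_neg h]

end Expl

end Vale.Agent.P153.R2.INTF
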