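import Vale.Agent.P153.R2.INTF.Aff

/-!
P153, block INTF: the region of the domain in terms of the closed faces; interior points.
-/

set_option linter.all false

namespace Vale.Agent.P153.R2.INTF

open Set Filter Topology Metric
open Vale.Agent.P153.R2.Final (pt toC region hat interp corners)

/-- The region in the complex plane. -/
noncomputable def Reg (δ : ℝ) (S : Finset ((ℤ × ℤ) × Bool)) : Set ℂ := toC '' region δ S

theorem toC_re (z : ℝ × ℝ) : (toC z).re = z.1 := rfl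
theorem toC_im (z : ℝ × ℝ) : (toC z).im = z.2 := rfl
theorem toC_eq (z : ℂ) : toC (z.re, z.im) = z := rfl

theorem mem_Reg {δ : ℝ} {S : Finset ((ℤ × ℤ) × Bool)} {z : ℂ} :
    z ∈ Reg δ S ↔ (z.re, z.im) ∈ region δ S := by
  constructor
  · rintro ⟨w, hw, rfl⟩; exact hw
  · intro h; exact ⟨_, h, toC_eq z⟩

theorem convex_faceR (δ : ℝ) (t : (ℤ × ℤ) × Bool) : Convex ℝ {z : ℝ × ℝ | toC z ∈ Face δ t} := by
  intro z hz w hw a b ha hb hab
  have e : toC (a • z + b • w) = (a : ℂ) * toC z + (b : ℂ) * toC w := by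
    apply Complex.ext <;> simp [toC]
  simp only [mem_setOf_eq] at hz hw ⊢
  rw [e]
  exact (HH_comb (fun _ => 0) hz hw ha hb hab).1

theorem mem_hull3 {E : Type*} [AddCommGroup E] [Module ℝ E] {s : Set E} {A B C : E} (hA : A ∈ s)
    (hB : B ∈ s) (hC : C ∈ s) {a b c : ℝ} (ha : 0 ≤ a) (hb : 0 ≤ b) (hc : 0 ≤ c)
    (h : a + b + c = 1) : a • A + b • B + c • C ∈ convexHull ℝ s := by
  have := (convex_convexHull ℝ s).sum_mem (t := (Finset.univ : Finset (Fin 3)))
    (w := ![a, b, c]) (z := ![A, B, C]) (by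
      intro i _
      fin_cases i <;> simp [ha, hb, hc]) (by simp [Fin.sum_univ_three, h]) (by
      intro i _
      fin_cases i
      · exact subset_convexHull ℝ s hA
      · exact subset_convexHull ℝ s hB
      · exact subset_convexHull ℝ s hC)
  simpa [Fin.sum_univ_three] using this

/-- A closed face is the convex hull of its corners. -/
theorem mem_Face_iff {δ : ℝ} (hδ : 0 < δ) {t : (ℤ × ℤ) × Bool} {z : ℂ} :
    z ∈ Face δ t ↔
      (z.re, z.im) ∈ convexHull ℝ ((fun v => δ • pt v) '' (corners t : Set (ℤ × ℤ))) := by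
  constructor
  · intro hz
    obtain ⟨v, c⟩ := t
    have h3 := sqrt3_pos
    cases c
    · have hz' : (v.1 : ℝ) ≤ lx δ z ∧ (v.2 : ℝ) ≤ ly δ z ∧ lx δ z + ly δ z ≤ v.1 + v.2 + 1 := by
        simpa [Face, InF] using hz
      obtain ⟨z1, z2, z3⟩ := hz'
      have hm : ∀ u, u ∈ corners (v, false) →
          δ • pt u ∈ (fun v => δ • pt v) '' (corners (v, false) : Set (ℤ × ℤ)) :=
        fun u hu => ⟨u, hu, rfl⟩
      have key := mem_hull3 (hm v (by simp [corners])) (hm (v + (1, 0)) (by simp [corners]))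
        (hm (v + (0, 1)) (by simp [corners])) (a := 1 - (lx δ z - v.1) - (ly δ z - v.2))
        (b := lx δ z - v.1) (c := ly δ z - v.2) (by linarith) (by linarith) (by linarith) (by ring)
      convert key using 1
      have e : z = toC ((1 - (lx δ z - v.1) - (ly δ z - v.2)) • δ • pt v +
        (lx δ z - v.1) • δ • pt (v + (1, 0)) + (ly δ z - v.2) • δ • pt (v + (0, 1))) := by
        apply eq_of_coord hδ
        · simp only [lx, toC, pt, Prod.fst_add, Prod.snd_add, Prod.smul_mk, smul_eq_mul]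
          push_cast
          field_simp
          ring
        · simp only [ly, toC, pt, Prod.fst_add, Prod.snd_add, Prod.smul_mk, smul_eq_mul]
          push_cast
          field_simp
          ring
      conv_lhs => rw [e]
      rfl
    · have hz' : lx δ z ≤ v.1 + 1 ∧ ly δ z ≤ v.2 + 1 ∧ (v.1 : ℝ) + v.2 + 1 ≤ lx δ z + ly δ z := by
        simpa [Face, InF] using hz
      obtain ⟨z1, z2, z3⟩ := hz'
      have hm : ∀ u, u ∈ corners (v, true) →
          δ • pt u ∈ (fun v => δ • pt v) '' (corners (v, true) : Set (ℤ × ℤ)) :=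
        fun u hu => ⟨u, hu, rfl⟩
      have key := mem_hull3 (hm (v + (1, 1)) (by simp [corners])) (hm (v + (1, 0)) (by simp [corners]))
        (hm (v + (0, 1)) (by simp [corners])) (a := lx δ z + ly δ z - v.1 - v.2 - 1)
        (b := v.2 + 1 - ly δ z) (c := v.1 + 1 - lx δ z) (by linarith) (by linarith) (by linarith)
        (by ring)
      convert key using 1
      have e : z = toC ((lx δ z + ly δ z - v.1 - v.2 - 1) • δ • pt (v + (1, 1)) +
        (v.2 + 1 - ly δ z) • δ • pt (v + (1, 0)) + (v.1 + 1 - lx δ z) • δ • pt (v + (0, 1))) := by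
        apply eq_of_coord hδ
        · simp only [lx, toC, pt, Prod.fst_add, Prod.snd_add, Prod.smul_mk, smul_eq_mul]
          push_cast
          field_simp
          ring
        · simp only [ly, toC, pt, Prod.fst_add, Prod.snd_add, Prod.smul_mk, smul_eq_mul]
          push_cast
          field_simp
          ring
      conv_lhs => rw [e]
      rfl
  · intro hz
    have hsub : convexHull ℝ ((fun v => δ • pt v) '' (corners t : Set (ℤ × ℤ))) ⊆
        {z : ℝ × ℝ | toC z ∈ Face δ t} := by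
      refine convexHull_min ?_ (convex_faceR δ t)
      rintro _ ⟨v, hv, rfl⟩
      exact PP_mem hδ hv
    exact hsub hz

theorem mem_Reg_iff {δ : ℝ} (hδ : 0 < δ) {S : Finset ((ℤ × ℤ) × Bool)} {z : ℂ} :
    z ∈ Reg δ S ↔ ∃ t ∈ S, z ∈ Face δ t := by
  rw [mem_Reg]
  constructor
  · rintro ⟨t, ht, hz⟩; exact ⟨t, ht, (mem_Face_iff hδ).2 hz⟩
  · rintro ⟨t, ht, hz⟩; exact ⟨t, ht, (mem_Face_iff hδ).1 hz⟩

/-- Every point is in a closed face. -/
theorem exists_face (δ : ℝ) (z : ℂ) : ∃ t, z ∈ Face δ t := by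
  set v : ℤ × ℤ := (⌊lx δ z⌋, ⌊ly δ z⌋) with hv
  have h1 := Int.floor_le (lx δ z)
  have h2 := Int.lt_floor_add_one (lx δ z)
  have h3 := Int.floor_le (ly δ z)
  have h4 := Int.lt_floor_add_one (ly δ z)
  rcases le_total (lx δ z + ly δ z) (⌊lx δ z⌋ + ⌊ly δ z⌋ + 1) with h | h
  · exact ⟨(v, false), by simp [Face, InF, hv]; exact ⟨h1, h3, h⟩⟩
  · exact ⟨(v, true), by simp [Face, InF, hv]; exact ⟨h2.le, h4.le, h⟩⟩

theorem isClosed_Face (δ : ℝ) (t : (ℤ × ℤ) × Bool) : IsClosed (Face δ t) := by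
  obtain ⟨v, c⟩ := t
  have hx := continuous_lx δ
  have hy := continuous_ly δ
  cases c
  · have : Face δ (v, false) = {z | (v.1 : ℝ) ≤ lx δ z} ∩ ({z | (v.2 : ℝ) ≤ ly δ z} ∩
        {z | lx δ z + ly δ z ≤ v.1 + v.2 + 1}) := by
      ext z; simp [Face, InF]
    rw [this]
    exact (isClosed_le continuous_const hx).inter ((isClosed_le continuous_const hy).inter
      (isClosed_le (hx.add hy) continuous_const))
  · have : Face δ (v, true) = {z | lx δ z ≤ v.1 + 1} ∩ ({z | ly δ z ≤ v.2 + 1} ∩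
        {z | (v.1 : ℝ) + v.2 + 1 ≤ lx δ z + ly δ z}) := by
      ext z; simp [Face, InF]
    rw [this]
    exact (isClosed_le hx continuous_const).inter ((isClosed_le hy continuous_const).inter
      (isClosed_le continuous_const (hx.add hy)))

/-- The faces which contain a point of the square of size one around `z`. -/
noncomputable def nearF (δ : ℝ) (z : ℂ) : Finset ((ℤ × ℤ) × Bool) :=
  ((Finset.Icc (⌊lx δ z⌋ - 3) (⌊lx δ z⌋ + 3)) ×ˢ (Finset.Icc (⌊ly δ z⌋ - 3) (⌊ly δ z⌋ + 3))) ×ˢ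
    Finset.univ

theorem mem_nearF {δ : ℝ} {z w : ℂ} (h1 : |lx δ w - lx δ z| < 1) (h2 : |ly δ w - ly δ z| < 1)
    {t : (ℤ × ℤ) × Bool} (hw : w ∈ Face δ t) : t ∈ nearF δ z := by
  obtain ⟨⟨v1, v2⟩, c⟩ := t
  have a1 := Int.floor_le (lx δ z)
  have a2 := Int.lt_floor_add_one (lx δ z)
  have a3 := Int.floor_le (ly δ z)
  have a4 := Int.lt_floor_add_one (ly δ z)
  rw [abs_lt] at h1 h2
  have key : (v1 : ℝ) ≤ lx δ w ∧ lx δ w ≤ v1 + 1 ∧ (v2 : ℝ) ≤ ly δ w ∧ ly δ w ≤ v2 + 1 := by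
    cases c
    · have : (v1 : ℝ) ≤ lx δ w ∧ (v2 : ℝ) ≤ ly δ w ∧ lx δ w + ly δ w ≤ v1 + v2 + 1 := by
        simpa [Face, InF] using hw
      obtain ⟨b1, b2, b3⟩ := this
      refine ⟨b1, by linarith, b2, by linarith⟩
    · have : lx δ w ≤ v1 + 1 ∧ ly δ w ≤ v2 + 1 ∧ (v1 : ℝ) + v2 + 1 ≤ lx δ w + ly δ w := by
        simpa [Face, InF] using hw
      obtain ⟨b1, b2, b3⟩ := this
      refine ⟨by linarith, b1, by linarith, b2⟩
  obtain ⟨b1, b2, b3, b4⟩ := key
  have c1 : (⌊lx δ z⌋ : ℝ) - 3 ≤ v1 := by linarith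
  have c2 : (v1 : ℝ) ≤ ⌊lx δ z⌋ + 3 := by linarith
  have c3 : (⌊ly δ z⌋ : ℝ) - 3 ≤ v2 := by linarith
  have c4 : (v2 : ℝ) ≤ ⌊ly δ z⌋ + 3 := by linarith
  have d1 : ⌊lx δ z⌋ - 3 ≤ v1 := by exact_mod_cast c1
  have d2 : v1 ≤ ⌊lx δ z⌋ + 3 := by exact_mod_cast c2
  have d3 : ⌊ly δ z⌋ - 3 ≤ v2 := by exact_mod_cast c3
  have d4 : v2 ≤ ⌊ly δ z⌋ + 3 := by exact_mod_cast c4
  simp only [nearF, Finset.mem_product, Finset.mem_Icc, Finset.mem_univ, and_true]
  exact ⟨⟨d1, d2⟩, d3, d4⟩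

/-- A point all of whose closed faces are in `S` is an interior point of the region. -/
theorem mem_interior {δ : ℝ} (hδ : 0 < δ) {S : Finset ((ℤ × ℤ) × Bool)} {z : ℂ}
    (h : ∀ t, z ∈ Face δ t → t ∈ S) : z ∈ interior (Reg δ S) := by
  classical
  rw [mem_interior_iff_mem_nhds]
  have hx := continuous_lx δ
  have hy := continuous_ly δ
  set N : Set ℂ := ({w | |lx δ w - lx δ z| < 1} ∩ {w | |ly δ w - ly δ z| < 1}) ∩
    (⋃ t ∈ (nearF δ z).filter (fun t => t ∉ S), Face δ t)ᶜ with hN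
  have hNo : IsOpen N := by
    refine ((isOpen_lt (hx.sub continuous_const).abs continuous_const).inter
      (isOpen_lt (hy.sub continuous_const).abs continuous_const)).inter ?_
    exact (isClosed_biUnion_finset fun t _ => isClosed_Face δ t).isOpen_compl
  have hzN : z ∈ N := by
    refine ⟨⟨by simp, by simp⟩, ?_⟩
    simp only [mem_compl_iff, mem_iUnion, not_exists]
    intro t ht hzt
    exact (Finset.mem_filter.1 ht).2 (h t hzt)
  refine Filter.mem_of_superset (hNo.mem_nhds hzN) fun w hw => ?_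
  obtain ⟨t, ht⟩ := exists_face δ w
  rw [mem_Reg_iff hδ]
  refine ⟨t, ?_, ht⟩
  by_contra hc
  refine hw.2 ?_
  simp only [mem_iUnion]
  exact ⟨t, Finset.mem_filter.2 ⟨mem_nearF hw.1.1 hw.1.2 ht, hc⟩, ht⟩

end Vale.Agent.P153.R2.INTF
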