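import Vale.Agent.P153.R2.INTF.Reg
import Vale.Agent.P153.R2.INTF.Step

/-!
P153, block INTF: which closed faces contain a given point of an edge or of a face.
-/

set_option linter.all false

namespace Vale.Agent.P153.R2.INTF

open Set Filter Topology Metric
open Vale.Agent.P153 Vale.Agent.P153.Topo
open Vale.Agent.P153.R2.Final (pt toC region hat interp)

theorem corners_same (t : (ℤ × ℤ) × Bool) : Final.corners t = F.Dom.corners t := rfl

theorem tri_cases (v k : ℤ) : v = k ∨ v ≤ k - 1 ∨ k + 1 ≤ v := by omega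

/-- If all but one position of a face are excluded by the inequalities. -/
theorem face_false {v : ℤ × ℤ} {k1 k2 : ℤ} {x y : ℝ} (h : InF (v, false) x y)
    (hx : x < k1 + 1) (hy : y < k2 + 1) (hxy : (k1 : ℝ) + k2 < x + y) : v = (k1, k2) := by
  obtain ⟨v1, v2⟩ := v
  have h' : (v1 : ℝ) ≤ x ∧ (v2 : ℝ) ≤ y ∧ x + y ≤ v1 + v2 + 1 := by simpa [InF] using h
  obtain ⟨a1, a2, a3⟩ := h'
  have b1 : (v1 : ℝ) < k1 + 1 := by linarith
  have b2 : (v2 : ℝ) < k2 + 1 := by linarith
  have b3 : (k1 : ℝ) + k2 < v1 + v2 + 1 := by linarith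
  have c1 : v1 < k1 + 1 := by exact_mod_cast b1
  have c2 : v2 < k2 + 1 := by exact_mod_cast b2
  have c3 : k1 + k2 < v1 + v2 + 1 := by exact_mod_cast b3
  rw [Prod.mk.injEq]
  constructor <;> omega

theorem face_true {v : ℤ × ℤ} {k1 k2 : ℤ} {x y : ℝ} (h : InF (v, true) x y)
    (hx : (k1 : ℝ) < x) (hy : (k2 : ℝ) < y) (hxy : x + y < k1 + k2 + 2) : v = (k1, k2) := by
  obtain ⟨v1, v2⟩ := v
  have h' : x ≤ v1 + 1 ∧ y ≤ v2 + 1 ∧ (v1 : ℝ) + v2 + 1 ≤ x + y := by simpa [InF] using h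
  obtain ⟨a1, a2, a3⟩ := h'
  have b1 : (k1 : ℝ) < v1 + 1 := by linarith
  have b2 : (k2 : ℝ) < v2 + 1 := by linarith
  have b3 : (v1 : ℝ) + v2 + 1 < k1 + k2 + 2 := by linarith
  have c1 : k1 < v1 + 1 := by exact_mod_cast b1
  have c2 : k2 < v2 + 1 := by exact_mod_cast b2
  have c3 : v1 + v2 + 1 < k1 + k2 + 2 := by exact_mod_cast b3
  rw [Prod.mk.injEq]
  constructor <;> omega

theorem not_false {v : ℤ × ℤ} {k1 k2 : ℤ} {x y : ℝ} (h : InF (v, false) x y)
    (hx : x < k1 + 1) (hy : y < k2 + 1) (hxy : (k1 : ℝ) + k2 + 1 < x + y) : False := by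
  obtain ⟨v1, v2⟩ := v
  have h' : (v1 : ℝ) ≤ x ∧ (v2 : ℝ) ≤ y ∧ x + y ≤ v1 + v2 + 1 := by simpa [InF] using h
  obtain ⟨a1, a2, a3⟩ := h'
  have b1 : (v1 : ℝ) < k1 + 1 := by linarith
  have b2 : (v2 : ℝ) < k2 + 1 := by linarith
  have b3 : (k1 : ℝ) + k2 + 1 < v1 + v2 + 1 := by linarith
  have c1 : v1 < k1 + 1 := by exact_mod_cast b1
  have c2 : v2 < k2 + 1 := by exact_mod_cast b2
  have c3 : k1 + k2 + 1 < v1 + v2 + 1 := by exact_mod_cast b3
  omega

theorem not_true {v : ℤ × ℤ} {k1 k2 : ℤ} {x y : ℝ} (h : InF (v, true) x y)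
    (hx : (k1 : ℝ) < x) (hy : (k2 : ℝ) < y) (hxy : x + y < k1 + k2 + 1) : False := by
  obtain ⟨v1, v2⟩ := v
  have h' : x ≤ v1 + 1 ∧ y ≤ v2 + 1 ∧ (v1 : ℝ) + v2 + 1 ≤ x + y := by simpa [InF] using h
  obtain ⟨a1, a2, a3⟩ := h'
  have b1 : (k1 : ℝ) < v1 + 1 := by linarith
  have b2 : (k2 : ℝ) < v2 + 1 := by linarith
  have b3 : (v1 : ℝ) + v2 + 1 < k1 + k2 + 1 := by linarith
  have c1 : k1 < v1 + 1 := by exact_mod_cast b1
  have c2 : k2 < v2 + 1 := by exact_mod_cast b2
  have c3 : v1 + v2 + 1 < k1 + k2 + 1 := by exact_mod_cast b3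
  omega

/-- The point with the barycentric coordinates `x, y, w` in the face ahead of `s`. -/
noncomputable def bar (δ : ℝ) (s : St) (x y w : ℝ) : ℂ :=
  (x : ℂ) * PP δ s.1 + (y : ℂ) * PP δ s.2 + (w : ℂ) * PP δ (ah s)

theorem lx_bar {δ : ℝ} (hδ : 0 < δ) (s : St) (x y w : ℝ) :
    lx δ (bar δ s x y w) = x * s.1.1 + y * s.2.1 + w * (ah s).1 := by
  have h1 : bar δ s x y w = ((1 : ℝ) : ℂ) * ((x : ℂ) * PP δ s.1 + (y : ℂ) * PP δ s.2) +
      (w : ℂ) * PP δ (ah s) := by rw [bar]; push_cast; ring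
  rw [h1, lx_comb, lx_comb, lx_PP hδ, lx_PP hδ, lx_PP hδ]
  ring

theorem ly_bar {δ : ℝ} (hδ : 0 < δ) (s : St) (x y w : ℝ) :
    ly δ (bar δ s x y w) = x * s.1.2 + y * s.2.2 + w * (ah s).2 := by
  have h1 : bar δ s x y w = ((1 : ℝ) : ℂ) * ((x : ℂ) * PP δ s.1 + (y : ℂ) * PP δ s.2) +
      (w : ℂ) * PP δ (ah s) := by rw [bar]; push_cast; ring
  rw [h1, ly_comb, ly_comb, ly_PP hδ, ly_PP hδ, ly_PP hδ]
  ring

/-- A point of the open face is in no other closed face. -/
theorem open_face {δ : ℝ} (hδ : 0 < δ) {s : St} (hs : Adj s.1 s.2) {x y w : ℝ} (hx : 0 < x)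
    (hy : 0 < y) (hw : 0 < w) (h : x + y + w = 1) {t : (ℤ × ℤ) × Bool}
    (ht : bar δ s x y w ∈ Face δ t) : t = fa s := by
  obtain ⟨v, c⟩ := t
  have ht' : InF (v, c) (lx δ (bar δ s x y w)) (ly δ (bar δ s x y w)) := ht
  rw [lx_bar hδ, ly_bar hδ] at ht'
  have hy' : y = 1 - x - w := by linarith
  subst hy'
  obtain ⟨a, b, hh | hh | hh | hh | hh | hh⟩ := st_cases hs <;> subst hh <;>
    simp only [ah, rm, Prod.fst_add, Prod.snd_add, Prod.fst_sub, Prod.snd_sub] at ht' <;>
    push_cast at ht' <;> cases c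
  · exfalso; exact not_false (k1 := a) (k2 := b - 1) ht' (by linarith) (by push_cast; linarith)
      (by push_cast; linarith)
  · rw [face_true (k1 := a) (k2 := b - 1) ht' (by linarith) (by push_cast; linarith)
      (by push_cast; linarith)]; simp [fa, Prod.ext_iff]
  · rw [face_false (k1 := a) (k2 := b) ht' (by linarith) (by linarith) (by linarith)]
    simp [fa, Prod.ext_iff]
  · exfalso; exact not_true (k1 := a) (k2 := b) ht' (by linarith) (by linarith) (by linarith)
  · exfalso; exact not_false (k1 := a - 1) (k2 := b) ht' (by push_cast; linarith) (by linarith)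
      (by push_cast; linarith)
  · rw [face_true (k1 := a - 1) (k2 := b) ht' (by push_cast; linarith) (by linarith)
      (by push_cast; linarith)]; simp [fa, Prod.ext_iff]
  · rw [face_false (k1 := a - 1) (k2 := b) ht' (by push_cast; linarith) (by linarith)
      (by push_cast; linarith)]; simp [fa, Prod.ext_iff]
  · exfalso; exact not_true (k1 := a - 1) (k2 := b) ht' (by push_cast; linarith) (by linarith)
      (by push_cast; linarith)
  · exfalso; exact not_false (k1 := a - 1) (k2 := b - 1) ht' (by push_cast; linarith)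
      (by push_cast; linarith) (by push_cast; linarith)
  · rw [face_true (k1 := a - 1) (k2 := b - 1) ht' (by push_cast; linarith)
      (by push_cast; linarith) (by push_cast; linarith)]; simp [fa, Prod.ext_iff]
  · rw [face_false (k1 := a) (k2 := b - 1) ht' (by push_cast; linarith) (by push_cast; linarith)
      (by push_cast; linarith)]; simp [fa, Prod.ext_iff]
  · exfalso; exact not_true (k1 := a) (k2 := b - 1) ht' (by push_cast; linarith)
      (by push_cast; linarith) (by push_cast; linarith)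

/-- A point of the open edge is only in the two faces of the edge. -/
theorem open_edge {δ : ℝ} (hδ : 0 < δ) {s : St} (hs : Adj s.1 s.2) {x y : ℝ} (hx : 0 < x)
    (hy : 0 < y) (h : x + y = 1) {t : (ℤ × ℤ) × Bool}
    (ht : bar δ s x y 0 ∈ Face δ t) : t = fa s ∨ t = fb s := by
  obtain ⟨v, c⟩ := t
  have ht' : InF (v, c) (lx δ (bar δ s x y 0)) (ly δ (bar δ s x y 0)) := ht
  rw [lx_bar hδ, ly_bar hδ] at ht'
  have hy' : y = 1 - x := by linarith
  subst hy'
  obtain ⟨a, b, hh | hh | hh | hh | hh | hh⟩ := st_cases hs <;> subst hh <;>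
    simp only [ah, rm, Prod.fst_add, Prod.snd_add, Prod.fst_sub, Prod.snd_sub, zero_mul,
      add_zero] at ht' <;>
    push_cast at ht' <;> cases c
  · right; rw [face_false (k1 := a) (k2 := b) ht' (by linarith) (by linarith) (by linarith)]
    simp [fb, fa, Prod.ext_iff]
  · left; rw [face_true (k1 := a) (k2 := b - 1) ht' (by linarith) (by push_cast; linarith)
      (by push_cast; linarith)]; simp [fa, Prod.ext_iff]
  · left; rw [face_false (k1 := a) (k2 := b) ht' (by linarith) (by linarith) (by linarith)]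
    simp [fa, Prod.ext_iff]
  · right; rw [face_true (k1 := a - 1) (k2 := b) ht' (by push_cast; linarith) (by linarith)
      (by push_cast; linarith)]; simp [fb, fa, Prod.ext_iff]
  · right; rw [face_false (k1 := a - 1) (k2 := b) ht' (by push_cast; linarith) (by linarith)
      (by push_cast; linarith)]; simp [fb, fa, Prod.ext_iff]
  · left; rw [face_true (k1 := a - 1) (k2 := b) ht' (by push_cast; linarith) (by linarith)
      (by push_cast; linarith)]; simp [fa, Prod.ext_iff]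
  · left; rw [face_false (k1 := a - 1) (k2 := b) ht' (by push_cast; linarith) (by linarith)
      (by push_cast; linarith)]; simp [fa, Prod.ext_iff]
  · right; rw [face_true (k1 := a - 1) (k2 := b - 1) ht' (by push_cast; linarith)
      (by push_cast; linarith) (by push_cast; linarith)]; simp [fb, fa, Prod.ext_iff]
  · right; rw [face_false (k1 := a) (k2 := b - 1) ht' (by push_cast; linarith)
      (by push_cast; linarith) (by push_cast; linarith)]; simp [fb, fa, Prod.ext_iff]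
  · left; rw [face_true (k1 := a - 1) (k2 := b - 1) ht' (by push_cast; linarith)
      (by push_cast; linarith) (by push_cast; linarith)]; simp [fa, Prod.ext_iff]
  · left; rw [face_false (k1 := a) (k2 := b - 1) ht' (by push_cast; linarith)
      (by push_cast; linarith) (by push_cast; linarith)]; simp [fa, Prod.ext_iff]
  · right; rw [face_true (k1 := a) (k2 := b - 1) ht' (by push_cast; linarith)
      (by push_cast; linarith) (by push_cast; linarith)]; simp [fb, fa, Prod.ext_iff]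

/-- A lattice point is only in the faces with this corner. -/
theorem vertex_face {δ : ℝ} (hδ : 0 < δ) {v : ℤ × ℤ} {t : (ℤ × ℤ) × Bool}
    (ht : PP δ v ∈ Face δ t) : v ∈ F.Dom.corners t := by
  obtain ⟨⟨u1, u2⟩, c⟩ := t
  obtain ⟨v1, v2⟩ := v
  have ht' : InF ((u1, u2), c) (lx δ (PP δ (v1, v2))) (ly δ (PP δ (v1, v2))) := ht
  rw [lx_PP hδ, ly_PP hδ] at ht'
  cases c
  · have h' : (u1 : ℝ) ≤ v1 ∧ (u2 : ℝ) ≤ v2 ∧ (v1 : ℝ) + v2 ≤ u1 + u2 + 1 := by simpa [InF] using ht'
    obtain ⟨a1, a2, a3⟩ := h'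
    have b1 : u1 ≤ v1 := by exact_mod_cast a1
    have b2 : u2 ≤ v2 := by exact_mod_cast a2
    have b3 : v1 + v2 ≤ u1 + u2 + 1 := by exact_mod_cast a3
    simp only [F.Dom.corners, Bool.false_eq_true, if_false, Finset.mem_insert,
      Finset.mem_singleton, Prod.mk_add_mk, Prod.mk.injEq]
    omega
  · have h' : (v1 : ℝ) ≤ u1 + 1 ∧ (v2 : ℝ) ≤ u2 + 1 ∧ (u1 : ℝ) + u2 + 1 ≤ v1 + v2 := by
      simpa [InF] using ht'
    obtain ⟨a1, a2, a3⟩ := h'
    have b1 : v1 ≤ u1 + 1 := by exact_mod_cast a1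
    have b2 : v2 ≤ u2 + 1 := by exact_mod_cast a2
    have b3 : u1 + u2 + 1 ≤ v1 + v2 := by exact_mod_cast a3
    simp only [F.Dom.corners, if_true, Finset.mem_insert,
      Finset.mem_singleton, Prod.mk_add_mk, Prod.mk.injEq]
    omega

end Vale.Agent.P153.R2.INTF
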