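import Vale.Agent.P153.R2.INTF.SidedI
import Vale.Agent.P153.R2.OBSV.Holo

/-!
P153, block INTF: orientation of the uniformizer at the starting edge, and the instance of `Sided`
with the sign `1`: the walls on the right of the interface (heights `-1`) are mapped to the right
of the image of the tip.
-/

set_option linter.all false

namespace Vale.Agent.P153.R2.INTF

open Set Filter Topology Metric Function
open Vale.Agent.P153 Vale.Agent.P153.Topo
open Vale.Agent.P153.R2.Final (IsPolygon Encloses IsEdge Side Heights mid toC pt region)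
open Vale.Agent.P153.R2.DRV (Pos st sg Mn Pn Cs ru nu sh et pl)
open Vale.Agent.P153.R2.FLDI (inn adjF polyF enclF)
open Vale.Agent.P153.R2.UNIQ (bptD IsUnifD)
open Vale.Agent.P153.R2.L1 (HH IsHydro)
open Vale.Agent.P153.R2.L2 (Crv gg ww)
open Vale.Agent.P153.R2.R1 (PF PV)

variable {n : ℕ} {p : ZMod n → ℤ × ℤ} {S : Finset Tri} {k : ℕ} {δ : ℝ} {ψ : ℂ → ℂ}

theorem st_PF_pos (h : Pos p S) {u : ℝ} (h1 : -1 ≤ u) (h2 : u ≤ 1) :
    EE δ (st p S) u = PF p δ (-(1 + u) / 2) := by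
  rw [st_pos h, PF, R1.pl_eq (PV p δ) (-1) (by push_cast; linarith) (by push_cast; linarith)]
  have e1 : ((-1 : ℤ) : ZMod n) = -1 := by push_cast; rfl
  have e2 : ((-1 + 1 : ℤ) : ZMod n) = 0 := by push_cast; ring
  simp only [PV, e1, e2, EE, PP]
  apply Complex.ext <;> simp [toC, pt] <;> ring

theorem st_PF_neg (h : ¬ Pos p S) {u : ℝ} (h1 : -1 ≤ u) (h2 : u ≤ 1) :
    EE δ (st p S) u = PF p δ (-(1 - u) / 2) := by
  rw [st_neg h, PF, R1.pl_eq (PV p δ) (-1) (by push_cast; linarith) (by push_cast; linarith)]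
  have e1 : ((-1 : ℤ) : ZMod n) = -1 := by push_cast; rfl
  have e2 : ((-1 + 1 : ℤ) : ZMod n) = 0 := by push_cast; ring
  simp only [PV, e1, e2, EE, PP]
  apply Complex.ext <;> simp [toC, pt] <;> ring

theorem PF_sub (x : ℝ) : PF p δ x = PF p δ (x + n) := (R1.PF_per x).symm

/-- The sign of the uniformizer on the two sides of the start. -/
theorem side_sign (hδ : 0 < δ) (hp : IsPolygon p) (hS : Encloses p S) (hk : 0 < k) (hkn : k < n)
    (hU : IsUnifD p k S δ ψ) : ∃ σ : ℝ, (σ = 1 ∨ σ = -1) ∧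
      (∀ u ∈ Ioc (0 : ℝ) 1, 0 < σ * (ph ψ (EE δ (st p S) u)).re) ∧
      (∀ u ∈ Ico (-1 : ℝ) 0, 0 < -σ * (ph ψ (EE δ (st p S) u)).re) ∧
      (∀ v ∈ Mn p k S, 0 < σ * (ph ψ (PP δ v)).re) ∧
      (∀ v ∈ Pn p k S, 0 < -σ * (ph ψ (PP δ v)).re) := by
  obtain ⟨τ, hτ, h1, h2⟩ := arc_sign hδ hp hS hk hkn hU
  have hk1 : (1 : ℝ) ≤ k := by exact_mod_cast hk
  have hkn1 : (k : ℝ) + 1 ≤ n := by exact_mod_cast hkn
  have : NeZero n := ⟨by omega⟩
  have hv1 : ∀ i : ZMod n, i.val < k → 0 < -τ * (ph ψ (PP δ (p i))).re := by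
    intro i hi
    have h3 : PF p δ (i.val : ℤ) = PP δ (p i) := by
      rw [PF, R1.pl_int, PV_PP]
      push_cast
      rw [ZMod.natCast_zmod_val]
    rw [← h3]
    push_cast
    refine h1 _ ⟨by have : (0 : ℝ) ≤ i.val := Nat.cast_nonneg _; linarith, ?_⟩
    have : (i.val : ℝ) + 1 ≤ k := by exact_mod_cast hi
    linarith
  have hv2 : ∀ i : ZMod n, k ≤ i.val → 0 < τ * (ph ψ (PP δ (p i))).re := by
    intro i hi
    have h3 : PF p δ (i.val : ℤ) = PP δ (p i) := by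
      rw [PF, R1.pl_int, PV_PP]
      push_cast
      rw [ZMod.natCast_zmod_val]
    rw [← h3]
    push_cast
    have h4 := ZMod.val_lt i
    refine h2 _ ⟨?_, ?_⟩
    · have : (k : ℝ) ≤ i.val := by exact_mod_cast hi
      linarith
    · have : (i.val : ℝ) + 1 ≤ n := by exact_mod_cast h4
      linarith
  by_cases hP : Pos p S
  · refine ⟨τ, hτ, ?_, ?_, ?_, ?_⟩
    · intro u hu
      rw [st_PF_pos hP (by linarith [hu.1]) hu.2, PF_sub]
      exact h2 _ ⟨by linarith [hu.2], by linarith [hu.1]⟩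
    · intro u hu
      rw [st_PF_pos hP hu.1 (by linarith [hu.2])]
      exact h1 _ ⟨by linarith [hu.2], by linarith [hu.1]⟩
    · intro v hv
      obtain ⟨i, rfl⟩ := Mn_sub hv
      rw [mem_Mn hp] at hv
      exact hv2 i (by tauto)
    · intro v hv
      obtain ⟨i, rfl⟩ := Pn_sub hv
      rw [mem_Pn hp] at hv
      exact hv1 i (by tauto)
  · refine ⟨-τ, by rcases hτ with rfl | rfl <;> simp, ?_, ?_, ?_, ?_⟩
    · intro u hu
      rw [st_PF_neg hP (by linarith [hu.1]) hu.2]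
      exact h1 _ ⟨by linarith [hu.1], by linarith [hu.2]⟩
    · intro u hu
      rw [st_PF_neg hP hu.1 (by linarith [hu.2]), PF_sub, neg_neg]
      exact h2 _ ⟨by linarith [hu.1], by linarith [hu.2]⟩
    · intro v hv
      obtain ⟨i, rfl⟩ := Mn_sub hv
      rw [mem_Mn hp] at hv
      exact hv1 i (by tauto)
    · intro v hv
      obtain ⟨i, rfl⟩ := Pn_sub hv
      rw [mem_Pn hp] at hv
      rw [neg_neg]
      exact hv2 i (by tauto)

/-- The third vertex of the face ahead. -/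
theorem PP_ah (s : St) : PP δ (ah s) = EE δ s 0 +
    ((√3 / 2 : ℝ) : ℂ) * Complex.I * (PP δ s.2 - PP δ s.1) := by
  have h3 : √3 * √3 = (3 : ℝ) := Real.mul_self_sqrt (by norm_num)
  obtain ⟨⟨a, b⟩, c, d⟩ := s
  apply Complex.ext
  · simp only [PP, EE, ah, rm, toC, pt, Complex.add_re, Complex.mul_re, Complex.sub_re,
      Complex.sub_im, Complex.I_re, Complex.I_im, Complex.ofReal_re, Complex.ofReal_im,
      Complex.mul_im, Prod.smul_mk, Prod.mk_sub_mk, Prod.mk_add_mk, smul_eq_mul]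
    push_cast
    linear_combination (δ / 4 * ((d : ℝ) - b)) * h3
  · simp only [PP, EE, ah, rm, toC, pt, Complex.add_im, Complex.mul_re, Complex.sub_re,
      Complex.sub_im, Complex.I_re, Complex.I_im, Complex.ofReal_re, Complex.ofReal_im,
      Complex.mul_im, Prod.smul_mk, Prod.mk_sub_mk, Prod.mk_add_mk, smul_eq_mul]
    push_cast
    ring

/-- Local coordinates at the midpoint of an edge. -/
noncomputable def lc (δ : ℝ) (s : St) (z : ℂ) : ℂ := EE δ s 0 + z * (PP δ s.2 - PP δ s.1)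

theorem lc_bar (s : St) (x y : ℝ) : lc δ s (x + y * Complex.I) =
    bar δ s ((1 - 2 * y / √3) / 2 - x) ((1 - 2 * y / √3) / 2 + x) (2 * y / √3) := by
  have h3 : (0 : ℝ) < √3 := by positivity
  rw [lc, bar, PP_ah]
  have e : ((2 * y / √3 : ℝ) : ℂ) * (((√3 / 2 : ℝ) : ℂ) * Complex.I) = (y : ℂ) * Complex.I := by
    rw [← mul_assoc, ← Complex.ofReal_mul]
    congr 2
    field_simp
  have e2 : ((2 * y / √3 : ℝ) : ℂ) * (EE δ s 0 + ((√3 / 2 : ℝ) : ℂ) * Complex.I *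
      (PP δ s.2 - PP δ s.1)) = ((2 * y / √3 : ℝ) : ℂ) * EE δ s 0 +
      (y : ℂ) * Complex.I * (PP δ s.2 - PP δ s.1) := by
    rw [mul_add, ← mul_assoc, e]
  rw [e2]
  simp only [EE]
  push_cast
  ring

theorem lc_real (s : St) (x : ℝ) : lc δ s x = EE δ s (2 * x) := by
  simp only [lc, EE]
  push_cast
  ring

theorem lc_cont (s : St) : Continuous (lc δ s) := by unfold lc; fun_prop

/-- Small upper rectangles at the starting edge are in the domain. -/
theorem lc_mem (hδ : 0 < δ) {s : St} (hs : Adj s.1 s.2) (hf : fa s ∈ S) {x y : ℝ}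
    (hx : |x| ≤ 1 / 4) (hy0 : 0 < y) (hy : y ≤ 1 / 8) :
    lc δ s (x + y * Complex.I) ∈ interior (Reg δ S) := by
  have h3 : (0 : ℝ) < √3 := by positivity
  have h31 : (1 : ℝ) ≤ √3 := by
    rw [show (1 : ℝ) = √1 by simp]; exact Real.sqrt_le_sqrt (by norm_num)
  have hw : 2 * y / √3 ≤ 1 / 4 := by
    rw [div_le_iff₀ h3]; nlinarith
  have hw0 : 0 < 2 * y / √3 := by positivity
  rw [abs_le] at hx
  refine mem_interior hδ fun t ht => ?_
  rw [lc_bar] at ht
  rw [open_face hδ hs (by linarith) (by linarith) hw0 (by ring) ht]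
  exact hf

/-- **Orientation**: the right side of the start is mapped to the positive half-line. -/
theorem orient (hδ : 0 < δ) (hp : IsPolygon p) (hS : Encloses p S) (hk : 0 < k) (hkn : k < n)
    (hU : IsUnifD p k S δ ψ) (h1 : ∀ u ∈ Ioc (0 : ℝ) 1, (ph ψ (EE δ (st p S) u)).re < 0)
    (h2 : ∀ u ∈ Ico (-1 : ℝ) 0, 0 < (ph ψ (EE δ (st p S) u)).re) : False := by
  set s := st p S with hs
  have hsa : Adj s.1 s.2 := st_adj hp
  have hfa : fa s ∈ S := (st_side hp hS).1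
  set F : ℂ → ℂ := fun z => ph ψ (lc δ s z) with hF
  set Q : Set ℂ := Icc (-(1 / 4) : ℝ) (1 / 4) ×ℂ Icc (0 : ℝ) (1 / 8) with hQ
  -- points of the bottom side
  have hbot : ∀ x ∈ Icc (-(1 / 4) : ℝ) (1 / 4), lc δ s x ∈ ψ '' {z : ℂ | 0 ≤ z.im} ∧
      (F x).im = 0 := by
    intro x hx
    have hfr : lc δ s x ∈ frontier (interior (Reg δ S)) := by
      rw [lc_real, frontier_PF hδ hp hS]
      by_cases hP : Pos p S
      · rw [hs, st_PF_pos hP (by linarith [hx.1]) (by linarith [hx.2])]; exact ⟨_, rfl⟩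
      · rw [hs, st_PF_neg hP (by linarith [hx.1]) (by linarith [hx.2])]; exact ⟨_, rfl⟩
    have hne : lc δ s x ≠ bptD p k δ := by
      have hJ := R1.jcurve_PF hδ hp
      have hk1 : (1 : ℝ) ≤ k := by exact_mod_cast hk
      have hkn1 : (k : ℝ) + 1 ≤ n := by exact_mod_cast hkn
      have key : ∀ t : ℝ, -(3 / 4) ≤ t → t ≤ -(1 / 4) → PF p δ t ≠ bptD p k δ := by
        intro t ht1 ht2 hc
        rw [← PF_khalf] at hc
        obtain ⟨j, hj⟩ := hJ.inj _ _ hc
        rcases le_or_gt 0 j with h3 | h3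
        · have h4 : (0 : ℝ) ≤ j := by exact_mod_cast h3
          nlinarith
        · have h4 : (j : ℝ) ≤ -1 := by exact_mod_cast (by omega : j ≤ -1)
          nlinarith
      rw [lc_real]
      by_cases hP : Pos p S
      · rw [hs, st_PF_pos hP (by linarith [hx.1]) (by linarith [hx.2])]
        exact key _ (by linarith [hx.2]) (by linarith [hx.1])
      · rw [hs, st_PF_neg hP (by linarith [hx.1]) (by linarith [hx.2])]
        exact key _ (by linarith [hx.1]) (by linarith [hx.2])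
    obtain ⟨y, hy1, hy2⟩ := frontier_real hU hfr hne
    refine ⟨⟨y, by simp, hy1⟩, ?_⟩
    rw [hF]
    simp only
    rw [hy2]
    simp
  have hin : ∀ z : ℂ, |z.re| ≤ 1 / 4 → 0 < z.im → z.im ≤ 1 / 8 →
      lc δ s z ∈ interior (Reg δ S) := by
    intro z hz1 hz2 hz3
    have := lc_mem hδ hsa hfa hz1 hz2 hz3
    rwa [Complex.re_add_im] at this
  have hmaps : MapsTo (lc δ s) Q (ψ '' {z : ℂ | 0 ≤ z.im}) := by
    rintro z ⟨hz1, hz2⟩
    rw [mem_preimage] at hz1 hz2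
    rcases hz2.1.eq_or_lt with h0 | h0
    · have hzr : z = (z.re : ℂ) := Complex.ext rfl (by simp [← h0])
      rw [hzr]
      exact (hbot _ hz1).1
    · obtain ⟨h3, h4⟩ := ph_mem hU (hin z (abs_le.2 hz1) h0 hz2.2)
      exact ⟨_, le_of_lt (α := ℝ) h3, h4⟩
  have hFc : ContinuousOn F Q := (ph_cont hU).comp (lc_cont s).continuousOn hmaps
  have hFd : DifferentiableOn ℂ F (Ioo (-(1 / 4) : ℝ) (1 / 4) ×ℂ Ioo (0 : ℝ) (1 / 8)) := by
    have h3 : DifferentiableOn ℂ (ph ψ) (interior (Reg δ S)) := by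
      have h4 := OBSV.inv_diff (f := ψ) (U := {z | 0 < z.im})
        (isOpen_lt continuous_const Complex.continuous_im) hU.diff
        (hU.injOn.mono fun z hz => le_of_lt (α := ℝ) hz)
      rw [hU.image, ← Reg_int] at h4
      refine h4.congr fun z hz => ?_
      obtain ⟨h5, h6⟩ := ph_mem hU hz
      have h7 : z ∈ ψ '' {z | 0 < z.im} := ⟨_, h5, h6⟩
      have h8 := invFunOn_mem h7
      have h9 := invFunOn_eq h7
      have h8' : 0 < (invFunOn ψ {z | 0 < z.im} z).im := h8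
      have := ph_eq hU h8'.le
      rw [h9] at this
      exact this
    refine h3.comp (by unfold lc; fun_prop) ?_
    rintro z ⟨hz1, hz2⟩
    exact hin z (abs_le.2 ⟨hz1.1.le, hz1.2.le⟩) hz2.1 hz2.2.le
  have him : ∀ z : ℂ, |z.re| ≤ 1 / 4 → 0 < z.im → z.im ≤ 1 / 8 → 0 < (F z).im :=
    fun z hz1 hz2 hz3 => (ph_mem hU (hin z hz1 hz2 hz3)).1
  -- the vertical sides
  have hA : (F ((1 / 4 : ℝ) : ℂ)).re < 0 := by
    rw [hF]; simp only; rw [lc_real]
    exact h1 _ ⟨by norm_num, by norm_num⟩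
  have hB : 0 < (F ((-(1 / 4) : ℝ) : ℂ)).re := by
    rw [hF]; simp only; rw [lc_real]
    exact h2 _ ⟨by norm_num, by norm_num⟩
  have hv : ∀ x ∈ Icc (-(1 / 4) : ℝ) (1 / 4),
      ContinuousOn (fun y : ℝ => F (x + y * Complex.I)) (Icc 0 (1 / 8)) := by
    intro x hx
    refine hFc.comp (by fun_prop) ?_
    intro y hy
    exact ⟨by simpa using hx, by simpa using hy⟩
  have hvA := hv (1 / 4) ⟨by norm_num, le_rfl⟩
  have hvB := hv (-(1 / 4)) ⟨le_rfl, by norm_num⟩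
  have h0m : (0 : ℝ) ∈ Icc (0 : ℝ) (1 / 8) := ⟨le_rfl, by norm_num⟩
  have eA : ∀ᶠ y : ℝ in 𝓝[Icc (0 : ℝ) (1 / 8)] (0 : ℝ),
      (F (((1 / 4 : ℝ) : ℂ) + (y : ℂ) * Complex.I)).re < 0 := by
    have h3 : ContinuousWithinAt (fun y : ℝ => (F (((1 / 4 : ℝ) : ℂ) + (y : ℂ) * Complex.I)).re)
      (Icc (0 : ℝ) (1 / 8)) 0 :=
      (Complex.continuous_re.continuousAt.comp_continuousWithinAt (hvA 0 h0m))
    refine h3.tendsto.eventually_lt_const ?_
    rw [Complex.ofReal_zero, zero_mul, add_zero]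
    exact hA
  have eB : ∀ᶠ y : ℝ in 𝓝[Icc (0 : ℝ) (1 / 8)] (0 : ℝ),
      0 < (F (((-(1 / 4) : ℝ) : ℂ) + (y : ℂ) * Complex.I)).re := by
    have h3 : ContinuousWithinAt
      (fun y : ℝ => (F (((-(1 / 4) : ℝ) : ℂ) + (y : ℂ) * Complex.I)).re)
      (Icc (0 : ℝ) (1 / 8)) 0 :=
      (Complex.continuous_re.continuousAt.comp_continuousWithinAt (hvB 0 h0m))
    refine h3.tendsto.eventually_const_lt ?_
    rw [Complex.ofReal_zero, zero_mul, add_zero]
    exact hB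
  obtain ⟨ε, hε, hball⟩ := Metric.mem_nhdsWithin_iff.1 (eA.and eB)
  set E := min (ε / 2) (1 / 8) with hE
  have hE0 : 0 < E := lt_min (by linarith) (by norm_num)
  have hE8 : E ≤ 1 / 8 := min_le_right _ _
  have hEε : E < ε := (min_le_left _ _).trans_lt (by linarith)
  have hs1 : ∀ y ∈ Icc (0 : ℝ) E, (F (((1 / 4 : ℝ) : ℂ) + (y : ℂ) * Complex.I)).re < 0 ∧
      0 < (F (((-(1 / 4) : ℝ) : ℂ) + (y : ℂ) * Complex.I)).re := by
    intro y hy
    have hm : y ∈ ball (0 : ℝ) ε ∩ Icc (0 : ℝ) (1 / 8) := by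
      refine ⟨?_, hy.1, hy.2.trans hE8⟩
      rw [mem_ball, Real.dist_eq, sub_zero, abs_of_nonneg hy.1]
      exact hy.2.trans_lt hEε
    exact hball hm
  -- Cauchy's theorem on the rectangle
  have hle : (-(1 / 4) : ℝ) ≤ 1 / 4 := by norm_num
  have hC := Complex.integral_boundary_rect_eq_zero_of_continuousOn_of_differentiableOn F
    (⟨-(1 / 4), 0⟩ : ℂ) (⟨1 / 4, E⟩ : ℂ) (hFc.mono (by
      rintro z ⟨hz1, hz2⟩
      simp only [mem_preimage, uIcc_of_le hle, uIcc_of_le hE0.le] at hz1 hz2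
      exact ⟨hz1, hz2.1, hz2.2.trans hE8⟩)) (hFd.mono (by
      rintro z ⟨hz1, hz2⟩
      simp only [mem_preimage, min_eq_left hle, max_eq_right hle, min_eq_left hE0.le,
        max_eq_right hE0.le] at hz1 hz2
      exact ⟨hz1, hz2.1, hz2.2.trans_le hE8⟩))
  simp only at hC
  have hI := congrArg Complex.im hC
  -- integrability
  have ih1 : IntervalIntegrable (fun x : ℝ => F (x + (0 : ℝ) * Complex.I)) MeasureTheory.volume
      (-(1 / 4)) (1 / 4) := by
    apply ContinuousOn.intervalIntegrable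
    rw [uIcc_of_le hle]
    refine hFc.comp (by fun_prop) ?_
    intro x hx
    exact ⟨by simpa using hx, by simp⟩
  have hc2 : ContinuousOn (fun x : ℝ => F (x + E * Complex.I)) (Icc (-(1 / 4) : ℝ) (1 / 4)) := by
    refine hFc.comp (by fun_prop) ?_
    intro x hx
    refine ⟨by simpa using hx, ?_⟩
    rw [mem_preimage, show ((x : ℂ) + E * Complex.I).im = E by simp]
    exact ⟨hE0.le, hE8⟩
  have ih2 : IntervalIntegrable (fun x : ℝ => F (x + E * Complex.I)) MeasureTheory.volume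
      (-(1 / 4)) (1 / 4) := hc2.intervalIntegrable_of_Icc hle
  have iv1 : IntervalIntegrable (fun y : ℝ => F (((1 / 4 : ℝ) : ℂ) + y * Complex.I))
      MeasureTheory.volume 0 E := by
    apply ContinuousOn.intervalIntegrable
    rw [uIcc_of_le hE0.le]
    exact hvA.mono (Icc_subset_Icc_right hE8)
  have iv2 : IntervalIntegrable (fun y : ℝ => F (((-(1 / 4) : ℝ) : ℂ) + y * Complex.I))
      MeasureTheory.volume 0 E := by
    apply ContinuousOn.intervalIntegrable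
    rw [uIcc_of_le hE0.le]
    exact hvB.mono (Icc_subset_Icc_right hE8)
  have g1 : (∫ x : ℝ in (-(1 / 4))..(1 / 4), F (x + (0 : ℝ) * Complex.I)).im = 0 := by
    have := Complex.imCLM.intervalIntegral_comp_comm ih1
    rw [← Complex.imCLM_apply, ← this]
    rw [intervalIntegral.integral_congr (g := fun _ => (0 : ℝ))]
    · simp
    · intro x hx
      rw [uIcc_of_le hle] at hx
      simp only [Complex.imCLM_apply, Complex.ofReal_zero, zero_mul, add_zero]
      exact (hbot x hx).2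
  have g2 : 0 < (∫ x : ℝ in (-(1 / 4))..(1 / 4), F (x + E * Complex.I)).im := by
    have := Complex.imCLM.intervalIntegral_comp_comm ih2
    rw [← Complex.imCLM_apply, ← this]
    refine intervalIntegral.intervalIntegral_pos_of_pos_on ?_ ?_ (by norm_num)
    · exact (Complex.continuous_im.comp_continuousOn hc2).intervalIntegrable_of_Icc hle
    · intro x hx
      simp only [Complex.imCLM_apply]
      have e1 : ((x : ℂ) + E * Complex.I).re = x := by simp
      have e2 : ((x : ℂ) + E * Complex.I).im = E := by simp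
      exact him _ (by rw [e1]; exact abs_le.2 ⟨hx.1.le, hx.2.le⟩) (by rw [e2]; exact hE0)
        (by rw [e2]; exact hE8)
  have g3 : (∫ y : ℝ in (0 : ℝ)..E, F (((1 / 4 : ℝ) : ℂ) + y * Complex.I)).re ≤ 0 := by
    have := Complex.reCLM.intervalIntegral_comp_comm iv1
    rw [← Complex.reCLM_apply, ← this]
    have h5 : 0 ≤ ∫ y : ℝ in (0 : ℝ)..E,
        -(Complex.reCLM (F (((1 / 4 : ℝ) : ℂ) + y * Complex.I))) := by
      refine intervalIntegral.integral_nonneg hE0.le ?_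
      intro y hy
      have := (hs1 y hy).1
      rw [Complex.reCLM_apply]
      linarith
    rw [intervalIntegral.integral_neg] at h5
    linarith
  have g4 : 0 ≤ (∫ y : ℝ in (0 : ℝ)..E, F (((-(1 / 4) : ℝ) : ℂ) + y * Complex.I)).re := by
    have := Complex.reCLM.intervalIntegral_comp_comm iv2
    rw [← Complex.reCLM_apply, ← this]
    refine intervalIntegral.integral_nonneg hE0.le ?_
    intro y hy
    exact (hs1 y hy).2.le
  simp only [Complex.add_im, Complex.sub_im, Complex.zero_im, smul_eq_mul, Complex.mul_im,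
    Complex.I_re, Complex.I_im, zero_mul, one_mul, zero_add, add_zero] at hI
  rw [g1] at hI
  linarith

/-- **Sides of the uniformizer**: the walls on the right are mapped to the positive reals, the walls
on the left to the negative reals. -/
theorem side_pos (hδ : 0 < δ) (hp : IsPolygon p) (hS : Encloses p S) (hk : 0 < k) (hkn : k < n)
    (hU : IsUnifD p k S δ ψ) :
      (∀ u ∈ Ioc (0 : ℝ) 1, 0 < (ph ψ (EE δ (st p S) u)).re) ∧
      (∀ u ∈ Ico (-1 : ℝ) 0, (ph ψ (EE δ (st p S) u)).re < 0) ∧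
      (∀ v ∈ Mn p k S, 0 < (ph ψ (PP δ v)).re) ∧
      (∀ v ∈ Pn p k S, (ph ψ (PP δ v)).re < 0) := by
  obtain ⟨σ, rfl | rfl, h1, h2, h3, h4⟩ := side_sign hδ hp hS hk hkn hU
  · exact ⟨fun u hu => by have := h1 u hu; linarith, fun u hu => by have := h2 u hu; linarith,
      fun v hv => by have := h3 v hv; linarith, fun v hv => by have := h4 v hv; linarith⟩
  · exact (orient hδ hp hS hk hkn hU (fun u hu => by have := h1 u hu; linarith)
      (fun u hu => by have := h2 u hu; linarith)).elim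

/-- The points of the boundary which are not one of the two end points. -/
def Bp (p : ZMod n → ℤ × ℤ) (k : ℕ) (δ : ℝ) (e : ℂ) : Prop :=
  ∃ t : ℝ, PF p δ t = e ∧
    (t ∈ Ioo (-(1 / 2) : ℝ) (k - 1 / 2) ∨ t ∈ Ioo ((k : ℝ) - 1 / 2) (n - 1 / 2))

theorem Bp_real (hδ : 0 < δ) (hp : IsPolygon p) (hS : Encloses p S) (hk : 0 < k) (hkn : k < n)
    (hU : IsUnifD p k S δ ψ) {e : ℂ} (he : Bp p k δ e) :
    e ∈ ψ '' {z : ℂ | 0 ≤ z.im} ∧ ph ψ e = ((ph ψ e).re : ℂ) := by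
  obtain ⟨t, rfl, ht⟩ := he
  have hfr : PF p δ t ∈ frontier (interior (Reg δ S)) := by
    rw [frontier_PF hδ hp hS]; exact ⟨t, rfl⟩
  obtain ⟨x, hx1, hx2⟩ := frontier_real hU hfr (PF_ne (p := p) (k := k) hδ hp hk hkn ht).2
  refine ⟨⟨x, by simp, hx1⟩, ?_⟩
  rw [hx2]
  simp

theorem Bp_EE (hδ : 0 < δ) (hp : IsPolygon p) (hk : 0 < k) (hkn : k < n) {u : ℝ}
    (hu : u ∈ Ico (-1 : ℝ) 0 ∨ u ∈ Ioc (0 : ℝ) 1) : Bp p k δ (EE δ (st p S) u) := by
  have hk1 : (1 : ℝ) ≤ k := by exact_mod_cast hk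
  have hkn1 : (k : ℝ) + 1 ≤ n := by exact_mod_cast hkn
  by_cases hP : Pos p S
  · rcases hu with hu | hu
    · exact ⟨_, (st_PF_pos hP hu.1 (by linarith [hu.2])).symm,
        Or.inl ⟨by linarith [hu.2], by linarith [hu.1]⟩⟩
    · exact ⟨-(1 + u) / 2 + n, by
        rw [st_PF_pos hP (by linarith [hu.1]) hu.2, ← PF_sub],
        Or.inr ⟨by linarith [hu.2], by linarith [hu.1]⟩⟩
  · rcases hu with hu | hu
    · exact ⟨-(1 - u) / 2 + n, by
        rw [st_PF_neg hP hu.1 (by linarith [hu.2]), ← PF_sub],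
        Or.inr ⟨by linarith [hu.1], by linarith [hu.2]⟩⟩
    · exact ⟨_, (st_PF_neg hP (by linarith [hu.1]) hu.2).symm,
        Or.inl ⟨by linarith [hu.1], by linarith [hu.2]⟩⟩

theorem Bp_PP (hk : 0 < k) (hkn : k < n) (i : ZMod n) : Bp p k δ (PP δ (p i)) := by
  have : NeZero n := ⟨by omega⟩
  have hk1 : (1 : ℝ) ≤ k := by exact_mod_cast hk
  have hkn1 : (k : ℝ) + 1 ≤ n := by exact_mod_cast hkn
  have h3 : PF p δ (i.val : ℤ) = PP δ (p i) := by
    rw [PF, R1.pl_int, PV_PP]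
    push_cast
    rw [ZMod.natCast_zmod_val]
  refine ⟨_, h3, ?_⟩
  push_cast
  have h4 := ZMod.val_lt i
  rcases Nat.lt_or_ge i.val k with hi | hi
  · left
    refine ⟨by have : (0 : ℝ) ≤ i.val := Nat.cast_nonneg _; linarith, ?_⟩
    have : (i.val : ℝ) + 1 ≤ k := by exact_mod_cast hi
    linarith
  · right
    refine ⟨?_, ?_⟩
    · have : (k : ℝ) ≤ i.val := by exact_mod_cast hi
      linarith
    · have : (i.val : ℝ) + 1 ≤ n := by exact_mod_cast h4
      linarith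

theorem pl_mem_Gam {h : ℤ × ℤ → ℤ} {s : St} {κ : ℕ} {t : ℝ} (ht : t ∈ Ioc (0 : ℝ) κ) :
    pl δ (run h S s) t ∈ Gam δ h S s κ := by
  have h1 : 0 < ⌈t⌉₊ := Nat.ceil_pos.2 ht.1
  have h2 : ⌈t⌉₊ ≤ κ := Nat.ceil_le.2 ht.2
  obtain ⟨j, hj⟩ : ∃ j, ⌈t⌉₊ = j + 1 := ⟨⌈t⌉₊ - 1, by omega⟩
  have h3 : (j : ℝ) ≤ t := by
    have : j < ⌈t⌉₊ := by omega
    exact (Nat.lt_ceil.1 this).le
  have h4 : t ≤ j + 1 := by
    have := Nat.le_ceil t
    rw [hj] at this
    exact_mod_cast this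
  refine ⟨j, by omega, ?_⟩
  rw [STEP.pl_eq δ _ j h3 h4, EE_mid, EE_mid, mem_seg]
  exact ⟨1 - (t - j), t - j, by linarith, by linarith, by ring, rfl⟩

theorem Gam_sub_pl {h : ℤ × ℤ → ℤ} {s : St} {κ : ℕ} :
    Gam δ h S s κ ⊆ pl δ (run h S s) '' Icc (0 : ℝ) κ := by
  rintro z ⟨j, hj, hz⟩
  obtain ⟨a, b, ha, hb, hab, rfl⟩ := mem_seg.1 hz
  have hjκ : (j : ℝ) + 1 ≤ κ := by exact_mod_cast hj
  have hj0 : (0 : ℝ) ≤ j := Nat.cast_nonneg j
  refine ⟨j + b, ⟨by linarith, by linarith⟩, ?_⟩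
  rw [STEP.pl_eq δ _ j (by linarith) (by linarith), EE_mid, EE_mid, add_sub_cancel_left]
  rw [show 1 - b = a by linarith]

section Inst

variable {h : ℤ × ℤ → ℤ}

/-- The slit domain is mapped to the slit half-plane. -/
theorem OO_maps (hU : IsUnifD p k S δ ψ) (hC : STEP.CanH p k S δ h) {κ : ℕ}
    (hκ : κ < nu p S h) {z : ℂ} (hz : z ∈ OO δ h S (st p S) κ) :
    ph ψ z ∈ L1.HH \ et ψ δ p S h '' Icc (0 : ℝ) κ := by
  obtain ⟨h1, h2⟩ := ph_mem hU hz.1
  refine ⟨h1, ?_⟩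
  rintro ⟨t, ht, he⟩
  have hκ' : (κ : ℝ) < nu p S h := by exact_mod_cast hκ
  obtain ⟨e1, e2, e3⟩ := hC.et_eq hU (t := t) ⟨ht.1, ht.2.trans_lt hκ'⟩
  rcases ht.1.eq_or_lt with h0 | h0
  · rw [e3 h0.symm] at he
    rw [← he] at h1
    simp at h1
  · rw [he, h2] at e1
    refine hz.2 ?_
    rw [e1]
    exact pl_mem_Gam ⟨h0, ht.2⟩

/-- The limit at a boundary point of the map of the slit domain. -/
theorem bd_lim (hδ : 0 < δ) (hp : IsPolygon p) (hS : Encloses p S) (hk : 0 < k) (hkn : k < n)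
    (hU : IsUnifD p k S δ ψ) (hC : STEP.CanH p k S δ h) {κ : ℕ} (hκ : κ < nu p S h) {e : ℂ}
    (he : Bp p k δ e) : ∃ x : ℝ,
      Tendsto (fun z => gg (et ψ δ p S h) κ (ph ψ z)) (𝓝[OO δ h S (st p S) κ] e) (𝓝 (x : ℂ)) ∧
      (0 < (ph ψ e).re → ww (et ψ δ p S h) κ < x) ∧
      ((ph ψ e).re < 0 → x < ww (et ψ δ p S h) κ) := by
  obtain ⟨e1, e2⟩ := Bp_real hδ hp hS hk hkn hU he
  have hcrv := hC.crv hU
  have hκ' : (κ : ℝ) < nu p S h := by exact_mod_cast hκ
  have hκm : (κ : ℝ) ∈ Ico (0 : ℝ) (nu p S h) := ⟨Nat.cast_nonneg κ, hκ'⟩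
  have h0 : et ψ δ p S h 0 = 0 := (hC.et_eq hU (t := 0) ⟨le_rfl, by
    exact_mod_cast hC.pos⟩).2.2 rfl
  obtain ⟨f, f1, f2, f3⟩ := crv_real_val hcrv hκm
  have hx0 : ((ph ψ e).re : ℂ) ≠ et ψ δ p S h 0 := by
    rw [h0, ← e2]
    intro hc
    obtain ⟨w, hw, hwe⟩ := e1
    rw [← hwe, ph_eq hU hw] at hc
    obtain ⟨t, ht, ht'⟩ := he
    refine (PF_ne (p := p) (k := k) hδ hp hk hkn ht').1 ?_
    rw [ht, ← hwe, hc, hU.zero]
  have hten : Tendsto (ph ψ) (𝓝[OO δ h S (st p S) κ] e)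
      (𝓝[L1.HH \ et ψ δ p S h '' Icc (0 : ℝ) κ] ((ph ψ e).re : ℂ)) := by
    rw [← e2, tendsto_nhdsWithin_iff]
    refine ⟨(ph_cont hU e e1).mono_left (nhdsWithin_mono _ fun z hz => ?_), ?_⟩
    · obtain ⟨a1, a2⟩ := ph_mem hU hz.1
      exact ⟨_, le_of_lt (α := ℝ) a1, a2⟩
    · filter_upwards [self_mem_nhdsWithin] with z hz
      exact OO_maps hU hC hκ hz
  refine ⟨f (ph ψ e).re, (f1 _ hx0).comp hten, fun hx => f2 _ ?_, fun hx => f3 _ ?_⟩
  · rw [h0]; simpa using hx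
  · rw [h0]; simpa using hx

/-- **The instance of `Sided`.** -/
theorem sided_poly (hδ : 0 < δ) (hp : IsPolygon p) (hS : Encloses p S) (hk : 0 < k) (hkn : k < n)
    (hU : IsUnifD p k S δ ψ) (hC : STEP.CanH p k S δ h) {κ : ℕ} (hκ : κ < nu p S h) :
    Sided δ h S (st p S) κ (fun z => gg (et ψ δ p S h) κ (ph ψ z)) (ww (et ψ δ p S h) κ) 1
      (wl (Pn p k S) (Mn p k S)) := by
  obtain ⟨s1, s2, s3, s4⟩ := side_pos hδ hp hS hk hkn hU
  refine ⟨Or.inl rfl, ?_, ?_⟩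
  · rintro c (rfl | rfl) η hη
    · have hm : -((1 : ℤ) : ℝ) * η ∈ Ico (-1 : ℝ) 0 := by
        push_cast; exact ⟨by linarith [hη.2], by linarith [hη.1]⟩
      obtain ⟨x, hx1, -, hx2⟩ := bd_lim hδ hp hS hk hkn hU hC hκ
        (Bp_EE (S := S) hδ hp hk hkn (Or.inl hm))
      refine ⟨x, ?_, (Complex.continuous_re.tendsto _).comp hx1⟩
      have := hx2 (s2 _ hm)
      push_cast
      linarith
    · have hm : -((-1 : ℤ) : ℝ) * η ∈ Ioc (0 : ℝ) 1 := by
        push_cast; exact ⟨by linarith [hη.1], by linarith [hη.2]⟩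
      obtain ⟨x, hx1, hx2, -⟩ := bd_lim hδ hp hS hk hkn hU hC hκ
        (Bp_EE (S := S) hδ hp hk hkn (Or.inr hm))
      refine ⟨x, ?_, (Complex.continuous_re.tendsto _).comp hx1⟩
      have := hx2 (s1 _ hm)
      push_cast
      linarith
  · rintro c hc m (⟨rfl, hm⟩ | ⟨rfl, hm⟩)
    · obtain ⟨i, rfl⟩ := Pn_sub hm
      obtain ⟨x, hx1, -, hx2⟩ := bd_lim hδ hp hS hk hkn hU hC hκ
        (Bp_PP (p := p) (δ := δ) hk hkn i)
      refine ⟨x, ?_, hx1⟩
      have := hx2 (s4 _ hm)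
      push_cast
      linarith
    · obtain ⟨i, rfl⟩ := Mn_sub hm
      obtain ⟨x, hx1, hx2, -⟩ := bd_lim hδ hp hS hk hkn hU hC hκ
        (Bp_PP (p := p) (δ := δ) hk hkn i)
      refine ⟨x, ?_, hx1⟩
      have := hx2 (s3 _ hm)
      push_cast
      linarith

end Inst

end Vale.Agent.P153.R2.INTF
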