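import Vale.Agent.P153.R2.L2.Crv
import Vale.Agent.P153.R2.L1.HRefl

/-!
P153, block INTF: the values of the maps of a curve at the real points, and their position with
respect to the image of the tip.
-/

set_option linter.all false

namespace Vale.Agent.P153.R2.INTF

open Complex Metric Set Filter Topology
open Vale.Agent.P153.R2.L1 (HH IsHydro reflect)
open Vale.Agent.P153.R2.L2 (Crv gg ww)
open scoped ComplexConjugate

/-- The complement of `K` and of its mirror image. -/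
def Om (K : Set ℂ) : Set ℂ := {z | z ∉ K ∧ conj z ∉ K}

theorem isOpen_Om {K : Set ℂ} (hK : IsCompact K) : IsOpen (Om K) :=
  hK.isClosed.isOpen_compl.inter (hK.isClosed.isOpen_compl.preimage continuous_conj)

theorem Om_HH {K : Set ℂ} (h0 : ∀ z ∈ K, 0 ≤ z.im) : Om K ∩ {z | 0 < z.im} = HH \ K := by
  ext z
  constructor
  · rintro ⟨h1, h2⟩
    exact ⟨h2, h1.1⟩
  · rintro ⟨h1, h2⟩
    refine ⟨⟨h2, fun hc => ?_⟩, h1⟩
    have h3 := h0 _ hc
    rw [conj_im] at h3
    have h4 : 0 < z.im := h1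
    linarith

/-- The reflected map. -/
theorem exists_refl {K : Set ℂ} {g : ℂ → ℂ} (h : IsHydro K g) (hK : IsCompact K)
    (h0 : ∀ z ∈ K, 0 ≤ z.im) : ∃ G : ℂ → ℂ, DifferentiableOn ℂ G (Om K) ∧
      (∀ z ∈ HH \ K, G z = g z) ∧ ∀ z ∈ Om K, G (conj z) = conj (G z) := by
  obtain ⟨G, h1, h2, h3⟩ := reflect (F := g) (Ω := Om K) (C := 1) one_pos (isOpen_Om hK)
    (fun z hz => ⟨hz.2, by rw [Complex.conj_conj]; exact hz.1⟩)
    (by rw [Om_HH h0]; exact h.diff) (by
      intro z hz hz0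
      have hz' : z ∈ HH \ K := by rw [← Om_HH h0]; exact ⟨hz, hz0⟩
      have h4 : 0 < (g z).im := h.mapsTo hz'
      rw [abs_of_pos h4, one_mul]
      exact h.im_le hz')
  refine ⟨G, h1, fun z hz => ?_, h3⟩
  rw [← Om_HH h0] at hz
  exact h2 z hz.1 hz.2

theorem conj_real (x : ℝ) : conj (x : ℂ) = x := conj_ofReal x

/-- Real points in the closure of the upper part. -/
theorem neBot_real {K : Set ℂ} (hK : IsCompact K) (h0 : ∀ z ∈ K, 0 ≤ z.im) {x : ℝ}
    (hx : (x : ℂ) ∉ K) : (𝓝[HH \ K] (x : ℂ)).NeBot := by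
  rw [← mem_closure_iff_nhdsWithin_neBot, Metric.mem_closure_iff]
  intro ε hε
  have hxO : (x : ℂ) ∈ Om K := ⟨hx, by rw [conj_real]; exact hx⟩
  obtain ⟨r, hr, hb⟩ := Metric.isOpen_iff.1 (isOpen_Om hK) _ hxO
  set η := min ε r / 2 with hη
  have hm : 0 < min ε r := lt_min hε hr
  have hη0 : 0 < η := by rw [hη]; linarith
  have hd : dist ((x : ℂ) + (η : ℂ) * I) x = η := by
    rw [dist_eq_norm, add_sub_cancel_left, norm_mul, Complex.norm_real, Complex.norm_I, mul_one,
      Real.norm_of_nonneg hη0.le]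
  refine ⟨(x : ℂ) + (η : ℂ) * I, ?_, ?_⟩
  · rw [← Om_HH h0]
    refine ⟨hb ?_, ?_⟩
    · rw [mem_ball, hd]
      linarith [min_le_right ε r]
    · simp [hη0]
  · rw [dist_comm, hd]
    linarith [min_le_left ε r]

theorem crv_compact {γ : ℝ → ℂ} {T : ℝ} (h : Crv γ T) {κ : ℝ} (hκ : κ ∈ Ico 0 T) :
    IsCompact (γ '' Icc 0 κ) :=
  isCompact_Icc.image_of_continuousOn
    (h.cont.mono fun s hs => ⟨hs.1, hs.2.trans_lt hκ.2⟩)

theorem crv_im {γ : ℝ → ℂ} {T : ℝ} (h : Crv γ T) {κ : ℝ} (hκ : κ ∈ Ico 0 T) :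
    ∀ z ∈ γ '' Icc 0 κ, 0 ≤ z.im := by
  rintro _ ⟨s, hs, rfl⟩
  rcases hs.1.eq_or_lt with h1 | h1
  · rw [← h1, h.start]
  · exact (h.im_pos s ⟨h1, hs.2.trans_lt hκ.2⟩).le

theorem crv_real {γ : ℝ → ℂ} {T : ℝ} (h : Crv γ T) {κ : ℝ} (hκ : κ ∈ Ico 0 T) {x : ℝ}
    (hx : (x : ℂ) ≠ γ 0) : (x : ℂ) ∉ γ '' Icc 0 κ := by
  rintro ⟨s, hs, he⟩
  rcases hs.1.eq_or_lt with h1 | h1
  · rw [← h1] at he
    exact hx he.symm
  · have := h.im_pos s ⟨h1, hs.2.trans_lt hκ.2⟩
    rw [he] at this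
    simp at this

/-- **Real boundary values**, and their position with respect to the image of the tip. -/
theorem crv_real_val {γ : ℝ → ℂ} {T : ℝ} (h : Crv γ T) {κ : ℝ} (hκ : κ ∈ Ico 0 T) :
    ∃ f : ℝ → ℝ, (∀ x : ℝ, (x : ℂ) ≠ γ 0 →
      Tendsto (gg γ κ) (𝓝[HH \ γ '' Icc 0 κ] (x : ℂ)) (𝓝 (f x : ℂ))) ∧
      (∀ x : ℝ, (γ 0).re < x → ww γ κ < f x) ∧ (∀ x : ℝ, x < (γ 0).re → f x < ww γ κ) := by
  set K := γ '' Icc 0 κ with hKdef
  have hK : IsCompact K := crv_compact h hκ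
  have h0 : ∀ z ∈ K, 0 ≤ z.im := crv_im h hκ
  have hyd : IsHydro K (gg γ κ) := h.hydro hκ
  obtain ⟨G, hGd, hGg, hGs⟩ := exists_refl hyd hK h0
  have hO := isOpen_Om hK
  have hxO : ∀ x : ℝ, (x : ℂ) ≠ γ 0 → (x : ℂ) ∈ Om K := fun x hx =>
    ⟨crv_real h hκ hx, by rw [conj_real]; exact crv_real h hκ hx⟩
  have hGr : ∀ x : ℝ, (x : ℂ) ≠ γ 0 → G x = ((G x).re : ℂ) := by
    intro x hx
    have h1 := hGs _ (hxO x hx)
    rw [conj_real] at h1
    exact (Complex.conj_eq_iff_re.1 h1.symm).symm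
  have hGc : ∀ x : ℝ, (x : ℂ) ≠ γ 0 → ContinuousAt G x := fun x hx =>
    (hGd.differentiableAt (hO.mem_nhds (hxO x hx))).continuousAt
  have hlim : ∀ x : ℝ, (x : ℂ) ≠ γ 0 →
      Tendsto (gg γ κ) (𝓝[HH \ K] (x : ℂ)) (𝓝 ((G x).re : ℂ)) := by
    intro x hx
    have h1 : Tendsto G (𝓝[HH \ K] (x : ℂ)) (𝓝 (G x)) := (hGc x hx).mono_left nhdsWithin_le_nhds
    rw [hGr x hx] at h1
    refine h1.congr' ?_
    filter_upwards [self_mem_nhdsWithin] with z hz
    exact hGg z hz
  -- the image of the tip is not taken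
  have hne : ∀ x : ℝ, (x : ℂ) ≠ γ 0 → (G x).re ≠ ww γ κ := by
    intro x hx he
    have hGx : G x = (ww γ κ : ℂ) := by rw [hGr x hx, he]
    have hxK : (x : ℂ) ≠ γ κ := by
      intro hc
      exact crv_real h hκ hx (by rw [hc]; exact ⟨κ, ⟨hκ.1, le_rfl⟩, rfl⟩)
    have han : AnalyticAt ℂ G x := (hGd.analyticOnNhd hO) _ (hxO x hx)
    rcases han.eventually_constant_or_nhds_le_map_nhds with hc | hc
    · -- constant near `x`
      obtain ⟨r, hr, hb⟩ := Metric.eventually_nhds_iff_ball.1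
        (hc.and (hO.mem_nhds (hxO x hx)))
      have key : ∀ η : ℝ, 0 < η → η < r → (x : ℂ) + (η : ℂ) * I ∈ HH \ K ∧
          gg γ κ ((x : ℂ) + (η : ℂ) * I) = G x := by
        intro η hη hηr
        have hd : dist ((x : ℂ) + (η : ℂ) * I) x = η := by
          rw [dist_eq_norm, add_sub_cancel_left, norm_mul, Complex.norm_real, Complex.norm_I,
            mul_one, Real.norm_of_nonneg hη.le]
        obtain ⟨h1, h2⟩ := hb ((x : ℂ) + (η : ℂ) * I) (by rw [mem_ball, hd]; exact hηr)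
        have h3 : (x : ℂ) + (η : ℂ) * I ∈ HH \ K := by
          rw [← Om_HH h0]
          exact ⟨h2, by simp [hη]⟩
        exact ⟨h3, by rw [← hGg _ h3, h1]⟩
      obtain ⟨a1, a2⟩ := key (r / 2) (by linarith) (by linarith)
      obtain ⟨b1, b2⟩ := key (r / 3) (by linarith) (by linarith)
      have := hyd.inj a1 b1 (by rw [a2, b2])
      have h5 := congrArg Complex.im this
      simp at h5
      linarith
    · rw [hGx] at hc
      set r := dist (x : ℂ) (γ κ) / 2 with hr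
      have hd0 : 0 < dist (x : ℂ) (γ κ) := dist_pos.2 hxK
      have hr0 : 0 < r := by rw [hr]; linarith
      have hU : ball (x : ℂ) r ∩ Om K ∈ 𝓝 (x : ℂ) :=
        inter_mem (ball_mem_nhds _ hr0) (hO.mem_nhds (hxO x hx))
      have hGU : G '' (ball (x : ℂ) r ∩ Om K) ∈ 𝓝 (ww γ κ : ℂ) := hc (image_mem_map hU)
      have hev := (h.tip hκ).eventually hGU
      have hev2 : ∀ᶠ u in 𝓝[>] κ, γ u ∈ ball (γ κ) r ∧ γ u ∈ HH \ K := by
        have := (h.tendsto_right hκ)
        rw [tendsto_nhdsWithin_iff] at this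
        exact (this.1.eventually (ball_mem_nhds _ hr0)).and this.2
      obtain ⟨u, ⟨z, ⟨hz1, hz2⟩, hz3⟩, hu1, hu2⟩ := (hev.and hev2).exists
      have hgu : 0 < (gg γ κ (γ u)).im := hyd.mapsTo hu2
      have hzim : 0 < z.im := by
        rcases lt_trichotomy z.im 0 with hz | hz | hz
        · exfalso
          have hcz : conj z ∈ HH \ K := by
            rw [← Om_HH h0]
            refine ⟨⟨hz2.2, by rw [Complex.conj_conj]; exact hz2.1⟩, ?_⟩
            simp [hz]
          have h6 : 0 < (G (conj z)).im := by rw [hGg _ hcz]; exact hyd.mapsTo hcz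
          rw [hGs z hz2, conj_im, hz3] at h6
          linarith
        · exfalso
          have hzr : z = ((z.re : ℝ) : ℂ) := Complex.ext rfl (by simpa using hz)
          have h6 := hGs z hz2
          have h7 : conj z = z := by rw [hzr]; exact conj_real _
          rw [h7] at h6
          have h8 := congrArg Complex.im h6
          rw [conj_im, hz3] at h8
          linarith
        · exact hz
      have hzK : z ∈ HH \ K := by rw [← Om_HH h0]; exact ⟨hz2, hzim⟩
      have hzu : z = γ u := hyd.inj hzK hu2 (by rw [← hGg z hzK]; exact hz3)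
      rw [hzu] at hz1
      have h9 : dist (x : ℂ) (γ κ) < r + r := by
        calc dist (x : ℂ) (γ κ) ≤ dist (x : ℂ) (γ u) + dist (γ u) (γ κ) := dist_triangle _ _ _
          _ < r + r := by
            rw [dist_comm (x : ℂ)]
            exact add_lt_add hz1 hu1
      rw [hr] at h9
      linarith
  -- size
  obtain ⟨R, hR⟩ := (Metric.isBounded_iff_subset_closedBall (0 : ℂ)).1 hK.isBounded
  set r := max R 1 with hr
  have hr0 : 0 < r := lt_of_lt_of_le one_pos (le_max_right _ _)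
  have hKr : K ⊆ closedBall ((0 : ℝ) : ℂ) r := by
    rw [ofReal_zero]
    exact hR.trans (closedBall_subset_closedBall (le_max_left _ _))
  have hsize : ∀ x : ℝ, (x : ℂ) ≠ γ 0 → |(G x).re - x| ≤ 6 * r := by
    intro x hx
    have hb : (𝓝[HH \ K] (x : ℂ)).NeBot := neBot_real hK h0 (crv_real h hκ hx)
    have h1 : Tendsto (fun z => ‖gg γ κ z - z‖) (𝓝[HH \ K] (x : ℂ))
        (𝓝 ‖((G x).re : ℂ) - x‖) :=
      ((hlim x hx).sub (tendsto_id.mono_left nhdsWithin_le_nhds)).norm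
    have h2 : ‖((G x).re : ℂ) - x‖ ≤ 6 * r := by
      refine le_of_tendsto h1 ?_
      filter_upwards [self_mem_nhdsWithin] with z hz
      exact hyd.norm_sub_le hr0 hKr hz
    rw [← ofReal_sub, Complex.norm_real, Real.norm_eq_abs] at h2
    exact h2
  have hcont : ∀ x : ℝ, (x : ℂ) ≠ γ 0 → ContinuousAt (fun x : ℝ => (G x).re) x := by
    intro x hx
    have h1 : ContinuousAt (fun x : ℝ => G (x : ℂ)) x :=
      ContinuousAt.comp (g := G) (f := fun x : ℝ => (x : ℂ)) (hGc x hx)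
        Complex.continuous_ofReal.continuousAt
    exact Complex.continuous_re.continuousAt.comp h1
  have hγ0 : γ 0 = ((γ 0).re : ℂ) := Complex.ext rfl (by simpa using h.start)
  have hxne : ∀ x : ℝ, x ≠ (γ 0).re → (x : ℂ) ≠ γ 0 := by
    intro x hx hc
    rw [hγ0] at hc
    exact hx (by exact_mod_cast hc)
  refine ⟨fun x => (G x).re, hlim, ?_, ?_⟩
  · intro x hx
    by_contra hc
    push Not at hc
    have hX := hsize (max x (ww γ κ + 6 * r + 1)) (hxne _ (by
      have := le_max_left x (ww γ κ + 6 * r + 1); intro hh; rw [hh] at this; linarith))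
    rw [abs_le] at hX
    set X := max x (ww γ κ + 6 * r + 1) with hXdef
    have hX1 : x ≤ X := le_max_left _ _
    have hX2 : ww γ κ + 6 * r + 1 ≤ X := le_max_right _ _
    have hcon : ContinuousOn (fun x : ℝ => (G x).re) (Icc x X) := fun y hy =>
      (hcont y (hxne y (by intro hh; rw [hh] at hy; linarith [hy.1]))).continuousWithinAt
    obtain ⟨y, hy, he⟩ := intermediate_value_Icc hX1 hcon
      (show ww γ κ ∈ Icc ((G (x : ℂ)).re) ((G (X : ℂ)).re) from ⟨hc, by linarith [hX.1]⟩)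
    exact hne y (hxne y (by intro hh; rw [hh] at hy; linarith [hy.1])) he
  · intro x hx
    by_contra hc
    push Not at hc
    have hX := hsize (min x (ww γ κ - 6 * r - 1)) (hxne _ (by
      have := min_le_left x (ww γ κ - 6 * r - 1); intro hh; rw [hh] at this; linarith))
    rw [abs_le] at hX
    set X := min x (ww γ κ - 6 * r - 1) with hXdef
    have hX1 : X ≤ x := min_le_left _ _
    have hX2 : X ≤ ww γ κ - 6 * r - 1 := min_le_right _ _
    have hcon : ContinuousOn (fun x : ℝ => (G x).re) (Icc X x) := fun y hy =>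
      (hcont y (hxne y (by intro hh; rw [hh] at hy; linarith [hy.2]))).continuousWithinAt
    obtain ⟨y, hy, he⟩ := intermediate_value_Icc hX1 hcon
      (show ww γ κ ∈ Icc ((G (X : ℂ)).re) ((G (x : ℂ)).re) from ⟨by linarith [hX.2], hc⟩)
    exact hne y (hxne y (by intro hh; rw [hh] at hy; linarith [hy.2])) he

end Vale.Agent.P153.R2.INTF
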