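import Vale.Agent.P153.R2.R1.Half
import Mathlib.Analysis.Complex.OpenMapping
import Mathlib.Analysis.Complex.AbsMax
import Mathlib.Analysis.Complex.Convex

/-!
P153, block INTF, sides, analytic part: the conformal map near the tip of a slit.
-/

set_option linter.all false

namespace Vale.Agent.P153.R2.INTF

open Set Filter Topology Metric MeasureTheory
open scoped ENNReal Real
open Vale.Agent.P153.R2.R1

/-- The upper half-plane. -/
def HP : Set ℂ := {z | 0 < z.im}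

theorem isOpen_HP : IsOpen HP := isOpen_lt continuous_const Complex.continuous_im

/-- `F` is a conformal map from the upper half-plane onto `O` with the inverse `G`; the point `w0`
corresponds to the tip and infinity to `b`. -/
structure Slit (O : Set ℂ) (F G : ℂ → ℂ) (w0 : ℝ) (tip b : ℂ) : Prop where
  opn : IsOpen O
  vol : volume O ≠ ⊤
  dF : DifferentiableOn ℂ F HP
  injF : InjOn F HP
  img : F '' HP = O
  GF : ∀ w ∈ HP, G (F w) = w
  cG : ContinuousOn G O
  tip : ∃ γ : ℝ → ℂ, ContinuousOn γ (Ioc 0 1) ∧ (∀ u ∈ Ioc (0 : ℝ) 1, γ u ∈ O) ∧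
    Tendsto γ (𝓝[>] 0) (𝓝 tip) ∧ Tendsto (fun u => G (γ u)) (𝓝[>] 0) (𝓝 (w0 : ℂ))
  inf : Tendsto F (Bornology.cobounded ℂ ⊓ 𝓟 HP) (𝓝 b)

variable {O : Set ℂ} {F G : ℂ → ℂ} {w0 : ℝ} {tip b : ℂ}

/-- The half disc. -/
def hd (x r : ℝ) : Set ℂ := {z | 0 < z.im ∧ dist z (x : ℂ) < r}

theorem hd_sub (x r : ℝ) : hd x r ⊆ HP := fun z hz => hz.1

theorem hd_open (x r : ℝ) : IsOpen (hd x r) :=
  (isOpen_lt continuous_const Complex.continuous_im).inter
    (isOpen_lt (continuous_id.dist continuous_const) continuous_const)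

/-- Images of open sets are measurable (open). -/
theorem isOpen_img {F : ℂ → ℂ} (hF : DifferentiableOn ℂ F HP) (hi : InjOn F HP) {V : Set ℂ}
    (hV : V ⊆ HP) (hVo : IsOpen V) : IsOpen (F '' V) := by
  have ha : AnalyticOnNhd ℂ F HP := hF.analyticOnNhd isOpen_HP
  have hc : IsPreconnected HP := (convex_halfSpace_im_gt 0).isPreconnected
  rcases ha.is_constant_or_isOpen hc with ⟨w, hw⟩ | h'
  · exfalso
    have h0 : (Complex.I : ℂ) ∈ HP := by simp [HP]
    have h1 : (2 * Complex.I : ℂ) ∈ HP := by simp [HP]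
    have := hi h0 h1 (by rw [hw _ h0, hw _ h1])
    have h2 := congrArg Complex.im this
    simp at h2
  · exact h' V hV hVo

/-- The area of the image of a small half disc is small. -/
theorem Slit.area (h : Slit O F G w0 tip b) (x : ℝ) :
    Tendsto (fun r => volume (F '' hd x r)) (𝓝[>] 0) (𝓝 0) := by
  have hmono : Monotone fun r => F '' hd x r := fun r s hrs =>
    image_mono fun z hz => ⟨hz.1, hz.2.trans_le hrs⟩
  have hmeas : ∀ r, MeasurableSet (F '' hd x r) := fun r =>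
    (isOpen_img h.dF h.injF (hd_sub x r) (hd_open x r)).measurableSet
  have hfin : ∀ r, volume (F '' hd x r) ≠ ⊤ := fun r =>
    ne_top_of_le_ne_top h.vol (measure_mono (by rw [← h.img]; exact image_mono (hd_sub x r)))
  have h1 : Tendsto (fun n : ℕ => volume (F '' hd x (1 / (n + 1)))) atTop (𝓝 0) := by
    have := tendsto_measure_iInter_atTop (μ := volume) (s := fun n : ℕ => F '' hd x (1 / (n + 1)))
      (fun n => (hmeas _).nullMeasurableSet)
      (fun n m hnm => hmono (by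
        apply one_div_le_one_div_of_le (by positivity)
        exact_mod_cast Nat.add_le_add_right hnm 1)) ⟨0, hfin _⟩
    have he : (⋂ n : ℕ, F '' hd x (1 / (n + 1))) = ∅ := by
      ext z
      simp only [mem_iInter, mem_empty_iff_false, iff_false]
      intro hz
      obtain ⟨w, hw, hwz⟩ := hz 0
      have hw' : ∀ n : ℕ, w ∈ hd x (1 / (n + 1)) := by
        intro n
        obtain ⟨w', hw', hwz'⟩ := hz n
        have := h.injF (hd_sub _ _ hw) (hd_sub _ _ hw') (hwz.trans hwz'.symm)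
        rw [this]; exact hw'
      have h2 : dist w (x : ℂ) ≤ 0 := by
        refine ge_of_tendsto' tendsto_one_div_add_atTop_nhds_zero_nat fun n => (hw' n).2.le
      have h3 : w = (x : ℂ) := dist_le_zero.1 h2
      have h4 := hw.1
      rw [h3] at h4
      simp at h4
    rw [he, measure_empty] at this
    exact this
  rw [ENNReal.tendsto_nhds_zero] at h1 ⊢
  intro ε hε
  obtain ⟨n, hn⟩ := (h1 ε hε).exists
  have : Iio (1 / ((n : ℝ) + 1)) ∈ 𝓝[>] (0 : ℝ) :=
    mem_nhdsWithin_of_mem_nhds (Iio_mem_nhds (by positivity))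
  filter_upwards [this] with r hr
  exact (measure_mono (hmono (le_of_lt hr))).trans hn

/-- Oscillation in a disc with an image of small area. -/
theorem osc_le {F : ℂ → ℂ} {w : ℂ} {r A K : ℝ} (hr : 0 < r)
    (hF : DifferentiableOn ℂ F (ball w r)) (hi : InjOn F (ball w r)) (hA : 0 ≤ A)
    (hvol : volume (F '' ball w r) ≤ ENNReal.ofReal A) (hK : 2 * π * A < K * Real.log 2)
    {z : ℂ} (hz : z ∈ closedBall w (r / 2)) {z' : ℂ} (hz' : z' ∈ closedBall w (r / 2)) :
    ‖F z - F z'‖ ≤ 2 * √K := by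
  have hK0 : 0 < K := by
    have h1 : 0 ≤ 2 * π * A := by positivity
    by_contra hc
    have : K * Real.log 2 ≤ 0 :=
      mul_nonpos_of_nonpos_of_nonneg (not_lt.1 hc) (Real.log_nonneg (by norm_num))
    linarith
  obtain ⟨ρ, hρ, hlen⟩ := exists_short isOpen_ball hF hi hA hvol w (a := r / 2) (b := r)
    (by positivity) (by linarith) (by rw [show r / (r / 2) = 2 by field_simp]; exact hK)
  have hρ0 : 0 < ρ := by linarith [hρ.1]
  have hsub : closedBall w ρ ⊆ ball w r := closedBall_subset_ball hρ.2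
  have hlen' : ∀ u, len (ball w r) F w ρ = u → u ≤ ENNReal.ofReal √K := by
    rintro u rfl
    by_contra hc
    push Not at hc
    have h2 : ENNReal.ofReal √K ^ 2 ≤ len (ball w r) F w ρ ^ 2 := by gcongr
    rw [← ENNReal.ofReal_pow (Real.sqrt_nonneg _), Real.sq_sqrt hK0.le] at h2
    exact absurd hlen (not_lt.2 h2)
  have hlen2 := hlen' _ rfl
  -- oscillation on the circle
  have harc : ∀ θ : ℝ, w + ρ * Complex.exp (θ * Complex.I) ∈ ball w r := by
    intro θ
    rw [mem_ball, dist_eq_norm, add_sub_cancel_left, norm_mul, Complex.norm_exp_ofReal_mul_I,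
      Complex.norm_real, Real.norm_of_nonneg hρ0.le, mul_one]
    exact hρ.2
  have h1 : ∀ θ₁ ∈ Ioo (-π) π, ∀ θ₂ ∈ Ioo (-π) π,
      ‖F (w + ρ * Complex.exp (θ₁ * Complex.I)) - F (w + ρ * Complex.exp (θ₂ * Complex.I))‖ ≤ √K := by
    have key : ∀ θ₁ ∈ Ioo (-π) π, ∀ θ₂ ∈ Ioo (-π) π, θ₁ ≤ θ₂ →
      ‖F (w + ρ * Complex.exp (θ₁ * Complex.I)) - F (w + ρ * Complex.exp (θ₂ * Complex.I))‖ ≤ √K := by
      intro θ₁ ha θ₂ hb hab
      have := (dist_le_len isOpen_ball hF w hρ0 hab ha.1 hb.2 (fun θ _ => harc θ)).trans hlen2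
      rw [← ofReal_norm, ENNReal.ofReal_le_ofReal_iff (Real.sqrt_nonneg _)] at this
      rw [norm_sub_rev]; exact this
    intro θ₁ ha θ₂ hb
    rcases le_total θ₁ θ₂ with hab | hab
    · exact key _ ha _ hb hab
    · rw [norm_sub_rev]; exact key _ hb _ ha hab
  have h2 : ∀ θ₂ ∈ Ioo (-π) π, ∀ u ∈ sphere w ρ,
      ‖F u - F (w + ρ * Complex.exp (θ₂ * Complex.I))‖ ≤ √K := by
    intro θ₂ hb
    have hcl : sphere w ρ ⊆ closure ((fun θ : ℝ => w + ρ * Complex.exp (θ * Complex.I)) '' Ioo (-π) π) := by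
      intro u hu
      rw [mem_sphere, dist_eq_norm] at hu
      have hcont : Continuous fun θ : ℝ => w + ρ * Complex.exp (θ * Complex.I) := by fun_prop
      have h3 : u = w + ρ * Complex.exp ((u - w).arg * Complex.I) := by
        rw [← hu, Complex.norm_mul_exp_arg_mul_I]; ring
      have h4 : (u - w).arg ∈ closure (Ioo (-π) π) := by
        rw [closure_Ioo (by linarith [Real.pi_pos])]
        exact ⟨(Complex.neg_pi_lt_arg _).le, Complex.arg_le_pi _⟩
      rw [h3]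
      exact image_closure_subset_closure_image hcont ⟨_, h4, rfl⟩
    intro u hu
    have h5 : ContinuousOn (fun u => ‖F u - F (w + ρ * Complex.exp (θ₂ * Complex.I))‖)
        (closedBall w ρ) := ((hF.continuousOn.mono hsub).sub continuousOn_const).norm
    have h6 := hcl hu
    rw [mem_closure_iff_clusterPt, ← mem_closure_iff_clusterPt, mem_closure_iff_seq_limit] at h6
    obtain ⟨x, hx, hxu⟩ := h6
    have hxm : ∀ n, x n ∈ closedBall w ρ := by
      intro n
      obtain ⟨θ, _, hθ⟩ := hx n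
      rw [← hθ, mem_closedBall, dist_eq_norm, add_sub_cancel_left, norm_mul,
        Complex.norm_exp_ofReal_mul_I, Complex.norm_real, Real.norm_of_nonneg hρ0.le, mul_one]
    have h7 : Tendsto (fun n => ‖F (x n) - F (w + ρ * Complex.exp (θ₂ * Complex.I))‖) atTop
        (𝓝 ‖F u - F (w + ρ * Complex.exp (θ₂ * Complex.I))‖) :=
      ((h5 u (sphere_subset_closedBall hu)).tendsto).comp
        (tendsto_nhdsWithin_iff.2 ⟨hxu, Eventually.of_forall hxm⟩)
    refine le_of_tendsto' h7 fun n => ?_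
    obtain ⟨θ, hθ, hθx⟩ := hx n
    rw [← hθx]
    exact h1 _ hθ _ hb
  -- maximum principle
  have h0 : (0 : ℝ) ∈ Ioo (-π) π := ⟨by linarith [Real.pi_pos], Real.pi_pos⟩
  have h3 : ∀ u ∈ closedBall w ρ, ‖F u - F (w + ρ * Complex.exp ((0 : ℝ) * Complex.I))‖ ≤ √K := by
    intro u hu
    have hd : DiffContOnCl ℂ (fun u => F u - F (w + ρ * Complex.exp ((0 : ℝ) * Complex.I)))
        (ball w ρ) := by
      refine DifferentiableOn.diffContOnCl ?_
      rw [closure_ball w hρ0.ne']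
      exact (hF.mono hsub).sub (differentiableOn_const _)
    refine Complex.norm_le_of_forall_mem_frontier_norm_le isBounded_ball hd ?_ ?_
    · intro z hz
      rw [frontier_ball w hρ0.ne'] at hz
      exact h2 0 h0 z hz
    · rw [closure_ball w hρ0.ne']; exact hu
  have hzz : ∀ z ∈ closedBall w (r / 2), z ∈ closedBall w ρ := fun z hz =>
    closedBall_subset_closedBall hρ.1.le hz
  calc ‖F z - F z'‖ = ‖(F z - F (w + ρ * Complex.exp ((0 : ℝ) * Complex.I))) -
        (F z' - F (w + ρ * Complex.exp ((0 : ℝ) * Complex.I)))‖ := by congr 1; ring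
    _ ≤ _ := norm_sub_le _ _
    _ ≤ √K + √K := add_le_add (h3 _ (hzz _ hz)) (h3 _ (hzz _ hz'))
    _ = 2 * √K := by ring


theorem Slit.mapsF (h : Slit O F G w0 tip b) {w : ℂ} (hw : w ∈ HP) : F w ∈ O := by
  rw [← h.img]; exact mem_image_of_mem _ hw

theorem Slit.mapsG (h : Slit O F G w0 tip b) {z : ℂ} (hz : z ∈ O) : G z ∈ HP := by
  rw [← h.img] at hz
  obtain ⟨w, hw, rfl⟩ := hz
  rw [h.GF w hw]; exact hw

theorem Slit.FG (h : Slit O F G w0 tip b) {z : ℂ} (hz : z ∈ O) : F (G z) = z := by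
  rw [← h.img] at hz
  obtain ⟨w, hw, rfl⟩ := hz
  rw [h.GF w hw]

theorem Slit.contF (h : Slit O F G w0 tip b) : ContinuousOn F HP := h.dF.continuousOn

/-- Crossing of half circles, one radius. -/
theorem Slit.cross (h : Slit O F G w0 tip b) {A : ℝ → ℂ} {u₁ u₂ ρ : ℝ} (h1 : 0 < u₁)
    (h12 : u₁ ≤ u₂) (hA : ContinuousOn A (Icc u₁ u₂)) (hAO : ∀ u ∈ Icc u₁ u₂, A u ∈ O)
    (ha : dist (G (A u₁)) w0 ≤ ρ) (hb : ρ ≤ dist (G (A u₂)) w0) :
    ∃ u ∈ Icc u₁ u₂, dist (G (A u)) w0 = ρ := by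
  have hc : ContinuousOn (fun u => dist (G (A u)) w0) (Icc u₁ u₂) :=
    continuous_dist.comp_continuousOn
      ((show ContinuousOn (fun u => G (A u)) (Icc u₁ u₂) from h.cG.comp hA hAO).prodMk
        continuousOn_const)
  have := intermediate_value_Icc h12 hc ⟨ha, hb⟩
  obtain ⟨u, hu, hu'⟩ := this
  exact ⟨u, hu, hu'⟩

/-- Short half circles: for every `ε` and all small `s` there is a radius in `(s, 2s)` whose half
circle has an image of diameter at most `ε`. -/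
theorem Slit.short (h : Slit O F G w0 tip b) (x : ℝ) {ε : ℝ} (hε : 0 < ε) :
    ∀ᶠ s in 𝓝[>] (0 : ℝ), ∃ ρ ∈ Ioo s (2 * s), ∀ z z' : ℂ, z ∈ HP → dist z (x : ℂ) = ρ → z' ∈ HP →
      dist z' (x : ℂ) = ρ → ‖F z - F z'‖ ≤ ε := by
  set a : ℝ := ε ^ 2 * Real.log 2 / (4 * π) with ha
  have ha0 : 0 < a := by have := Real.log_pos (show (1 : ℝ) < 2 by norm_num); positivity
  have h1 := (h.area x).comp (show Tendsto (fun s : ℝ => 2 * s) (𝓝[>] 0) (𝓝[>] 0) from by
    refine tendsto_nhdsWithin_iff.2 ⟨?_, ?_⟩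
    · have : Tendsto (fun s : ℝ => 2 * s) (𝓝 0) (𝓝 (2 * 0)) := by
        exact (continuous_const.mul continuous_id).tendsto 0
      rw [mul_zero] at this
      exact this.mono_left nhdsWithin_le_nhds
    · filter_upwards [self_mem_nhdsWithin] with s hs
      simpa using hs)
  rw [ENNReal.tendsto_nhds_zero] at h1
  filter_upwards [h1 (ENNReal.ofReal a) (by simpa using ha0), self_mem_nhdsWithin] with s hs hs0
  have hs0 : 0 < s := hs0
  obtain ⟨ρ, hρ, hρ'⟩ := exists_half_crosscut (ψ := F) (x := x) (a := s) (b := 2 * s) (A := a)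
    (K := ε ^ 2) hs0 (by linarith) (h.dF.mono (hd_sub x _)) (h.injF.mono (hd_sub x _)) ha0.le hs
    (by
      rw [show 2 * s / s = 2 by field_simp, ha]
      have := Real.log_pos (show (1 : ℝ) < 2 by norm_num)
      have h3 : 2 * π * (ε ^ 2 * Real.log 2 / (4 * π)) = ε ^ 2 * Real.log 2 / 2 := by
        have := Real.pi_pos
        field_simp
        ring
      rw [h3]
      have : 0 < ε ^ 2 * Real.log 2 := by positivity
      linarith)
  refine ⟨ρ, hρ, fun z z' hz hzx hz' hzx' => ?_⟩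
  have := hρ' z z' hz hzx hz' hzx'
  exact (abs_le_of_sq_le_sq' this hε.le).2

/-- The curve in `O` to the tip: for small radii the half circle meets it close to the tip. -/
theorem Slit.tip_cross (h : Slit O F G w0 tip b) {ε : ℝ} (hε : 0 < ε) :
    ∃ r₀ > 0, ∀ ρ ∈ Ioo 0 r₀, ∃ w ∈ HP, dist w (w0 : ℂ) = ρ ∧ ‖F w - tip‖ ≤ ε := by
  obtain ⟨γ, hγ, hγO, hγt, hγG⟩ := h.tip
  have h1 : ∀ᶠ u in 𝓝[>] (0 : ℝ), dist (γ u) tip < ε := hγt (ball_mem_nhds tip hε)
  have h1' : ∃ c > 0, c ≤ 1 ∧ ∀ u ∈ Ioc 0 c, dist (γ u) tip < ε := by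
    rw [eventually_nhdsWithin_iff, Metric.eventually_nhds_iff] at h1
    obtain ⟨c, hc, hc'⟩ := h1
    refine ⟨min (c / 2) 1, by positivity, min_le_right _ _, fun u hu => ?_⟩
    have h5 := hu.2.trans (min_le_left _ _)
    refine hc' ?_ hu.1
    rw [Real.dist_eq, sub_zero, abs_of_pos hu.1]; linarith
  obtain ⟨c, hc0, hc1, hc⟩ := h1'
  have hcO := hγO c ⟨hc0, hc1⟩
  have hne : 0 < dist (G (γ c)) w0 := by
    rw [dist_pos]
    intro he
    have := h.mapsG hcO
    rw [he] at this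
    simp [HP] at this
  refine ⟨_, hne, fun ρ hρ => ?_⟩
  have h2 : ∀ᶠ u in 𝓝[>] (0 : ℝ), dist (G (γ u)) w0 < ρ := hγG (ball_mem_nhds _ hρ.1)
  have h3 : Ioo 0 c ∈ 𝓝[>] (0 : ℝ) := Ioo_mem_nhdsGT hc0
  obtain ⟨u, hu, hu'⟩ := (h2.and h3).exists
  have hsub : Icc u c ⊆ Ioc 0 1 := fun v hv => ⟨hu'.1.trans_le hv.1, hv.2.trans hc1⟩
  obtain ⟨v, hv, hv'⟩ := h.cross (A := γ) hu'.1 hu'.2.le (hγ.mono hsub) (fun v hv => hγO v (hsub hv))
    hu.le hρ.2.le
  refine ⟨G (γ v), h.mapsG (hγO v (hsub hv)), hv', ?_⟩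
  rw [h.FG (hγO v (hsub hv)), ← dist_eq_norm]
  exact (hc v ⟨(hsub hv).1, hv.2⟩).le

/-- The radial limit at the tip. -/
theorem Slit.radial (h : Slit O F G w0 tip b) :
    Tendsto (fun s : ℝ => F (w0 + s * Complex.I)) (𝓝[>] 0) (𝓝 tip) := by
  rw [Metric.tendsto_nhds]
  intro ε hε
  obtain ⟨r₀, hr₀, hr⟩ := h.tip_cross (ε := ε / 4) (by positivity)
  set a : ℝ := (ε / 16) ^ 2 * Real.log 2 / (4 * π) with ha
  have hl2 := Real.log_pos (show (1 : ℝ) < 2 by norm_num)
  have hpi := Real.pi_pos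
  have ha0 : 0 < a := by positivity
  have h1 := (h.area w0).comp (show Tendsto (fun s : ℝ => 3 * s) (𝓝[>] 0) (𝓝[>] 0) from by
    refine tendsto_nhdsWithin_iff.2 ⟨?_, ?_⟩
    · have : Tendsto (fun s : ℝ => 3 * s) (𝓝 0) (𝓝 (3 * 0)) := by
        exact (continuous_const.mul continuous_id).tendsto 0
      rw [mul_zero] at this
      exact this.mono_left nhdsWithin_le_nhds
    · filter_upwards [self_mem_nhdsWithin] with s hs
      simpa using hs)
  rw [ENNReal.tendsto_nhds_zero] at h1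
  have h2 : Ioo 0 (r₀ / 2) ∈ 𝓝[>] (0 : ℝ) := Ioo_mem_nhdsGT (by positivity)
  filter_upwards [h1 (ENNReal.ofReal a) (by simpa using ha0), h.short w0 (ε := ε / 4) (by positivity),
    h2] with s hs hsh hs2
  obtain ⟨hs0, hs3⟩ := hs2
  obtain ⟨ρ, hρ, hρ'⟩ := hsh
  obtain ⟨w, hw, hwρ, hwt⟩ := hr ρ ⟨hs0.trans hρ.1, by linarith [hρ.2]⟩
  have hbig : ball ((w0 : ℂ) + (3 / 2 * s : ℝ) * Complex.I) (7 / 5 * s) ⊆ hd w0 (3 * s) := by
    intro z hz
    rw [mem_ball, dist_eq_norm] at hz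
    refine ⟨?_, ?_⟩
    · have h3 := (Complex.abs_im_le_norm _).trans_lt hz
      simp only [Complex.sub_im, Complex.add_im, Complex.ofReal_im, Complex.mul_im,
        Complex.ofReal_re, Complex.I_im, Complex.I_re, mul_one, mul_zero, zero_add, add_zero] at h3
      rw [abs_lt] at h3
      linarith [h3.1]
    · rw [dist_eq_norm]
      calc ‖z - w0‖ = ‖(z - ((w0 : ℂ) + (3 / 2 * s : ℝ) * Complex.I)) +
            (3 / 2 * s : ℝ) * Complex.I‖ := by congr 1; ring
        _ ≤ _ := norm_add_le _ _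
        _ < 7 / 5 * s + 3 / 2 * s := by
          refine add_lt_add_of_lt_of_le hz ?_
          rw [norm_mul, Complex.norm_I, mul_one, Complex.norm_real, Real.norm_of_nonneg (by positivity)]
        _ < 3 * s := by linarith
  have hvol : volume (F '' ball ((w0 : ℂ) + (3 / 2 * s : ℝ) * Complex.I) (7 / 5 * s)) ≤
      ENNReal.ofReal a := (measure_mono (image_mono hbig)).trans hs
  have hcb : ∀ u ∈ Icc s (2 * s), (w0 : ℂ) + u * Complex.I ∈
      closedBall ((w0 : ℂ) + (3 / 2 * s : ℝ) * Complex.I) (7 / 5 * s / 2) := by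
    intro u hu
    rw [mem_closedBall, dist_eq_norm]
    have : (w0 : ℂ) + u * Complex.I - ((w0 : ℂ) + (3 / 2 * s : ℝ) * Complex.I) =
        ((u - 3 / 2 * s : ℝ) : ℂ) * Complex.I := by push_cast; ring
    rw [this, norm_mul, Complex.norm_I, mul_one, Complex.norm_real, Real.norm_eq_abs, abs_le]
    constructor <;> linarith [hu.1, hu.2]
  have hosc := osc_le (F := F) (by positivity) (h.dF.mono (hbig.trans (hd_sub _ _)))
    (h.injF.mono (hbig.trans (hd_sub _ _))) ha0.le hvol (K := (ε / 16) ^ 2) (by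
      have h3 : 2 * π * ((ε / 16) ^ 2 * Real.log 2 / (4 * π)) = (ε / 16) ^ 2 * Real.log 2 / 2 := by
        field_simp
        ring
      rw [ha, h3]
      have : 0 < (ε / 16) ^ 2 * Real.log 2 := by positivity
      linarith)
    (hcb s ⟨le_rfl, by linarith⟩) (hcb ρ ⟨hρ.1.le, hρ.2.le⟩)
  rw [Real.sqrt_sq (by positivity)] at hosc
  have hρw : dist ((w0 : ℂ) + ρ * Complex.I) (w0 : ℂ) = ρ := by
    rw [dist_eq_norm, add_sub_cancel_left, norm_mul, Complex.norm_I, mul_one, Complex.norm_real,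
      Real.norm_of_nonneg (hs0.trans hρ.1).le]
  have hρH : (w0 : ℂ) + ρ * Complex.I ∈ HP := by
    simp [HP, hs0.trans hρ.1]
  have h5 := hρ' _ _ hρH hρw hw hwρ
  rw [dist_eq_norm]
  calc ‖F (w0 + s * Complex.I) - tip‖ = ‖(F (w0 + s * Complex.I) - F (w0 + ρ * Complex.I)) +
        (F (w0 + ρ * Complex.I) - F w) + (F w - tip)‖ := by congr 1; ring
    _ ≤ _ := norm_add₃_le
    _ ≤ 2 * (ε / 16) + ε / 4 + ε / 4 := by gcongr
    _ < ε := by linarith


theorem mem_HP_vert (w0 : ℝ) {s : ℝ} (hs : 0 < s) : (w0 : ℂ) + s * Complex.I ∈ HP := by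
  simp [HP, hs]

/-- The vertical line above `w0` is far from the compact parts of the boundary away from the tip
and from `b`. -/
theorem Slit.vert_far (h : Slit O F G w0 tip b) {K : Set ℂ} (hK : IsClosed K)
    (hKO : Disjoint K O) (ht : tip ∉ K) (hb : b ∉ K) :
    ∃ ε > 0, ∀ s : ℝ, 0 < s → ∀ p ∈ K, ε ≤ dist (F (w0 + s * Complex.I)) p := by
  have near : ∀ q : ℂ, q ∉ K → ∃ ε > 0, ∀ z, dist z q < ε → ∀ p ∈ K, ε ≤ dist z p := by
    intro q hq
    obtain ⟨ε, hε, hεK⟩ := Metric.isOpen_iff.1 hK.isOpen_compl q hq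
    refine ⟨ε / 2, by positivity, fun z hz p hp => ?_⟩
    by_contra hc
    push Not at hc
    have : p ∈ ball q ε := by
      rw [mem_ball]
      calc dist p q ≤ dist p z + dist z q := dist_triangle _ _ _
        _ < ε / 2 + ε / 2 := by rw [dist_comm p z]; exact add_lt_add hc hz
        _ = ε := by ring
    exact hεK this hp
  obtain ⟨ε₁, hε₁, h1⟩ := near tip ht
  obtain ⟨ε₂, hε₂, h2⟩ := near b hb
  have h3 : ∀ᶠ s : ℝ in 𝓝[>] (0 : ℝ), dist (F (w0 + s * Complex.I)) tip < ε₁ :=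
    h.radial (ball_mem_nhds tip hε₁)
  obtain ⟨s₁, hs₁, h3'⟩ : ∃ s₁ : ℝ, 0 < s₁ ∧
      ∀ s ∈ Ioo 0 s₁, dist (F (w0 + (s : ℝ) * Complex.I)) tip < ε₁ := by
    rw [eventually_nhdsWithin_iff, Metric.eventually_nhds_iff] at h3
    obtain ⟨c, hc, hc'⟩ := h3
    refine ⟨c, hc, fun s hs => hc' ?_ hs.1⟩
    rw [Real.dist_eq, sub_zero, abs_of_pos hs.1]; exact hs.2
  have h4 : ∀ᶠ s : ℝ in atTop, dist (F (w0 + s * Complex.I)) b < ε₂ := by
    have ht : Tendsto (fun s : ℝ => (w0 : ℂ) + s * Complex.I) atTop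
        (Bornology.cobounded ℂ ⊓ 𝓟 HP) := by
      refine tendsto_inf.2 ⟨?_, ?_⟩
      · rw [← tendsto_norm_atTop_iff_cobounded]
        refine tendsto_atTop_mono (f := fun s => s) (fun s => ?_) tendsto_id
        calc s ≤ |((w0 : ℂ) + s * Complex.I).im| := by simp [le_abs_self]
          _ ≤ _ := Complex.abs_im_le_norm _
      · rw [tendsto_principal]
        filter_upwards [eventually_gt_atTop 0] with s hs
        exact mem_HP_vert w0 hs
    exact (h.inf.comp ht) (ball_mem_nhds b hε₂)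
  obtain ⟨s₂, hs₂⟩ := eventually_atTop.1 h4
  have hC : IsCompact ((fun s : ℝ => F (w0 + s * Complex.I)) '' Icc s₁ s₂) := by
    refine isCompact_Icc.image_of_continuousOn ?_
    refine h.contF.comp (by fun_prop) fun s hs => mem_HP_vert w0 (hs₁.trans_le hs.1)
  have hCK : Disjoint ((fun s : ℝ => F (w0 + s * Complex.I)) '' Icc s₁ s₂) K := by
    rw [Set.disjoint_left]
    rintro _ ⟨s, hs, rfl⟩ hk
    exact Set.disjoint_left.1 hKO hk (h.mapsF (mem_HP_vert w0 (hs₁.trans_le hs.1)))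
  obtain ⟨ε₃, hε₃, h5⟩ := hCK.exists_thickenings hC hK
  refine ⟨min ε₁ (min ε₂ ε₃), by positivity, fun s hs p hp => ?_⟩
  rcases lt_or_ge s s₁ with hs1 | hs1
  · exact (min_le_left _ _).trans (h1 _ (h3' s ⟨hs, hs1⟩) p hp)
  · rcases le_or_gt s₂ s with hs2 | hs2
    · exact ((min_le_right _ _).trans (min_le_left _ _)).trans (h2 _ (hs₂ s hs2) p hp)
    · refine ((min_le_right _ _).trans (min_le_right _ _)).trans ?_
      by_contra hc
      push Not at hc
      have ha : F (w0 + s * Complex.I) ∈ thickening ε₃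
          ((fun s : ℝ => F (w0 + s * Complex.I)) '' Icc s₁ s₂) :=
        self_subset_thickening hε₃ _ ⟨s, ⟨hs1, hs2.le⟩, rfl⟩
      have hb' : F (w0 + s * Complex.I) ∈ thickening ε₃ K :=
        mem_thickening_iff.2 ⟨p, hp, hc⟩
      exact Set.disjoint_left.1 h5 ha hb'

/-- A connected set close to `K` stays on one side of the vertical line. -/
theorem Slit.one_side (h : Slit O F G w0 tip b) {K T : Set ℂ} {ε : ℝ}
    (hε : ∀ s : ℝ, 0 < s → ∀ p ∈ K, ε ≤ dist (F (w0 + s * Complex.I)) p)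
    (hT : IsPreconnected T) (hTO : T ⊆ O) (hTK : ∀ z ∈ T, ∃ p ∈ K, dist z p < ε) :
    (∀ z ∈ T, w0 < (G z).re) ∨ (∀ z ∈ T, (G z).re < w0) := by
  have hno : ∀ z ∈ T, (G z).re ≠ w0 := by
    intro z hz he
    obtain ⟨p, hp, hzp⟩ := hTK z hz
    have h1 : G z = w0 + (G z).im * Complex.I := by
      conv_lhs => rw [← Complex.re_add_im (G z), he]
    have h2 := hε (G z).im (h.mapsG (hTO hz)) p hp
    rw [← h1, h.FG (hTO hz)] at h2
    linarith
  have hc : ContinuousOn (fun z => (G z).re) T :=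
    Complex.continuous_re.comp_continuousOn (h.cG.mono hTO)
  by_contra hcon
  push Not at hcon
  obtain ⟨⟨z, hz, hz'⟩, ⟨y, hy, hy'⟩⟩ := hcon
  have h3 := hT.intermediate_value hz hy hc
  obtain ⟨x, hx, hx'⟩ := h3 ⟨hz', hy'⟩
  exact hno x hx hx'

/-- Accumulation points in the half-plane of the image of a path to a boundary point other than the
tip and `b`: they are real. -/
theorem Slit.acc (h : Slit O F G w0 tip b) {ι : Type*} {l : Ultrafilter ι} {A : ι → ℂ} {q : ℂ}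
    (hAO : ∀ᶠ u in (l : Filter ι), A u ∈ O) (hA : Tendsto A l (𝓝 q)) (hq : q ∉ O) (hqb : q ≠ b) :
    ∃ x : ℝ, Tendsto (fun u => G (A u)) l (𝓝 (x : ℂ)) := by
  have hGH : ∀ᶠ u in (l : Filter ι), G (A u) ∈ HP := hAO.mono fun u hu => h.mapsG hu
  have hFG : ∀ᶠ u in (l : Filter ι), F (G (A u)) = A u := hAO.mono fun u hu => h.FG hu
  have hne : (l : Filter ι).NeBot := l.neBot
  by_cases hbd : ∃ R : ℝ, ∀ᶠ u in (l : Filter ι), ‖G (A u)‖ ≤ R
  · obtain ⟨R, hR⟩ := hbd
    have hcomp : IsCompact (closedBall (0 : ℂ) R) := isCompact_closedBall _ _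
    have h1 : (l.map fun u => G (A u)) ≤ 𝓟 (closedBall (0 : ℂ) R) := by
      rw [le_principal_iff]
      exact hR.mono fun u hu => by simpa using hu
    obtain ⟨x, hx, hxl⟩ := isCompact_iff_ultrafilter_le_nhds.1 hcomp (l.map fun u => G (A u)) h1
    have hxt : Tendsto (fun u => G (A u)) l (𝓝 x) := hxl
    have him : 0 ≤ x.im := by
      refine ge_of_tendsto ((Complex.continuous_im.tendsto x).comp hxt) ?_
      exact hGH.mono fun u hu => le_of_lt hu
    rcases him.lt_or_eq with hpos | hzero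
    · exfalso
      have h2 : Tendsto (fun u => F (G (A u))) l (𝓝 (F x)) :=
        (h.contF.continuousAt (isOpen_HP.mem_nhds hpos)).tendsto.comp hxt
      have h3 : q = F x := tendsto_nhds_unique hA (h2.congr' hFG)
      exact hq (h3 ▸ h.mapsF hpos)
    · refine ⟨x.re, ?_⟩
      have : ((x.re : ℝ) : ℂ) = x := by
        apply Complex.ext <;> simp [← hzero]
      rw [this]; exact hxt
  · exfalso
    push Not at hbd
    have h1 : Tendsto (fun u => G (A u)) l (Bornology.cobounded ℂ ⊓ 𝓟 HP) := by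
      refine tendsto_inf.2 ⟨?_, tendsto_principal.2 hGH⟩
      rw [← tendsto_norm_atTop_iff_cobounded, Filter.tendsto_atTop]
      intro R
      exact (hbd R).mono fun u hu => hu.le
    have h2 := (h.inf.comp h1)
    have h3 : b = q := tendsto_nhds_unique (h2.congr' hFG) hA
    exact hqb h3.symm

/-- The image of a path to a boundary point other than the tip does not accumulate at `w0`. -/
theorem Slit.away (h : Slit O F G w0 tip b) {A : ℝ → ℂ} {q : ℂ} (hAc : ContinuousOn A (Ioc 0 1))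
    (hAO : ∀ u ∈ Ioc (0 : ℝ) 1, A u ∈ O) (hA : Tendsto A (𝓝[>] 0) (𝓝 q)) (hq : q ≠ tip) :
    ∃ c > 0, ∀ᶠ u in 𝓝[>] (0 : ℝ), c ≤ dist (G (A u)) w0 := by
  by_contra hcon
  push Not at hcon
  have hd : 0 < dist q tip := dist_pos.2 hq
  set ε := dist q tip / 4 with hε
  have hε0 : 0 < ε := by positivity
  obtain ⟨r₀, hr₀, hr⟩ := h.tip_cross hε0
  have h1 : ∀ᶠ u in 𝓝[>] (0 : ℝ), dist (A u) q < ε := hA (ball_mem_nhds q hε0)
  obtain ⟨c, hc0, hc1, hc⟩ : ∃ c > 0, c ≤ 1 ∧ ∀ u ∈ Ioc 0 c, dist (A u) q < ε := by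
    rw [eventually_nhdsWithin_iff, Metric.eventually_nhds_iff] at h1
    obtain ⟨c, hc, hc'⟩ := h1
    refine ⟨min (c / 2) 1, by positivity, min_le_right _ _, fun u hu => ?_⟩
    have h5 := hu.2.trans (min_le_left _ _)
    refine hc' ?_ hu.1
    rw [Real.dist_eq, sub_zero, abs_of_pos hu.1]; linarith
  have hcO := hAO c ⟨hc0, hc1⟩
  have hne : 0 < dist (G (A c)) w0 := by
    rw [dist_pos]
    intro he
    have := h.mapsG hcO
    rw [he] at this
    simp [HP] at this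
  have h2 : Ioo 0 (min r₀ (dist (G (A c)) w0) / 2) ∈ 𝓝[>] (0 : ℝ) := Ioo_mem_nhdsGT (by positivity)
  obtain ⟨s, ⟨ρ, hρ, hρ'⟩, hs0, hs1⟩ := ((h.short w0 hε0).and h2).exists
  have hρ0 : 0 < ρ := hs0.trans hρ.1
  have hρ1 : ρ < min r₀ (dist (G (A c)) w0) := by linarith [hρ.2]
  obtain ⟨w, hw, hwρ, hwt⟩ := hr ρ ⟨hρ0, hρ1.trans_le (min_le_left _ _)⟩
  have h3 := hcon ρ hρ0
  have h4 : Ioo 0 c ∈ 𝓝[>] (0 : ℝ) := Ioo_mem_nhdsGT hc0
  obtain ⟨u, hu, hu'⟩ := (h3.and_eventually h4).exists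
  have hsub : Icc u c ⊆ Ioc 0 1 := fun v hv => ⟨hu'.1.trans_le hv.1, hv.2.trans hc1⟩
  obtain ⟨v, hv, hv'⟩ := h.cross (A := A) hu'.1 hu'.2.le (hAc.mono hsub)
    (fun v hv => hAO v (hsub hv)) hu.le (hρ1.le.trans (min_le_right _ _))
  have hvO := hAO v (hsub hv)
  have h5 := hρ' _ _ (h.mapsG hvO) hv' hw hwρ
  rw [h.FG hvO] at h5
  have h6 := hc v ⟨(hsub hv).1, hv.2⟩
  have : dist q tip ≤ ε + ε + ε := by
    calc dist q tip ≤ dist q (A v) + dist (A v) tip := dist_triangle _ _ _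
      _ ≤ dist q (A v) + (dist (A v) (F w) + dist (F w) tip) := by
        gcongr; exact dist_triangle _ _ _
      _ ≤ ε + (ε + ε) := by
        refine add_le_add ?_ (add_le_add ?_ ?_)
        · rw [dist_comm]; exact h6.le
        · rw [dist_eq_norm]; exact h5
        · rw [dist_eq_norm]; exact hwt
      _ = _ := by ring
  linarith

/-- Real accumulation points on the right of `w0`: the argument tends to `0`. -/
theorem Slit.arg_zero (h : Slit O F G w0 tip b) {A : ℝ → ℂ} {q : ℂ} (hAc : ContinuousOn A (Ioc 0 1))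
    (hAO : ∀ u ∈ Ioc (0 : ℝ) 1, A u ∈ O) (hA : Tendsto A (𝓝[>] 0) (𝓝 q)) (hqO : q ∉ O)
    (hq : q ≠ tip) (hqb : q ≠ b) (hre : ∀ᶠ u in 𝓝[>] (0 : ℝ), w0 < (G (A u)).re) :
    Tendsto (fun u => (G (A u) - w0).arg) (𝓝[>] 0) (𝓝 0) := by
  obtain ⟨c, hc0, hc⟩ := h.away hAc hAO hA hq
  rw [tendsto_iff_ultrafilter]
  intro l hl
  have hl' : (l : Filter ℝ) ≤ 𝓝[>] 0 := hl
  have hO : ∀ᶠ u in (l : Filter ℝ), A u ∈ O := by
    refine hl' ?_
    filter_upwards [Ioc_mem_nhdsGT one_pos] with u hu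
    exact hAO u hu
  obtain ⟨x, hx⟩ := h.acc hO (hA.mono_left hl') hqO hqb
  have h1 : w0 ≤ x := by
    have := ge_of_tendsto ((Complex.continuous_re.tendsto _).comp hx) ((show ∀ᶠ u in (l : Filter ℝ), _ from hl' hre).mono fun u hu => le_of_lt hu)
    simpa using this
  have h2 : c ≤ dist (x : ℂ) w0 := ge_of_tendsto (hx.dist tendsto_const_nhds) (hl' hc)
  have h3 : x ≠ w0 := by
    rintro rfl
    rw [dist_self] at h2
    linarith
  have h4 : w0 < x := lt_of_le_of_ne h1 h3.symm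
  have h5 : Tendsto (fun u => G (A u) - w0) l (𝓝 ((x : ℂ) - w0)) := hx.sub tendsto_const_nhds
  have h6 : ContinuousAt Complex.arg ((x : ℂ) - w0) := by
    refine Complex.continuousAt_arg (Or.inl ?_)
    simp [h4]
  have h7 : ((x : ℂ) - w0).arg = 0 := by
    rw [← Complex.ofReal_sub, Complex.arg_ofReal_of_nonneg (by linarith)]
  have h8 := h6.tendsto.comp h5
  rw [h7] at h8
  exact h8

/-- Real accumulation points on the left of `w0`: the argument tends to `π`. -/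
theorem Slit.arg_pi (h : Slit O F G w0 tip b) {A : ℝ → ℂ} {q : ℂ} (hAc : ContinuousOn A (Ioc 0 1))
    (hAO : ∀ u ∈ Ioc (0 : ℝ) 1, A u ∈ O) (hA : Tendsto A (𝓝[>] 0) (𝓝 q)) (hqO : q ∉ O)
    (hq : q ≠ tip) (hqb : q ≠ b) (hre : ∀ᶠ u in 𝓝[>] (0 : ℝ), (G (A u)).re < w0) :
    Tendsto (fun u => (G (A u) - w0).arg) (𝓝[>] 0) (𝓝 π) := by
  obtain ⟨c, hc0, hc⟩ := h.away hAc hAO hA hq
  rw [tendsto_iff_ultrafilter]
  intro l hl
  have hl' : (l : Filter ℝ) ≤ 𝓝[>] 0 := hl
  have hO : ∀ᶠ u in (l : Filter ℝ), A u ∈ O := by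
    refine hl' ?_
    filter_upwards [Ioc_mem_nhdsGT one_pos] with u hu
    exact hAO u hu
  obtain ⟨x, hx⟩ := h.acc hO (hA.mono_left hl') hqO hqb
  have h1 : x ≤ w0 := by
    have := le_of_tendsto ((Complex.continuous_re.tendsto _).comp hx) ((show ∀ᶠ u in (l : Filter ℝ), _ from hl' hre).mono fun u hu => le_of_lt hu)
    simpa using this
  have h2 : c ≤ dist (x : ℂ) w0 := ge_of_tendsto (hx.dist tendsto_const_nhds) (hl' hc)
  have h3 : x ≠ w0 := by
    rintro rfl
    rw [dist_self] at h2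
    linarith
  have h4 : x < w0 := lt_of_le_of_ne h1 h3
  have h5 : Tendsto (fun u => G (A u) - w0) l (𝓝[{z | 0 ≤ z.im}] ((x : ℂ) - w0)) := by
    refine tendsto_nhdsWithin_iff.2 ⟨hx.sub tendsto_const_nhds, ?_⟩
    filter_upwards [hO] with u hu
    have := h.mapsG hu
    simp only [mem_setOf_eq, Complex.sub_im, Complex.ofReal_im, sub_zero]
    exact le_of_lt this
  have h6 := Complex.tendsto_arg_nhdsWithin_im_nonneg_of_re_neg_of_im_zero
    (z := (x : ℂ) - w0) (by simp [h4]) (by simp)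
  exact h6.comp h5

end Vale.Agent.P153.R2.INTF
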