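import Vale.Agent.P153.R2.INTF.Poly
import Vale.Agent.P153.R2.INTF.Real
import Vale.Agent.P153.R2.POLY.Dom
import Vale.Agent.P153.R2.R1.PolyC
import Vale.Agent.P153.R2.STEP.Can

/-!
P153, block INTF: the two boundary arcs of the domain of a lattice polygon are mapped to the two
real half-lines, by the uniformizer and, relatively to the tip, by the maps of the slit domains:
instance of `Sided`.
-/

set_option linter.all false

namespace Vale.Agent.P153.R2.INTF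

open Set Filter Topology Metric Function
open Vale.Agent.P153 Vale.Agent.P153.Topo
open Vale.Agent.P153.R2.Final (IsPolygon Encloses IsEdge Side Heights mid toC pt region)
open Vale.Agent.P153.R2.DRV (Pos st sg Mn Pn Cs ru nu sh et pl)
open Vale.Agent.P153.R2.FLDI (inn adjF polyF enclF)
open Vale.Agent.P153.R2.UNIQ (bptD IsUnifD)
open Vale.Agent.P153.R2.L1 (HH IsHydro)
open Vale.Agent.P153.R2.L2 (Crv gg ww)
open Vale.Agent.P153.R2.R1 (PF PV)

variable {n : ℕ} {p : ZMod n → ℤ × ℤ} {S : Finset Tri} {k : ℕ} {δ : ℝ} {ψ : ℂ → ℂ}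

/-- The inverse of the uniformizer on the closed half-plane. -/
noncomputable def ph (ψ : ℂ → ℂ) : ℂ → ℂ := invFunOn ψ {z : ℂ | 0 ≤ z.im}

theorem ph_eq (hU : IsUnifD p k S δ ψ) {z : ℂ} (hz : 0 ≤ z.im) : ph ψ (ψ z) = z :=
  STEP.inv_eq hU.injOn hz

theorem ph_cont (hU : IsUnifD p k S δ ψ) : ContinuousOn (ph ψ) (ψ '' {z : ℂ | 0 ≤ z.im}) :=
  STEP.inv_cont hU.cont hU.injOn hU.inf hU.ne

theorem Reg_int (δ : ℝ) (S : Finset Tri) : interior (Reg δ S) = toC '' interior (region δ S) :=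
  (POLY.DC_eq_interior δ S).symm

theorem ph_mem (hU : IsUnifD p k S δ ψ) {z : ℂ} (hz : z ∈ interior (Reg δ S)) :
    0 < (ph ψ z).im ∧ ψ (ph ψ z) = z := by
  rw [Reg_int, ← hU.image] at hz
  obtain ⟨w, hw, rfl⟩ := hz
  have hw' : 0 < w.im := hw
  rw [ph_eq hU hw'.le]
  exact ⟨hw', rfl⟩

/-- The closed domain without the end point is the image of the closed half-plane. -/
theorem closure_sub (hU : IsUnifD p k S δ ψ) {z : ℂ} (hz : z ∈ closure (interior (Reg δ S)))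
    (hzb : z ≠ bptD p k δ) : z ∈ ψ '' {w : ℂ | 0 ≤ w.im} := by
  have hd : 0 < dist z (bptD p k δ) := dist_pos.2 hzb
  obtain ⟨R, hR⟩ := STEP.exists_far hU.inf (half_pos hd)
  have hK : IsCompact ({w : ℂ | 0 ≤ w.im} ∩ closedBall (0 : ℂ) R) :=
    (isCompact_closedBall _ _).inter_left (isClosed_le continuous_const Complex.continuous_im)
  have hKi : IsCompact (ψ '' ({w : ℂ | 0 ≤ w.im} ∩ closedBall (0 : ℂ) R)) :=
    hK.image_of_continuousOn (hU.cont.mono inter_subset_left)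
  have h1 : z ∈ closure (ψ '' ({w : ℂ | 0 ≤ w.im} ∩ closedBall (0 : ℂ) R)) := by
    rw [Metric.mem_closure_iff] at hz ⊢
    intro ε hε
    obtain ⟨y, hy, hzy⟩ := hz (min ε (dist z (bptD p k δ) / 2)) (lt_min hε (half_pos hd))
    rw [Reg_int, ← hU.image] at hy
    obtain ⟨w, hw, rfl⟩ := hy
    have hw' : 0 < w.im := hw
    refine ⟨ψ w, ⟨w, ⟨hw'.le, ?_⟩, rfl⟩, hzy.trans_le (min_le_left _ _)⟩
    rw [mem_closedBall, dist_zero_right]
    by_contra hc
    push Not at hc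
    have h2 := hR w hw'.le hc
    have h3 := hzy.trans_le (min_le_right _ _)
    have h4 := dist_triangle z (ψ w) (bptD p k δ)
    linarith
  rw [hKi.isClosed.closure_eq] at h1
  obtain ⟨w, hw, rfl⟩ := h1
  exact ⟨w, hw.1, rfl⟩

/-- The points of the boundary, except the end point, correspond to the real points. -/
theorem frontier_real (hU : IsUnifD p k S δ ψ) {z : ℂ} (hz : z ∈ frontier (interior (Reg δ S)))
    (hzb : z ≠ bptD p k δ) : ∃ x : ℝ, ψ x = z ∧ ph ψ z = x := by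
  obtain ⟨w, hw, rfl⟩ := closure_sub hU (frontier_subset_closure hz) hzb
  have hw0 : w.im = 0 := by
    by_contra hc
    have hw1 : 0 < w.im := lt_of_le_of_ne hw (Ne.symm hc)
    have h1 : ψ w ∈ interior (Reg δ S) := by
      rw [Reg_int, ← hU.image]
      exact ⟨w, hw1, rfl⟩
    rw [isOpen_interior.frontier_eq] at hz
    exact hz.2 h1
  have hwr : w = (w.re : ℂ) := Complex.ext rfl (by simpa using hw0)
  refine ⟨w.re, by rw [← hwr], ?_⟩
  rw [← hwr]
  exact ph_eq hU hw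

theorem real_frontier (hU : IsUnifD p k S δ ψ) (x : ℝ) : ψ x ∈ frontier (interior (Reg δ S)) := by
  rw [isOpen_interior.frontier_eq]
  have hx : (x : ℂ) ∈ {w : ℂ | 0 ≤ w.im} := by simp
  constructor
  · have h1 : (x : ℂ) ∈ closure {w : ℂ | 0 < w.im} := by
      rw [Complex.closure_setOf_lt_im]
      simp
    have h2 : ContinuousWithinAt ψ {w : ℂ | 0 < w.im} x :=
      (hU.cont _ hx).mono fun w hw => le_of_lt (α := ℝ) hw
    have h3 := h2.mem_closure_image h1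
    rw [hU.image, ← Reg_int] at h3
    exact h3
  · intro hc
    rw [Reg_int, ← hU.image] at hc
    obtain ⟨w, hw, he⟩ := hc
    have hw' : 0 < w.im := hw
    have := hU.injOn (show w ∈ {w : ℂ | 0 ≤ w.im} from hw'.le) hx he
    rw [this] at hw'
    simp at hw'

theorem PV_PP (i : ℤ) : PV p δ i = PP δ (p i) := rfl

theorem PF_half : PF p δ (-(1 / 2)) = mid δ (p (-1)) (p 0) := by
  rw [PF, R1.pl_eq (PV p δ) (-1) (by push_cast; norm_num) (by push_cast; norm_num)]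
  have e1 : ((-1 : ℤ) : ZMod n) = -1 := by push_cast; rfl
  have e2 : ((-1 + 1 : ℤ) : ZMod n) = 0 := by push_cast; ring
  simp only [PV, e1, e2]
  apply Complex.ext <;> simp [mid, toC, pt] <;> ring

theorem PF_khalf : PF p δ ((k : ℝ) - 1 / 2) = bptD p k δ := by
  rw [PF, R1.pl_eq (PV p δ) ((k : ℤ) - 1) (by push_cast; linarith) (by push_cast; linarith)]
  have e1 : (((k : ℤ) - 1 : ℤ) : ZMod n) = (k : ZMod n) - 1 := by push_cast; rfl
  have e2 : (((k : ℤ) - 1 + 1 : ℤ) : ZMod n) = (k : ZMod n) := by push_cast; ring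
  simp only [PV, e1, e2, bptD]
  apply Complex.ext <;> simp [mid, toC, pt] <;> ring

theorem frontier_PF (hδ : 0 < δ) (hp : IsPolygon p) (hS : Encloses p S) :
    frontier (interior (Reg δ S)) = range (PF p δ) := by
  have hn : n ≠ 0 := by have := hp.1; omega
  rw [Reg_int, R1.range_PF hn]
  exact POLY.frontier_DC hδ hp hS

/-- The parameters of the two arcs. -/
theorem PF_ne (hδ : 0 < δ) (hp : IsPolygon p) (hk : 0 < k) (hkn : k < n) {t : ℝ}
    (ht : t ∈ Ioo (-(1 / 2) : ℝ) (k - 1 / 2) ∨ t ∈ Ioo ((k : ℝ) - 1 / 2) (n - 1 / 2)) :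
    PF p δ t ≠ mid δ (p (-1)) (p 0) ∧ PF p δ t ≠ bptD p k δ := by
  have hJ := R1.jcurve_PF hδ hp
  have hk1 : (1 : ℝ) ≤ k := by exact_mod_cast hk
  have hkn1 : (k : ℝ) + 1 ≤ n := by exact_mod_cast hkn
  have hn0 : (0 : ℝ) < n := by linarith
  constructor
  · rw [← PF_half]
    intro hc
    obtain ⟨j, hj⟩ := hJ.inj _ _ hc
    have h1 : -(1 / 2 : ℝ) < t ∧ t < n - 1 / 2 := by
      rcases ht with ht | ht
      · exact ⟨ht.1, by linarith [ht.2]⟩
      · exact ⟨by linarith [ht.1], ht.2⟩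
    have h2 : (0 : ℝ) < j * n := by linarith [h1.1]
    have h3 : (j : ℝ) * n < n := by linarith [h1.2]
    have h4 : (0 : ℝ) < j := by
      by_contra hcc
      push Not at hcc
      nlinarith
    have h5 : (1 : ℝ) ≤ j := by exact_mod_cast (by exact_mod_cast h4 : (0 : ℤ) < j)
    nlinarith
  · rw [← PF_khalf]
    intro hc
    obtain ⟨j, hj⟩ := hJ.inj _ _ hc
    have h1 : -(1 / 2 : ℝ) < t ∧ t < n - 1 / 2 ∧ t ≠ k - 1 / 2 := by
      rcases ht with ht | ht
      · exact ⟨ht.1, by linarith [ht.2], ht.2.ne⟩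
      · exact ⟨by linarith [ht.1], ht.2, ht.1.ne'⟩
    have h2 : j ≠ 0 := by
      rintro rfl
      apply h1.2.2
      rw [hj]; simp
    rcases lt_or_gt_of_ne h2 with h3 | h3
    · have h4 : (j : ℝ) ≤ -1 := by exact_mod_cast (by omega : j ≤ -1)
      nlinarith [h1.1]
    · have h4 : (1 : ℝ) ≤ j := by exact_mod_cast (by omega : (1 : ℤ) ≤ j)
      nlinarith [h1.2.1]

/-- Every point of the boundary is an end point or is in one of the arcs. -/
theorem PF_cases (hδ : 0 < δ) (hp : IsPolygon p) (hS : Encloses p S) (hk : 0 < k) (hkn : k < n)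
    {z : ℂ} (hz : z ∈ frontier (interior (Reg δ S))) (ha : z ≠ mid δ (p (-1)) (p 0))
    (hb : z ≠ bptD p k δ) : ∃ t : ℝ, PF p δ t = z ∧
      (t ∈ Ioo (-(1 / 2) : ℝ) (k - 1 / 2) ∨ t ∈ Ioo ((k : ℝ) - 1 / 2) (n - 1 / 2)) := by
  rw [frontier_PF hδ hp hS] at hz
  obtain ⟨x, rfl⟩ := hz
  have hJ := R1.jcurve_PF hδ hp
  have hn0 : (0 : ℝ) < n := hJ.pos
  set t := x - n * ⌊(x + 1 / 2) / n⌋ with ht
  have h1 : PF p δ t = PF p δ x := by
    have := R1.per_int hJ.per (-⌊(x + 1 / 2) / n⌋) x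
    rw [← this]
    congr 1
    rw [ht]; push_cast; ring
  have h2 := Int.floor_le ((x + 1 / 2) / n)
  have h3 := Int.lt_floor_add_one ((x + 1 / 2) / n)
  rw [le_div_iff₀ hn0] at h2
  rw [div_lt_iff₀ hn0] at h3
  have h4 : -(1 / 2 : ℝ) ≤ t := by rw [ht]; linarith
  have h5 : t < n - 1 / 2 := by rw [ht]; linarith
  have h6 : t ≠ -(1 / 2) := by
    intro hc; rw [← h1, hc] at ha; exact ha PF_half
  have h7 : t ≠ k - 1 / 2 := by
    intro hc; rw [← h1, hc] at hb; exact hb PF_khalf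
  refine ⟨t, h1, ?_⟩
  rcases lt_or_gt_of_ne h7 with h8 | h8
  · exact Or.inl ⟨lt_of_le_of_ne h4 (Ne.symm h6), h8⟩
  · exact Or.inr ⟨h8, h5⟩

theorem sign_const {f : ℝ → ℝ} {I : Set ℝ} (hI : IsPreconnected I) (hf : ContinuousOn f I)
    (h0 : ∀ t ∈ I, f t ≠ 0) : (∀ t ∈ I, 0 < f t) ∨ (∀ t ∈ I, f t < 0) := by
  by_contra hc
  push Not at hc
  obtain ⟨⟨t, ht, h1⟩, ⟨u, hu, h2⟩⟩ := hc
  obtain ⟨v, hv, h3⟩ := hI.intermediate_value ht hu hf ⟨h1, h2⟩
  exact h0 v hv h3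

/-- **The arcs are mapped to the half-lines.** -/
theorem arc_sign (hδ : 0 < δ) (hp : IsPolygon p) (hS : Encloses p S) (hk : 0 < k) (hkn : k < n)
    (hU : IsUnifD p k S δ ψ) : ∃ τ : ℝ, (τ = 1 ∨ τ = -1) ∧
      (∀ t ∈ Ioo (-(1 / 2) : ℝ) (k - 1 / 2), 0 < -τ * (ph ψ (PF p δ t)).re) ∧
      (∀ t ∈ Ioo ((k : ℝ) - 1 / 2) (n - 1 / 2), 0 < τ * (ph ψ (PF p δ t)).re) := by
  set I₁ := Ioo (-(1 / 2) : ℝ) (k - 1 / 2) with hI₁
  set I₂ := Ioo ((k : ℝ) - 1 / 2) (n - 1 / 2) with hI₂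
  have hfr : ∀ t : ℝ, PF p δ t ∈ frontier (interior (Reg δ S)) := fun t => by
    rw [frontier_PF hδ hp hS]; exact ⟨t, rfl⟩
  have hne : ∀ t : ℝ, (t ∈ I₁ ∨ t ∈ I₂) → (ph ψ (PF p δ t)).re ≠ 0 := by
    intro t ht hc
    obtain ⟨h1, h2⟩ := PF_ne (p := p) (k := k) hδ hp hk hkn ht
    obtain ⟨x, hx1, hx2⟩ := frontier_real hU (hfr t) h2
    rw [hx2] at hc
    simp only [Complex.ofReal_re] at hc
    rw [hc, Complex.ofReal_zero, hU.zero] at hx1
    exact h1 hx1.symm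
  have hcont : ∀ t : ℝ, (t ∈ I₁ ∨ t ∈ I₂) → ContinuousWithinAt (fun t => (ph ψ (PF p δ t)).re)
      (I₁ ∪ I₂) t := by
    intro t ht
    have hm : ∀ u : ℝ, (u ∈ I₁ ∨ u ∈ I₂) → PF p δ u ∈ ψ '' {z : ℂ | 0 ≤ z.im} := fun u hu =>
      closure_sub hU (frontier_subset_closure (hfr u)) (PF_ne (p := p) (k := k) hδ hp hk hkn hu).2
    have h1 : ContinuousWithinAt (fun t => ph ψ (PF p δ t)) (I₁ ∪ I₂) t :=
      ContinuousWithinAt.comp (t := ψ '' {z : ℂ | 0 ≤ z.im}) (ph_cont hU _ (hm t ht))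
        R1.continuous_PF.continuousWithinAt (fun u hu => hm u hu)
    exact Complex.continuous_re.continuousAt.comp_continuousWithinAt h1
  have s1 := sign_const (isPreconnected_Ioo (a := (-(1 / 2) : ℝ)) (b := (k : ℝ) - 1 / 2))
    (f := fun t => (ph ψ (PF p δ t)).re)
    (fun t ht => (hcont t (Or.inl ht)).mono subset_union_left) (fun t ht => hne t (Or.inl ht))
  have s2 := sign_const (isPreconnected_Ioo (a := (k : ℝ) - 1 / 2) (b := (n : ℝ) - 1 / 2))
    (f := fun t => (ph ψ (PF p δ t)).re)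
    (fun t ht => (hcont t (Or.inr ht)).mono subset_union_right) (fun t ht => hne t (Or.inr ht))
  have key : ∀ x : ℝ, x ≠ 0 → ∃ t : ℝ, (t ∈ I₁ ∨ t ∈ I₂) ∧ (ph ψ (PF p δ t)).re = x := by
    intro x hx
    have h1 : (0 : ℝ) ≤ ((x : ℝ) : ℂ).im := by simp
    obtain ⟨t, ht, ht'⟩ := PF_cases (k := k) hδ hp hS hk hkn (real_frontier hU x) (by
      rw [← hU.zero]
      intro hc
      have := hU.injOn (show (x : ℂ) ∈ {w : ℂ | 0 ≤ w.im} from h1)
        (show (0 : ℂ) ∈ {w : ℂ | 0 ≤ w.im} by simp) hc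
      exact hx (by exact_mod_cast this)) (hU.ne x h1)
    refine ⟨t, ht', ?_⟩
    rw [ht, ph_eq hU h1]
    simp
  obtain ⟨t, ht, ht'⟩ := key 1 one_ne_zero
  obtain ⟨u, hu, hu'⟩ := key (-1) (by norm_num)
  rcases s1 with s1 | s1 <;> rcases s2 with s2 | s2
  · exfalso
    rcases hu with hu | hu
    · have := s1 u hu; linarith
    · have := s2 u hu; linarith
  · refine ⟨-1, Or.inr rfl, fun t ht => ?_, fun t ht => ?_⟩
    · have := s1 t ht; linarith
    · have := s2 t ht; linarith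
  · refine ⟨1, Or.inl rfl, fun t ht => ?_, fun t ht => ?_⟩
    · have := s1 t ht; linarith
    · have := s2 t ht; linarith
  · exfalso
    rcases ht with ht | ht
    · have := s1 t ht; linarith
    · have := s2 t ht; linarith

end Vale.Agent.P153.R2.INTF
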