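import Vale.Agent.P153.R2.INTF.Tube2
import Vale.Agent.P153.R2.INTF.Markov
import Vale.Agent.P153.R2.OBSV.Cay

/-!
P153, block INTF, SIDES: a path of free vertices from `v` to a neighbour of a wall of height `c`
gives `OBSV.Wall` for the conformal map of the slit domain.
-/

set_option linter.all false

namespace Vale.Agent.P153.R2.INTF

open Set Filter Topology Metric
open Vale.Agent.P153 Vale.Agent.P153.Topo
open Vale.Agent.P153.R2.Final (pt toC region hat interp)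

variable {δ : ℝ} {h g : ℤ × ℤ → ℤ} {S : Finset Tri} {s : St} {κ : ℕ}

/-- All the faces around `v` are in `S`. -/
def Inn (S : Finset Tri) (v : ℤ × ℤ) : Prop := ∀ t, v ∈ F.Dom.corners t → t ∈ S

theorem PP_sub (δ : ℝ) (v w : ℤ × ℤ) :
    PP δ v - PP δ w = ⟨δ * ((v.1 - w.1 : ℤ) + (v.2 - w.2 : ℤ) / 2), δ * (√3 / 2 * (v.2 - w.2 : ℤ))⟩ := by
  apply Complex.ext <;> simp [PP, toC, pt] <;> ring

theorem norm_PP_adj (hδ : 0 < δ) {v w : ℤ × ℤ} (hvw : Adj v w) : ‖PP δ v - PP δ w‖ = δ := by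
  have h3 : (√3 : ℝ) ^ 2 = 3 := Real.sq_sqrt (by norm_num)
  rw [PP_sub, ← abs_of_pos hδ, ← abs_norm, ← sq_eq_sq_iff_abs_eq_abs, ← Complex.normSq_eq_norm_sq,
    Complex.normSq_mk, abs_of_pos hδ]
  obtain ⟨v1, v2⟩ := v
  obtain ⟨w1, w2⟩ := w
  have h' := adj_iff.1 hvw
  simp only at h' ⊢
  rcases h' with h | h | h | h | h | h <;> obtain ⟨e1, e2⟩ := h <;> subst e1 <;> subst e2 <;>
    push_cast <;> nlinarith [h3]

theorem norm_corner (hδ : 0 < δ) {s : St} (hs : Adj s.1 s.2) {m v : ℤ × ℤ}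
    (hm : m ∈ F.Dom.corners (fa s)) (hv : v ∈ F.Dom.corners (fa s)) : ‖PP δ m - PP δ v‖ ≤ δ := by
  have h1 := ah_adj1 hs
  have h2 := ah_adj2 hs
  rcases (corners_fa hs m).1 hm with rfl | rfl | rfl <;>
    rcases (corners_fa hs v).1 hv with rfl | rfl | rfl
  · simp [hδ.le]
  · exact (norm_PP_adj hδ hs).le
  · exact (norm_PP_adj hδ h1).le
  · exact (norm_PP_adj hδ (adj_symm hs)).le
  · simp [hδ.le]
  · exact (norm_PP_adj hδ (adj_symm h2)).le
  · exact (norm_PP_adj hδ (adj_symm h1)).le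
  · exact (norm_PP_adj hδ h2).le
  · simp [hδ.le]

theorem Ok.norm_AA (hδ : 0 < δ) (ho : Ok h S s κ) {j : ℕ} (hj : j < κ) {m : ℤ × ℤ}
    (hm : m ∈ F.Dom.corners (fa (run h S s j))) {u : ℝ} (hu0 : 0 ≤ u) (hu1 : u ≤ 1) :
    ‖AA δ h S s j m u - PP δ m‖ ≤ δ := by
  obtain ⟨x, y, w, hx, hy, hw, hs1, e⟩ := ho.qq_bar (δ := δ) hj
  have h1 : AA δ h S s j m u - PP δ m = ((1 - u : ℝ) : ℂ) * ((x : ℂ) * (PP δ (run h S s j).1 - PP δ m) +
      (y : ℂ) * (PP δ (run h S s j).2 - PP δ m) + (w : ℂ) * (PP δ (ah (run h S s j)) - PP δ m)) := by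
    have hw' : (w : ℂ) = 1 - x - y := by
      have : w = 1 - x - y := by linarith
      rw [this]; push_cast; ring
    unfold AA
    rw [e, bar, hw']
    push_cast
    ring
  have hs := ho.adj j
  have n1 := norm_corner hδ hs (corner1 hs) hm
  have n2 := norm_corner hδ hs (corner2 hs) hm
  have n3 := norm_corner hδ hs (corner3 hs) hm
  rw [h1, norm_mul, Complex.norm_real, Real.norm_of_nonneg (by linarith)]
  have h2 : ‖(x : ℂ) * (PP δ (run h S s j).1 - PP δ m) +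
      (y : ℂ) * (PP δ (run h S s j).2 - PP δ m) + (w : ℂ) * (PP δ (ah (run h S s j)) - PP δ m)‖ ≤
      x * δ + y * δ + w * δ := by
    refine (norm_add₃_le).trans ?_
    rw [norm_mul, norm_mul, norm_mul, Complex.norm_real, Complex.norm_real, Complex.norm_real,
      Real.norm_of_nonneg hx.le, Real.norm_of_nonneg hy.le, Real.norm_of_nonneg hw.le]
    gcongr
  calc (1 - u) * _ ≤ 1 * (x * δ + y * δ + w * δ) := by
        refine mul_le_mul (by linarith) h2 (norm_nonneg _) zero_le_one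
    _ = (x + y + w) * δ := by ring
    _ = δ := by rw [hs1, one_mul]

/-- A free vertex is in the slit domain. -/
theorem Ok.PP_mem (hδ : 0 < δ) (ho : Ok h S s κ) (hg : Pm g h S s κ) {v : ℤ × ℤ} (hv : Inn S v)
    (hgv : g v ≠ 0) : PP δ v ∈ OO δ h S s κ := by
  refine ⟨mem_interior hδ fun t ht => hv t (vertex_face hδ ht), fun hc => ?_⟩
  have := ho.gam_zero hδ hg hc
  rw [HH_PP _ hδ] at this
  exact hgv (by exact_mod_cast this)

/-- The points of an edge from an inner vertex, except the other end, are in the slit domain. -/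
theorem Ok.edge_mem (hδ : 0 < δ) (ho : Ok h S s κ) (hg : Pm g h S s κ) {v w : ℤ × ℤ}
    (hv : Inn S v) (hvw : Adj v w) {c : ℤ} (hc : c ≠ 0) (hgv : g v = c) (hgw : g w = c) {b : ℝ}
    (hb0 : 0 ≤ b) (hb1 : b < 1) :
    ((1 - b : ℝ) : ℂ) * PP δ v + (b : ℂ) * PP δ w ∈ OO δ h S s κ := by
  have hs : Adj ((v, w) : St).1 ((v, w) : St).2 := hvw
  have f1 := face_of_corner hδ (corner1 hs)
  have f2 := face_of_corner hδ (corner2 hs)
  obtain ⟨f3, v3⟩ := HH_comb g f1 f2 (a := 1 - b) (b := b) (by linarith) hb0 (by ring)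
  simp only at f3 v3
  rw [HH_PP _ hδ, HH_PP _ hδ, hgv, hgw] at v3
  refine ⟨?_, fun hc' => ?_⟩
  · rcases hb0.lt_or_eq with h0 | h0
    · refine mem_interior hδ fun t ht => ?_
      have e : ((1 - b : ℝ) : ℂ) * PP δ v + (b : ℂ) * PP δ w = bar δ ((v, w) : St) (1 - b) b 0 := by
        unfold bar; push_cast; ring
      rw [e] at ht
      rcases open_edge hδ hs (by linarith) h0 (by ring) ht with rfl | rfl
      · exact hv _ (corner1 hs)
      · exact hv _ (corner1b hs)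
    · rw [← h0]
      simp only [sub_zero, Complex.ofReal_one, one_mul, Complex.ofReal_zero, zero_mul, add_zero]
      exact mem_interior hδ fun t ht => hv t (vertex_face hδ ht)
  · have h4 := ho.gam_zero hδ hg hc'
    rw [v3] at h4
    apply hc
    have : (c : ℝ) = 0 := by linarith
    exact_mod_cast this

/-- The edge between two inner vertices. -/
theorem Ok.edge_joined (hδ : 0 < δ) (ho : Ok h S s κ) (hg : Pm g h S s κ) {v w : ℤ × ℤ}
    (hv : Inn S v) (hw : Inn S w) (hvw : Adj v w) {c : ℤ} (hc : c ≠ 0) (hgv : g v = c)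
    (hgw : g w = c) {x : ℂ} {R : ℝ} (hx : ‖PP δ v - x‖ + δ < R) :
    JoinedIn (OO δ h S s κ ∩ ball x R) (PP δ v) (PP δ w) := by
  have hsub : segment ℝ (PP δ v) (PP δ w) ⊆ OO δ h S s κ ∩ ball x R := by
    intro z hz
    obtain ⟨a, b, ha, hb, hab, rfl⟩ := mem_seg.1 hz
    have ha' : a = 1 - b := by linarith
    refine ⟨?_, ?_⟩
    · rcases hb.lt_or_eq with h0 | h0
      · rcases ha.lt_or_eq with h1 | h1
        · rw [ha']
          exact ho.edge_mem hδ hg hv hvw hc hgv hgw hb (by linarith)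
        · have : b = 1 := by linarith
          rw [← h1, this]
          simp only [Complex.ofReal_zero, zero_mul, Complex.ofReal_one, one_mul, zero_add]
          exact ho.PP_mem hδ hg hw (by rw [hgw]; exact hc)
      · have : a = 1 := by linarith
        rw [← h0, this]
        simp only [Complex.ofReal_zero, zero_mul, Complex.ofReal_one, one_mul, add_zero]
        exact ho.PP_mem hδ hg hv (by rw [hgv]; exact hc)
    · rw [mem_ball, dist_eq_norm]
      have e : (a : ℂ) * PP δ v + (b : ℂ) * PP δ w - x =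
          (PP δ v - x) + (b : ℂ) * (PP δ w - PP δ v) := by
        rw [ha']; push_cast; ring
      rw [e]
      refine lt_of_le_of_lt (norm_add_le _ _) ?_
      rw [norm_mul, Complex.norm_real, Real.norm_of_nonneg hb, norm_PP_adj hδ (adj_symm hvw)]
      nlinarith
  exact (JoinedIn.of_segment_subset hsub)

/-- Walls from paths in the slit domain. -/
theorem wall_of_joined {O : Set ℂ} {Fi G : ℂ → ℂ} {w0 : ℝ} {tip b : ℂ} (hS : Slit O Fi G w0 tip b)
    {θ : ℝ} {z : ℂ} {R : ℝ}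
    (h : ∀ ε > 0, ∃ y, JoinedIn (O ∩ ball z R) z y ∧ |(G y - w0).arg - θ| < ε) :
    OBSV.Wall (fun w => Fi (w + w0)) θ z R := by
  intro ε hε
  obtain ⟨y, ⟨γ, hγ⟩, hy⟩ := h ε hε
  refine ⟨fun u => G (γ.extend u) - w0, ?_, ?_, ?_, ?_, ?_⟩
  · refine ContinuousOn.sub (hS.cG.comp γ.continuous_extend.continuousOn ?_) continuousOn_const
    intro u hu
    rw [Path.extend_apply _ hu]
    exact (hγ _).1
  · intro u hu
    simp only [Path.extend_apply _ hu, Complex.sub_im, Complex.ofReal_im, sub_zero]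
    exact hS.mapsG (hγ _).1
  · simp only [Path.extend_zero, sub_add_cancel]
    have := (hγ 0).1
    rw [γ.source] at this
    exact hS.FG this
  · intro u hu
    simp only [Path.extend_apply _ hu, sub_add_cancel]
    rw [hS.FG (hγ _).1, ← dist_eq_norm]
    exact (hγ _).2
  · simp only [Path.extend_one]
    exact hy

/-- The sides of the slit domain: `σ = 1` if the walls of height `-1` (on the right) are mapped to
`(w0, ∞)` and `σ = -1` if they are mapped to `(-∞, w0)`. `W c` are the original walls of height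
`c`. -/
structure Sided (δ : ℝ) (h : ℤ × ℤ → ℤ) (S : Finset Tri) (s : St) (κ : ℕ) (G : ℂ → ℂ) (w0 σ : ℝ)
    (W : ℤ → Set (ℤ × ℤ)) : Prop where
  sgn : σ = 1 ∨ σ = -1
  st : ∀ c : ℤ, (c = 1 ∨ c = -1) → ∀ η ∈ Ioo (0 : ℝ) 1, ∃ x : ℝ, 0 < (-(c : ℝ) * σ) * (x - w0) ∧
    Tendsto (fun z => (G z).re) (𝓝[OO δ h S s κ] (EE δ s (-(c : ℝ) * η))) (𝓝 x)
  bd : ∀ c : ℤ, (c = 1 ∨ c = -1) → ∀ m ∈ W c, ∃ x : ℝ, 0 < (-(c : ℝ) * σ) * (x - w0) ∧
    Tendsto G (𝓝[OO δ h S s κ] (PP δ m)) (𝓝 (x : ℂ))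

/-- The limit of the argument at the walls of height `c`. -/
noncomputable def ang (σ : ℝ) (c : ℤ) : ℝ := if -(c : ℝ) * σ = 1 then 0 else Real.pi

theorem sgn_mul {σ : ℝ} (hσ : σ = 1 ∨ σ = -1) {c : ℤ} (hc : c = 1 ∨ c = -1) :
    -(c : ℝ) * σ = 1 ∨ -(c : ℝ) * σ = -1 := by
  rcases hσ with rfl | rfl <;> rcases hc with rfl | rfl <;> norm_num

/-- An explored vertex. -/
theorem Ok.wall_explored (hδ : 0 < δ) (ho : Ok h S s κ) {Fi G : ℂ → ℂ} {w0 σ : ℝ} {n : ℕ}
    (hn : Alive h S s n) (hκn : κ ≤ n)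
    (hS : Slit (OO δ h S s κ) Fi G w0 (EE δ (run h S s κ) 0) (EE δ (run h S s n) 0))
    {W : ℤ → Set (ℤ × ℤ)} (hW : Sided δ h S s κ G w0 σ W) {j : ℕ} (hj : j < κ) {m : ℤ × ℤ}
    (hm : m ∈ F.Dom.corners (fa (run h S s j))) (hmi : Inn S m) {c : ℤ} (hc : c = 1 ∨ c = -1)
    (hmc : h m = c) {x : ℂ} {R : ℝ} (hx : ‖PP δ m - x‖ + 2 * δ < R) {ε : ℝ} (hε : 0 < ε) :
    ∃ y, JoinedIn (OO δ h S s κ ∩ ball x R) (PP δ m) y ∧ |(G y - w0).arg - ang σ c| < ε := by
  have hlim := ho.arg_lim hδ hn hκn hS hj hm (ε := -(c : ℝ))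
    (by rcases hc with rfl | rfl <;> norm_num) (by rw [hmc]; ring) (σ := -(c : ℝ) * σ)
    (sgn_mul hW.sgn hc) (hW.st c hc)
  have hev := (Metric.tendsto_nhds.1 hlim ε hε).and (Ioo_mem_nhdsGT (show (0 : ℝ) < 1 from one_pos))
  obtain ⟨η, h1, h2⟩ := hev.exists
  refine ⟨AA δ h S s j m η, ?_, ?_⟩
  · have hpath : ∀ u ∈ Icc η 1, AA δ h S s j m u ∈ OO δ h S s κ ∩ ball x R := by
      intro u hu
      have hu0 : 0 < u := h2.1.trans_le hu.1
      refine ⟨?_, ?_⟩
      · rcases hu.2.lt_or_eq with hu1 | hu1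
        · have := UU_mem (tb δ h S s j m (-(c : ℝ)) u) j
          rw [show tb δ h S s j m (-(c : ℝ)) u (j + 1) = AA δ h S s j m u from
            if_neg (by omega)] at this
          exact ho.tube_sub hδ hj hm (by rcases hc with rfl | rfl <;> norm_num)
            (by rw [hmc]; ring) hu0 hu1 this
        · rw [hu1]
          have e : AA δ h S s j m 1 = PP δ m := by unfold AA; push_cast; ring
          rw [e]
          exact ho.PP_mem hδ ho.pm hmi (by rw [hmc]; rcases hc with rfl | rfl <;> norm_num)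
      · rw [mem_ball, dist_eq_norm]
        calc ‖AA δ h S s j m u - x‖ = ‖(AA δ h S s j m u - PP δ m) + (PP δ m - x)‖ := by
              congr 1; ring
          _ ≤ _ := norm_add_le _ _
          _ ≤ δ + ‖PP δ m - x‖ := by gcongr; exact ho.norm_AA hδ hj hm hu0.le hu.2
          _ < R := by linarith
    have hc' : Continuous (AA δ h S s j m) := by unfold AA; fun_prop
    have hj1 : JoinedIn (OO δ h S s κ ∩ ball x R) (AA δ h S s j m 1) (AA δ h S s j m η) := by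
      have hIcc : IsPathConnected (Icc η 1) := (convex_Icc η 1).isPathConnected ⟨1, h2.2.le, le_rfl⟩
      have := hIcc.image' (f := AA δ h S s j m) hc'.continuousOn
      exact ((this.joinedIn _ ⟨1, ⟨h2.2.le, le_rfl⟩, rfl⟩ _ ⟨η, ⟨le_rfl, h2.2.le⟩, rfl⟩)).mono
        (by rintro _ ⟨u, hu, rfl⟩; exact hpath u hu)
    have e : AA δ h S s j m 1 = PP δ m := by unfold AA; push_cast; ring
    rw [e] at hj1
    exact hj1
  · rw [Real.dist_eq] at h1
    exact h1


/-- An original wall vertex. -/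
theorem Ok.wall_bd (hδ : 0 < δ) (ho : Ok h S s κ) (hg : Pm g h S s κ) {Fi G : ℂ → ℂ} {w0 σ : ℝ}
    {tip b : ℂ} (hS : Slit (OO δ h S s κ) Fi G w0 tip b)
    {W : ℤ → Set (ℤ × ℤ)} (hW : Sided δ h S s κ G w0 σ W) {c : ℤ} (hc : c = 1 ∨ c = -1)
    {v m : ℤ × ℤ} (hv : Inn S v) (hvm : Adj v m) (hgv : g v = c) (hgm : g m = c) (hm : m ∈ W c)
    {x : ℂ} {R : ℝ} (hx : ‖PP δ v - x‖ + δ < R) {ε : ℝ} (hε : 0 < ε) :
    ∃ y, JoinedIn (OO δ h S s κ ∩ ball x R) (PP δ v) y ∧ |(G y - w0).arg - ang σ c| < ε := by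
  have hc0 : c ≠ 0 := by rcases hc with rfl | rfl <;> norm_num
  set f : ℝ → ℂ := fun b => ((1 - b : ℝ) : ℂ) * PP δ v + (b : ℂ) * PP δ m with hf
  have hfc : Continuous f := by rw [hf]; fun_prop
  have hfO : ∀ b : ℝ, 0 ≤ b → b < 1 → f b ∈ OO δ h S s κ := fun b hb0 hb1 =>
    ho.edge_mem hδ hg hv hvm hc0 hgv hgm hb0 hb1
  have hlim : Tendsto f (𝓝[<] 1) (𝓝[OO δ h S s κ] (PP δ m)) := by
    refine tendsto_nhdsWithin_iff.2 ⟨?_, ?_⟩
    · have h1 := hfc.tendsto 1
      have h2 : f 1 = PP δ m := by rw [hf]; push_cast; ring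
      rw [h2] at h1
      exact h1.mono_left nhdsWithin_le_nhds
    · filter_upwards [Ioo_mem_nhdsLT (show (0 : ℝ) < 1 from one_pos)] with b hb
      exact hfO b hb.1.le hb.2
  obtain ⟨x₀, hx₀, hx₀t⟩ := hW.bd c hc m hm
  have hG : Tendsto (fun b => G (f b) - w0) (𝓝[<] 1) (𝓝 ((x₀ : ℂ) - w0)) :=
    (hx₀t.comp hlim).sub tendsto_const_nhds
  have hG' : Tendsto (fun b => G (f b) - w0) (𝓝[<] 1) (𝓝[{z | 0 ≤ z.im}] ((x₀ : ℂ) - w0)) := by
    refine tendsto_nhdsWithin_iff.2 ⟨hG, ?_⟩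
    filter_upwards [Ioo_mem_nhdsLT (show (0 : ℝ) < 1 from one_pos)] with b hb
    have := hS.mapsG (hfO b hb.1.le hb.2)
    simp only [mem_setOf_eq, Complex.sub_im, Complex.ofReal_im, sub_zero]
    exact le_of_lt this
  have harg : Tendsto (fun b => (G (f b) - w0).arg) (𝓝[<] 1) (𝓝 (ang σ c)) := by
    rcases sgn_mul hW.sgn hc with h1 | h1
    · have h2 : 0 < x₀ - w0 := by rw [h1, one_mul] at hx₀; exact hx₀
      have h3 : ContinuousAt Complex.arg ((x₀ : ℂ) - w0) := by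
        refine Complex.continuousAt_arg (Or.inl ?_)
        simpa using h2
      have h4 : ((x₀ : ℂ) - w0).arg = 0 := by
        rw [← Complex.ofReal_sub, Complex.arg_ofReal_of_nonneg h2.le]
      have h5 := h3.tendsto.comp hG
      rw [h4] at h5
      rw [ang, if_pos h1]
      exact h5
    · have h2 : x₀ - w0 < 0 := by rw [h1] at hx₀; linarith
      have h3 := Complex.tendsto_arg_nhdsWithin_im_nonneg_of_re_neg_of_im_zero
        (z := (x₀ : ℂ) - w0) (by simpa using h2) (by simp)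
      rw [ang, if_neg (by rw [h1]; norm_num)]
      exact h3.comp hG'
  have hev := (Metric.tendsto_nhds.1 harg ε hε).and
    (Ioo_mem_nhdsLT (show (0 : ℝ) < 1 from one_pos))
  obtain ⟨b, h1, h2⟩ := hev.exists
  refine ⟨f b, ?_, by rw [Real.dist_eq] at h1; exact h1⟩
  have hIcc : IsPathConnected (Icc (0 : ℝ) b) := (convex_Icc 0 b).isPathConnected ⟨0, le_rfl, h2.1.le⟩
  have := hIcc.image' (f := f) hfc.continuousOn
  have hj := (this.joinedIn _ ⟨0, ⟨le_rfl, h2.1.le⟩, rfl⟩ _ ⟨b, ⟨h2.1.le, le_rfl⟩, rfl⟩)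
  have e : f 0 = PP δ v := by rw [hf]; push_cast; ring
  rw [e] at hj
  refine hj.mono ?_
  rintro _ ⟨u, hu, rfl⟩
  refine ⟨hfO u hu.1 (hu.2.trans_lt h2.2), ?_⟩
  rw [mem_ball, dist_eq_norm]
  have e : f u - x = (PP δ v - x) + (u : ℂ) * (PP δ m - PP δ v) := by
    rw [hf]; push_cast; ring
  rw [e]
  refine lt_of_le_of_lt (norm_add_le _ _) ?_
  rw [norm_mul, Complex.norm_real, Real.norm_of_nonneg hu.1, norm_PP_adj hδ (adj_symm hvm)]
  have : u ≤ 1 := hu.2.trans h2.2.le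
  nlinarith

/-- The setting of the slit domains of the exploration of the arc domain `F, P, M`. -/
structure Expl (F P M : Set (ℤ × ℤ)) (h : ℤ × ℤ → ℤ) (S : Finset Tri) (s : St) (κ : ℕ) : Prop where
  ca : h ∈ CA F M
  dFM : Disjoint F M
  dFP : Disjoint F P
  dPM : Disjoint P M
  adj : Adj s.1 s.2
  l : s.1 ∈ P
  r : s.2 ∈ M
  fb : fb s ∉ S
  alive : Alive h S s κ
  inn : ∀ v ∈ F, Inn S v
  vert : ∀ v ∈ Vale.Agent.P153.F.Dom.verts S, v ∈ F ∨ v ∈ P ∨ v ∈ M

theorem Expl.good {F P M : Set (ℤ × ℤ)} (he : Expl F P M h S s κ) : Good h s :=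
  start_good he.ca he.adj (fun hc => Set.disjoint_left.1 he.dFP hc he.l)
    (fun hc => Set.disjoint_left.1 he.dPM he.l hc)
    (fun hc => Set.disjoint_left.1 he.dFM hc he.r) he.r

theorem Expl.ok {F P M : Set (ℤ × ℤ)} (he : Expl F P M h S s κ) : Ok h S s κ where
  nz := CA.nz he.ca
  good := he.good
  fb := he.fb
  alive := he.alive
  pm := fun j _ => CA.good_val he.ca (run_good (CA.nz he.ca) he.good j)

/-- The walls of height `c` of the arc domain. -/
def wl (P M : Set (ℤ × ℤ)) (c : ℤ) : Set (ℤ × ℤ) := {v | (c = 1 ∧ v ∈ P) ∨ (c = -1 ∧ v ∈ M)}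

/-- **SIDES**: a path of free vertices in a ball from `v` to a neighbour `w` of a wall vertex `m` of
height `c`. -/
theorem sides (hδ : 0 < δ) {F P M : Set (ℤ × ℤ)} (he : Expl F P M h S s κ) {Fi G : ℂ → ℂ}
    {w0 σ : ℝ} {n : ℕ} (hn : Alive h S s n) (hκn : κ ≤ n)
    (hS : Slit (OO δ h S s κ) Fi G w0 (EE δ (run h S s κ) 0) (EE δ (run h S s n) 0))
    (hW : Sided δ h S s κ G w0 σ (wl P M)) {c : ℤ} (hc : c = 1 ∨ c = -1) {v w m : ℤ × ℤ}
    {x : ℂ} {R : ℝ} (hvw : Conn (Fk F h S s κ ∩ {u | ‖PP δ u - x‖ < R}) v w) (hwm : Adj w m)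
    (hm : m ∈ wl (P ∪ Lk h S s κ) (M ∪ Rk h S s κ) c) {ε : ℝ} (hε : 0 < ε) :
    ∃ y, JoinedIn (OO δ h S s κ ∩ ball x (R + 3 * δ)) (PP δ v) y ∧
      |(G y - w0).arg - ang σ c| < ε := by
  classical
  have ho := he.ok
  have hc0 : c ≠ 0 := by rcases hc with rfl | rfl <;> norm_num
  set g : ℤ × ℤ → ℤ := fun u => if u ∈ Fk F h S s κ then c else h u with hgdef
  have hg1 : ∀ u ∈ Fk F h S s κ, g u = c := fun u hu => if_pos hu
  have hg2 : ∀ u, u ∉ Fk F h S s κ → g u = h u := fun u hu => if_neg hu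
  have hpm : Pm g h S s κ := by
    intro j hj
    have h1 := ho.pm j hj
    rw [hg2 _ (fun hc => hc.2 (Or.inl ⟨j, hj, rfl⟩)), hg2 _ (fun hc => hc.2 (Or.inr ⟨j, hj, rfl⟩))]
    exact h1
  have hinn : ∀ u ∈ Fk F h S s κ, Inn S u := fun u hu => he.inn u hu.1
  -- the path of free vertices
  have hpath : JoinedIn (OO δ h S s κ ∩ ball x (R + 3 * δ)) (PP δ v) (PP δ w) := by
    have hmem : ∀ u ∈ Fk F h S s κ ∩ {u | ‖PP δ u - x‖ < R},
        PP δ u ∈ OO δ h S s κ ∩ ball x (R + 3 * δ) := by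
      intro u hu
      refine ⟨ho.PP_mem hδ hpm (hinn u hu.1) (by rw [hg1 u hu.1]; exact hc0), ?_⟩
      rw [mem_ball, dist_eq_norm]
      have := hu.2
      simp only [mem_setOf_eq] at this
      linarith
    refine Conn.ind (fun u => JoinedIn (OO δ h S s κ ∩ ball x (R + 3 * δ)) (PP δ v) (PP δ u))
      (JoinedIn.refl (hmem v hvw.left_mem)) ?_ hvw
    intro u u' hu huu' hu' ih
    refine ih.trans ?_
    have hu1 := hu.right_mem
    refine ho.edge_joined hδ hpm (hinn u hu1.1) (hinn u' hu'.1) huu' hc0 (hg1 u hu1.1)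
      (hg1 u' hu'.1) ?_
    have := hu1.2
    simp only [mem_setOf_eq] at this
    linarith
  have hwF := hvw.right_mem
  have hwR : ‖PP δ w - x‖ < R := hwF.2
  have hmF : m ∉ Fk F h S s κ := by
    intro hcon
    rcases hm with ⟨_, hm | hm⟩ | ⟨_, hm | hm⟩
    · exact Set.disjoint_left.1 he.dFP hcon.1 hm
    · exact hcon.2 (Or.inl hm)
    · exact Set.disjoint_left.1 he.dFM hcon.1 hm
    · exact hcon.2 (Or.inr hm)
  have hhm : h m = c := by
    rcases hm with ⟨rfl, hm | hm⟩ | ⟨rfl, hm | hm⟩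
    · rw [(mem_CA.1 he.ca).2.1 m (fun hc => Set.disjoint_left.1 he.dFP hc hm),
        eta_not (fun hc => Set.disjoint_left.1 he.dPM hm hc)]
    · exact Lk_val he.ca he.good hm
    · rw [(mem_CA.1 he.ca).2.1 m (fun hc => Set.disjoint_left.1 he.dFM hc hm), eta_mem hm]
    · exact Rk_val he.ca he.good hm
  by_cases hmo : m ∈ F
  · -- explored vertex
    have hmi := he.inn m hmo
    obtain ⟨i, hi, hmi'⟩ : ∃ i ≤ κ, m = (run h S s i).1 ∨ m = (run h S s i).2 := by
      rcases hm with ⟨_, hm | ⟨i, hi, hm⟩⟩ | ⟨_, hm | ⟨i, hi, hm⟩⟩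
      · exact absurd hmo (fun hc => Set.disjoint_left.1 he.dFP hc hm)
      · exact ⟨i, hi, Or.inl hm⟩
      · exact absurd hmo (fun hc => Set.disjoint_left.1 he.dFM hc hm)
      · exact ⟨i, hi, Or.inr hm⟩
    have hi0 : i ≠ 0 := by
      rintro rfl
      rcases hmi' with h1 | h1
      · exact Set.disjoint_left.1 he.dFP hmo (by rw [h1]; exact he.l)
      · exact Set.disjoint_left.1 he.dFM hmo (by rw [h1]; exact he.r)
    obtain ⟨j, rfl⟩ : ∃ j, i = j + 1 := ⟨i - 1, by omega⟩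
    have hcorner : m ∈ Vale.Agent.P153.F.Dom.corners (fa (run h S s j)) := by
      rw [← ho.fbr (show j < κ by omega)]
      rcases hmi' with rfl | rfl
      · exact corner1b (ho.adj (j + 1))
      · exact corner2b (ho.adj (j + 1))
    have h1 : JoinedIn (OO δ h S s κ ∩ ball x (R + 3 * δ)) (PP δ w) (PP δ m) :=
      ho.edge_joined hδ hpm (hinn w hwF.1) hmi hwm hc0 (hg1 w hwF.1) (by rw [hg2 m hmF, hhm])
        (by linarith)
    have hmR : ‖PP δ m - x‖ ≤ ‖PP δ w - x‖ + δ := by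
      calc ‖PP δ m - x‖ = ‖(PP δ m - PP δ w) + (PP δ w - x)‖ := by congr 1; ring
        _ ≤ _ := norm_add_le _ _
        _ = ‖PP δ w - x‖ + δ := by rw [norm_PP_adj hδ (adj_symm hwm)]; ring
    obtain ⟨y, hy, hy'⟩ := ho.wall_explored hδ hn hκn hS hW (show j < κ by omega) hcorner hmi hc
      hhm (x := x) (R := R + 3 * δ) (by linarith) hε
    exact ⟨y, (hpath.trans h1).trans hy, hy'⟩
  · -- original wall vertex
    have hmW : m ∈ wl P M c := by
      rcases hm with ⟨rfl, hm | hm⟩ | ⟨rfl, hm | hm⟩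
      · exact Or.inl ⟨rfl, hm⟩
      · obtain ⟨i, hi, rfl⟩ := hm
        refine Or.inl ⟨rfl, ?_⟩
        rcases Nat.eq_zero_or_pos i with h0 | h0
        · subst h0
          exact he.l
        · obtain ⟨j, rfl⟩ : ∃ j, i = j + 1 := ⟨i - 1, by omega⟩
          have h1 := corner1b (ho.adj (j + 1))
          rw [ho.fbr (show j < κ by omega)] at h1
          have h2 : (run h S s (j + 1)).1 ∈ Vale.Agent.P153.F.Dom.verts S :=
            Finset.mem_biUnion.2 ⟨_, ho.mem (show j < κ by omega), h1⟩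
          rcases he.vert _ h2 with h3 | h3 | h3
          · exact absurd h3 hmo
          · exact h3
          · exact absurd h3 (Lk_off he.ca he.good (k := κ) ⟨j + 1, hi, rfl⟩ hmo)
      · exact Or.inr ⟨rfl, hm⟩
      · exact Or.inr ⟨rfl, Rk_off he.ca he.good hm hmo⟩
    obtain ⟨y, hy, hy'⟩ := ho.wall_bd hδ hpm hS hW hc (hinn w hwF.1) hwm (hg1 w hwF.1)
      (by rw [hg2 m hmF, hhm]) hmW (x := x) (R := R + 3 * δ) (by linarith) hε
    exact ⟨y, hpath.trans hy, hy'⟩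

end Vale.Agent.P153.R2.INTF
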