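import Vale.Agent.P153.R2.INTF.Loc
import Vale.Agent.P153.R2.INTF.SideA

/-!
P153, block INTF, sides, geometric part: tubes on both sides of the interface.
-/

set_option linter.all false

namespace Vale.Agent.P153.R2.INTF

open Set Filter Topology Metric
open Vale.Agent.P153 Vale.Agent.P153.Topo
open Vale.Agent.P153.R2.Final (pt toC region hat interp)

/-- The point of the edge `s` at the position `u`; `u = 0` is the midpoint. -/
noncomputable def EE (δ : ℝ) (s : St) (u : ℝ) : ℂ :=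
  (((1 - u) / 2 : ℝ) : ℂ) * PP δ s.1 + (((1 + u) / 2 : ℝ) : ℂ) * PP δ s.2

/-- The set of the first `κ` segments of the interface. -/
noncomputable def Gam (δ : ℝ) (h : ℤ × ℤ → ℤ) (S : Finset Tri) (s : St) (κ : ℕ) : Set ℂ :=
  {z | ∃ j < κ, z ∈ segment ℝ (EE δ (run h S s j) 0) (EE δ (run h S s (j + 1)) 0)}

/-- Domain of the slit. -/
noncomputable def OO (δ : ℝ) (h : ℤ × ℤ → ℤ) (S : Finset Tri) (s : St) (κ : ℕ) : Set ℂ :=
  interior (Reg δ S) \ Gam δ h S s κ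

/-- `g` has the values `1` and `-1` next to the first `κ` steps. -/
def Pm (g h : ℤ × ℤ → ℤ) (S : Finset Tri) (s : St) (κ : ℕ) : Prop :=
  ∀ j ≤ κ, g (run h S s j).1 = 1 ∧ g (run h S s j).2 = -1

variable {δ : ℝ} {h g : ℤ × ℤ → ℤ} {S : Finset Tri} {s : St} {κ : ℕ}

theorem mem_seg {z w x : ℂ} : x ∈ segment ℝ z w ↔
    ∃ a b : ℝ, 0 ≤ a ∧ 0 ≤ b ∧ a + b = 1 ∧ (a : ℂ) * z + (b : ℂ) * w = x := by
  simp only [segment, mem_setOf_eq, Complex.real_smul]

theorem face_of_corner (hδ : 0 < δ) {t : Tri} {v : ℤ × ℤ} (hv : v ∈ F.Dom.corners t) :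
    PP δ v ∈ Face δ t := PP_mem hδ (by rw [corners_same]; exact hv)

theorem EE_face (hδ : 0 < δ) {t : Tri} {s : St} (h1 : s.1 ∈ F.Dom.corners t)
    (h2 : s.2 ∈ F.Dom.corners t) {u : ℝ} (hu : |u| ≤ 1) :
    EE δ s u ∈ Face δ t ∧ HH g δ (EE δ s u) = (1 - u) / 2 * g s.1 + (1 + u) / 2 * g s.2 := by
  rw [abs_le] at hu
  have := HH_comb g (face_of_corner hδ h1) (face_of_corner hδ h2) (a := (1 - u) / 2)
    (b := (1 + u) / 2) (by linarith) (by linarith) (by ring)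
  rw [HH_PP _ hδ, HH_PP _ hδ] at this
  exact this

theorem corner1 {s : St} (hs : Adj s.1 s.2) : s.1 ∈ F.Dom.corners (fa s) :=
  (corners_fa hs _).2 (Or.inl rfl)
theorem corner2 {s : St} (hs : Adj s.1 s.2) : s.2 ∈ F.Dom.corners (fa s) :=
  (corners_fa hs _).2 (Or.inr (Or.inl rfl))
theorem corner3 {s : St} (hs : Adj s.1 s.2) : ah s ∈ F.Dom.corners (fa s) :=
  (corners_fa hs _).2 (Or.inr (Or.inr rfl))
theorem corner1b {s : St} (hs : Adj s.1 s.2) : s.1 ∈ F.Dom.corners (fb s) := by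
  unfold fb
  exact (corners_fa (s := (s.2, s.1)) (adj_symm hs) _).2 (Or.inr (Or.inl rfl))
theorem corner2b {s : St} (hs : Adj s.1 s.2) : s.2 ∈ F.Dom.corners (fb s) := by
  unfold fb
  exact (corners_fa (s := (s.2, s.1)) (adj_symm hs) _).2 (Or.inl rfl)

/-- The hypotheses on the states. -/
structure Ok (h : ℤ × ℤ → ℤ) (S : Finset Tri) (s : St) (κ : ℕ) : Prop where
  nz : NZ h S
  good : Good h s
  fb : fb s ∉ S
  alive : Alive h S s κ
  pm : Pm h h S s κ

theorem Ok.adj (ho : Ok h S s κ) (j : ℕ) : Adj (run h S s j).1 (run h S s j).2 :=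
  (run_good ho.nz ho.good j).1

theorem Ok.fbr (ho : Ok h S s κ) {j : ℕ} (hj : j < κ) :
    INTF.fb (run h S s (j + 1)) = fa (run h S s j) :=
  fb_run ho.nz ho.good (ho.alive.mono (by omega))

theorem Ok.mem (ho : Ok h S s κ) {j : ℕ} (hj : j < κ) : fa (run h S s j) ∈ S := ho.alive j hj

/-- The two edges of a step, at the same position `u`: the segment between them is in the face, the
interpolation is the constant `-u` on it. -/
theorem Ok.seg (hδ : 0 < δ) (ho : Ok h S s κ) {g : ℤ × ℤ → ℤ} (hg : Pm g h S s κ) {j : ℕ}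
    (hj : j < κ) {u : ℝ} (hu : |u| ≤ 1) {z : ℂ}
    (hz : z ∈ segment ℝ (EE δ (run h S s j) u) (EE δ (run h S s (j + 1)) u)) :
    z ∈ Face δ (fa (run h S s j)) ∧ HH g δ z = -u := by
  obtain ⟨a, b, ha, hb, hab, rfl⟩ := mem_seg.1 hz
  obtain ⟨f1, v1⟩ := EE_face (g := g) hδ (corner1 (ho.adj j)) (corner2 (ho.adj j)) hu
  have c1 := corner1b (ho.adj (j + 1))
  have c2 := corner2b (ho.adj (j + 1))
  rw [ho.fbr hj] at c1 c2
  obtain ⟨f2, v2⟩ := EE_face (g := g) hδ c1 c2 hu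
  obtain ⟨g1, g2⟩ := hg j hj.le
  obtain ⟨g3, g4⟩ := hg (j + 1) hj
  obtain ⟨f3, v3⟩ := HH_comb g f1 f2 ha hb hab
  refine ⟨f3, ?_⟩
  rw [v3, v1, v2, g1, g2, g3, g4]
  push_cast
  have : b = 1 - a := by linarith
  subst this
  ring

theorem Ok.gam_zero (hδ : 0 < δ) (ho : Ok h S s κ) {g : ℤ × ℤ → ℤ} (hg : Pm g h S s κ) {z : ℂ}
    (hz : z ∈ Gam δ h S s κ) : HH g δ z = 0 := by
  obtain ⟨j, hj, hz⟩ := hz
  rw [(ho.seg hδ hg hj (by simp) hz).2]
  simp

/-- The midpoint of the `j`-th segment. -/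
noncomputable def qq (δ : ℝ) (h : ℤ × ℤ → ℤ) (S : Finset Tri) (s : St) (j : ℕ) : ℂ :=
  ((1 / 2 : ℝ) : ℂ) * EE δ (run h S s j) 0 + ((1 / 2 : ℝ) : ℂ) * EE δ (run h S s (j + 1)) 0

theorem qq_gam {j : ℕ} (hj : j < κ) : qq δ h S s j ∈ Gam δ h S s κ :=
  ⟨j, hj, mem_seg.2 ⟨1 / 2, 1 / 2, by norm_num, by norm_num, by norm_num, rfl⟩⟩

/-- The path from the middle of the `j`-th segment to the corner `m` of the face. -/
noncomputable def AA (δ : ℝ) (h : ℤ × ℤ → ℤ) (S : Finset Tri) (s : St) (j : ℕ) (m : ℤ × ℤ)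
    (u : ℝ) : ℂ := ((1 - u : ℝ) : ℂ) * qq δ h S s j + (u : ℂ) * PP δ m

/-- Either case of the step, in barycentric coordinates. -/
theorem Ok.next (ho : Ok h S s κ) {j : ℕ} (hj : j < κ) :
    (run h S s (j + 1) = (ah (run h S s j), (run h S s j).2)) ∨
      (run h S s (j + 1) = ((run h S s j).1, ah (run h S s j))) := by
  rw [run_succ (ho.mem hj)]
  unfold nx
  split
  · exact Or.inl rfl
  · exact Or.inr rfl

theorem bar_add (s : St) (x y w x' y' w' : ℝ) (a b : ℝ) :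
    (a : ℂ) * bar δ s x y w + (b : ℂ) * bar δ s x' y' w' =
      bar δ s (a * x + b * x') (a * y + b * y') (a * w + b * w') := by
  unfold bar; push_cast; ring

theorem EE_bar (s : St) (u : ℝ) : EE δ s u = bar δ s ((1 - u) / 2) ((1 + u) / 2) 0 := by
  unfold EE bar; push_cast; ring

theorem PP_bar1 (s : St) : PP δ s.1 = bar δ s 1 0 0 := by unfold bar; push_cast; ring
theorem PP_bar2 (s : St) : PP δ s.2 = bar δ s 0 1 0 := by unfold bar; push_cast; ring
theorem PP_bar3 (s : St) : PP δ (ah s) = bar δ s 0 0 1 := by unfold bar; push_cast; ring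

/-- The next edge in barycentric coordinates of the face. -/
theorem Ok.EE_next (ho : Ok h S s κ) {j : ℕ} (hj : j < κ) {u : ℝ} :
    EE δ (run h S s (j + 1)) u = bar δ (run h S s j) 0 ((1 + u) / 2) ((1 - u) / 2) ∨
    EE δ (run h S s (j + 1)) u = bar δ (run h S s j) ((1 - u) / 2) 0 ((1 + u) / 2) := by
  rcases ho.next hj with e | e
  · left; rw [e]; unfold EE bar; push_cast; ring
  · right; rw [e]; unfold EE bar; push_cast; ring

/-- The middle of the segment is in the open face. -/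
theorem Ok.qq_bar (ho : Ok h S s κ) {j : ℕ} (hj : j < κ) :
    ∃ x y w : ℝ, 0 < x ∧ 0 < y ∧ 0 < w ∧ x + y + w = 1 ∧ qq δ h S s j = bar δ (run h S s j) x y w := by
  unfold qq
  rcases ho.EE_next (δ := δ) (u := 0) hj with e | e
  · refine ⟨1 / 4, 1 / 2, 1 / 4, by norm_num, by norm_num, by norm_num, by norm_num, ?_⟩
    rw [e, EE_bar, bar_add]
    congr 1 <;> norm_num
  · refine ⟨1 / 2, 1 / 4, 1 / 4, by norm_num, by norm_num, by norm_num, by norm_num, ?_⟩
    rw [e, EE_bar, bar_add]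
    congr 1 <;> norm_num

/-- A corner of the face, in barycentric coordinates. -/
theorem corner_bar {s : St} (hs : Adj s.1 s.2) {m : ℤ × ℤ} (hm : m ∈ F.Dom.corners (fa s)) :
    ∃ x y w : ℝ, 0 ≤ x ∧ 0 ≤ y ∧ 0 ≤ w ∧ x + y + w = 1 ∧ PP δ m = bar δ s x y w := by
  rcases (corners_fa hs m).1 hm with rfl | rfl | rfl
  · exact ⟨1, 0, 0, by norm_num, le_rfl, le_rfl, by norm_num, PP_bar1 s⟩
  · exact ⟨0, 1, 0, le_rfl, by norm_num, le_rfl, by norm_num, PP_bar2 s⟩
  · exact ⟨0, 0, 1, le_rfl, le_rfl, by norm_num, by norm_num, PP_bar3 s⟩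

/-- The points of the path to the corner `m`, except the corner, are in the open face. -/
theorem Ok.AA_bar (ho : Ok h S s κ) {j : ℕ} (hj : j < κ) {m : ℤ × ℤ}
    (hm : m ∈ F.Dom.corners (fa (run h S s j))) {u : ℝ} (hu0 : 0 ≤ u) (hu1 : u < 1) :
    ∃ x y w : ℝ, 0 < x ∧ 0 < y ∧ 0 < w ∧ x + y + w = 1 ∧
      AA δ h S s j m u = bar δ (run h S s j) x y w := by
  obtain ⟨x, y, w, hx, hy, hw, hs1, e1⟩ := ho.qq_bar (δ := δ) hj
  obtain ⟨x', y', w', hx', hy', hw', hs2, e2⟩ := corner_bar (δ := δ) (ho.adj j) hm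
  have h1 : 0 < 1 - u := by linarith
  refine ⟨(1 - u) * x + u * x', (1 - u) * y + u * y', (1 - u) * w + u * w', by positivity,
    by positivity, by positivity, ?_, ?_⟩
  · have : (1 - u) * x + u * x' + ((1 - u) * y + u * y') + ((1 - u) * w + u * w') =
      (1 - u) * (x + y + w) + u * (x' + y' + w') := by ring
    rw [this, hs1, hs2]; ring
  · unfold AA
    rw [e1, e2, bar_add]

/-- A point of the open face is in the interior of the region. -/
theorem Ok.int_face (hδ : 0 < δ) (ho : Ok h S s κ) {j : ℕ} (hj : j < κ) {x y w : ℝ} (hx : 0 < x)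
    (hy : 0 < y) (hw : 0 < w) (h1 : x + y + w = 1) :
    bar δ (run h S s j) x y w ∈ interior (Reg δ S) := by
  refine mem_interior hδ fun t ht => ?_
  rw [open_face hδ (ho.adj j) hx hy hw h1 ht]
  exact ho.mem hj

/-- The interior edges of the interface are in the interior of the region. -/
theorem Ok.int_edge (hδ : 0 < δ) (ho : Ok h S s κ) {j : ℕ} (hj0 : 0 < j) (hj : j < κ) {u : ℝ}
    (hu : |u| < 1) : EE δ (run h S s j) u ∈ interior (Reg δ S) := by
  rw [abs_lt] at hu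
  refine mem_interior hδ fun t ht => ?_
  rw [EE_bar] at ht
  rcases open_edge hδ (ho.adj j) (by linarith) (by linarith) (by ring) ht with rfl | rfl
  · exact ho.mem hj
  · obtain ⟨i, rfl⟩ : ∃ i, j = i + 1 := ⟨j - 1, by omega⟩
    rw [ho.fbr (by omega)]
    exact ho.mem (by omega)

/-- The value of the interpolation on the path to the corner. -/
theorem Ok.AA_val (hδ : 0 < δ) (ho : Ok h S s κ) {g : ℤ × ℤ → ℤ} (hg : Pm g h S s κ) {j : ℕ}
    (hj : j < κ) {m : ℤ × ℤ} (hm : m ∈ F.Dom.corners (fa (run h S s j))) {u : ℝ} (hu0 : 0 ≤ u)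
    (hu1 : u ≤ 1) : AA δ h S s j m u ∈ Face δ (fa (run h S s j)) ∧
      HH g δ (AA δ h S s j m u) = u * g m := by
  obtain ⟨f1, v1⟩ := ho.seg hδ hg hj (u := 0) (by simp) (z := qq δ h S s j)
    (mem_seg.2 ⟨1 / 2, 1 / 2, by norm_num, by norm_num, by norm_num, rfl⟩)
  obtain ⟨f2, v2⟩ := HH_comb g f1 (face_of_corner hδ hm) (a := 1 - u) (b := u) (by linarith) hu0
    (by ring)
  refine ⟨f2, ?_⟩
  unfold AA
  rw [v2, v1, HH_PP _ hδ]
  ring

end Vale.Agent.P153.R2.INTF
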